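import Vale.Agent.P253.Bdl.B2

/-!
P253: in positive bisectional curvature no nonconstant orbit of the complexified flow is bounded.
-/

open scoped Manifold ContDiff Topology Bundle
open Set Metric Complex Filter Bundle IsManifold Manifold Module Vale.Agent.P253.Mfd

set_option maxSynthPendingDepth 3
set_option linter.unusedSectionVars false

noncomputable section

namespace Vale.Agent.P253.H348

/-- a function bounded on the line and convex on all intervals is constant -/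
theorem const_of_convex_bounded {f : ℝ → ℝ} (hconv : ∀ a b : ℝ, a < b → ConvexOn ℝ (Icc a b) f)
    {C : ℝ} (hC : ∀ t, |f t| ≤ C) (s t : ℝ) : f s = f t := by
  have hC0 : 0 ≤ C := (abs_nonneg _).trans (hC 0)
  have h1 : ∀ a b : ℝ, a < b → f b ≤ f a := by
    intro a b hab
    refine le_of_forall_pos_le_add fun δ hδ => ?_
    set R : ℝ := (b - a) * (2 * C + 1) / δ + (b - a) with hR
    have hab' : 0 < b - a := by linarith
    have hR0 : b - a < R := by
      rw [hR]
      have : 0 < (b - a) * (2 * C + 1) / δ := by positivity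
      linarith
    have hl0 : 0 ≤ 1 - (b - a) / R := by
      rw [sub_nonneg, div_le_one (by linarith)]
      exact hR0.le
    have hl1 : 0 ≤ (b - a) / R := div_nonneg hab'.le (by linarith)
    have h2 := (hconv a (a + R) (by linarith)).2 (left_mem_Icc.2 (by linarith))
      (right_mem_Icc.2 (by linarith : a ≤ a + R)) hl0 hl1 (by ring)
    have hRne : R ≠ 0 := by linarith
    have e1 : (1 - (b - a) / R) • a + ((b - a) / R) • (a + R) = b := by
      simp only [smul_eq_mul]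
      field_simp
      ring
    rw [e1] at h2
    simp only [smul_eq_mul] at h2
    have h3 := (abs_le.1 (hC (a + R))).2
    have h4 := (abs_le.1 (hC a)).1
    have h5 : (b - a) / R * (2 * C) ≤ δ := by
      have hRpos : 0 < R := by linarith
      rw [div_mul_eq_mul_div, div_le_iff₀ hRpos, hR]
      have h6 : δ * ((b - a) * (2 * C + 1) / δ + (b - a))
          = (b - a) * (2 * C + 1) + δ * (b - a) := by field_simp
      rw [h6]
      nlinarith
    have h6 : 0 ≤ (b - a) / R := div_nonneg hab'.le (by linarith)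
    nlinarith
  have h2 : ∀ a b : ℝ, a < b → f a ≤ f b := by
    intro a b hab
    refine le_of_forall_pos_le_add fun δ hδ => ?_
    set R : ℝ := (b - a) * (2 * C + 1) / δ + (b - a) with hR
    have hab' : 0 < b - a := by linarith
    have hR0 : b - a < R := by
      rw [hR]
      have : 0 < (b - a) * (2 * C + 1) / δ := by positivity
      linarith
    have hl0 : 0 ≤ 1 - (b - a) / R := by
      rw [sub_nonneg, div_le_one (by linarith)]
      exact hR0.le
    have hl1 : 0 ≤ (b - a) / R := div_nonneg hab'.le (by linarith)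
    have h2 := (hconv (b - R) b (by linarith)).2 (left_mem_Icc.2 (by linarith))
      (right_mem_Icc.2 (by linarith : b - R ≤ b)) hl1 hl0 (by ring)
    have hRne : R ≠ 0 := by linarith
    have e1 : ((b - a) / R) • (b - R) + (1 - (b - a) / R) • b = a := by
      simp only [smul_eq_mul]
      field_simp
      ring
    rw [e1] at h2
    simp only [smul_eq_mul] at h2
    have h3 := (abs_le.1 (hC (b - R))).2
    have h4 := (abs_le.1 (hC b)).1
    have h5 : (b - a) / R * (2 * C) ≤ δ := by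
      have hRpos : 0 < R := by linarith
      rw [div_mul_eq_mul_div, div_le_iff₀ hRpos, hR]
      have h6 : δ * ((b - a) * (2 * C + 1) / δ + (b - a))
          = (b - a) * (2 * C + 1) + δ * (b - a) := by field_simp
      rw [h6]
      nlinarith
    have h6 : 0 ≤ (b - a) / R := div_nonneg hab'.le (by linarith)
    nlinarith
  rcases lt_trichotomy s t with h | h | h
  · exact le_antisymm (h2 s t h) (h1 s t h)
  · rw [h]
  · exact le_antisymm (h1 t s h) (h2 t s h)

variable {E : Type*} [NormedAddCommGroup E] [NormedSpace ℂ E] [FiniteDimensional ℂ E]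
  {M : Type*} [MetricSpace M] [ChartedSpace E M]
  [IsManifold 𝓘(ℂ, E) 1 M] [IsManifold 𝓘(ℝ, E) ∞ M]
  [RiemannianBundle (fun x : M => TangentSpace 𝓘(ℝ, E) x)]
  [IsContMDiffRiemannianBundle 𝓘(ℝ, E) ∞ E (fun x : M => TangentSpace 𝓘(ℝ, E) x)]
  {ρ : ℝ → M → M} {e e' : OpenPartialHomeomorph M E} {γ : ℝ → M}

/-- the derivative in time of the action in a chart -/
theorem hasDerivAt_HF_time (hρ : IsHolIsomFlow E ρ) (he : e ∈ maximalAtlas 𝓘(ℂ, E) 1 M) {t : ℝ}
    {z : E} (hq : (t, z) ∈ HΩ ρ e e) :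
    HasDerivAt (fun s => HF ρ e e (s, z)) (xF ρ e (HF ρ e e (t, z))) t := by
  have hz' : HF ρ e e (t, z) ∈ e.target := e.map_source hq.2
  have h1 := hasDerivAt_HF_left hρ he he (mem_HΩ_zero hρ hz')
  rw [← xF_eq hρ he hz'] at h1
  have h1' : HasDerivAt (fun s => HF ρ e e (s, HF ρ e e (t, z))) (xF ρ e (HF ρ e e (t, z)))
      (t - t) := by rwa [sub_self]
  have h2 : HasDerivAt (fun s : ℝ => s - t) 1 t := (hasDerivAt_id t).sub_const t
  have h3 := HasDerivAt.scomp (h := fun s : ℝ => s - t) t h1' h2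
  rw [one_smul] at h3
  refine h3.congr_of_eventuallyEq (Eventually.of_forall fun s => ?_)
  simp only [Function.comp_apply, HF]
  rw [e.left_inv hq.2, ← hρ.add, sub_add_cancel]

/-- the complexified orbit in a chart is holomorphic -/
theorem orbit_holo (hρ : IsHolIsomFlow E ρ) (he : e ∈ maximalAtlas 𝓘(ℂ, E) 1 M)
    (hγ : IsMIntegralCurve (I := 𝓘(ℝ, E)) γ (W ρ)) {ζ : ℂ} (h1 : γ ζ.re ∈ e.source)
    (h2 : ρ ζ.im (γ ζ.re) ∈ e.source) :
    DifferentiableAt ℂ (fun ζ : ℂ => HF ρ e e (ζ.im, e (γ ζ.re))) ζ ∧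
      fderiv ℝ (fun ζ : ℂ => HF ρ e e (ζ.im, e (γ ζ.re))) ζ 1
        = vF ρ e (HF ρ e e (ζ.im, e (γ ζ.re))) := by
  have hq : (ζ.im, e (γ ζ.re)) ∈ HΩ ρ e e := ⟨e.map_source h1, by rwa [e.left_inv h1]⟩
  set q : ℝ × E := (ζ.im, e (γ ζ.re)) with hqd
  have hy := IntegralCurve.hasDerivAt hρ he (hγ.isMIntegralCurveOn univ) univ_mem h1
  have hyf : HasFDerivAt (fun ζ : ℂ => (e ∘ γ) ζ.re)
      ((ContinuousLinearMap.toSpanSingleton ℝ (vF ρ e (e (γ ζ.re)))).comp reCLM) ζ :=
    hy.hasFDerivAt.comp ζ reCLM.hasFDerivAt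
  have hpair : HasFDerivAt (fun ζ : ℂ => (ζ.im, (e ∘ γ) ζ.re))
      (imCLM.prod ((ContinuousLinearMap.toSpanSingleton ℝ (vF ρ e (e (γ ζ.re)))).comp reCLM)) ζ :=
    imCLM.hasFDerivAt.prodMk hyf
  have hHF : HasFDerivAt (HF ρ e e) (fderiv ℝ (HF ρ e e) q) q :=
    (differentiableAt_HF hρ he he hq).hasFDerivAt
  have hw : HasFDerivAt (fun ζ : ℂ => HF ρ e e (ζ.im, e (γ ζ.re)))
      ((fderiv ℝ (HF ρ e e) q).comp
        (imCLM.prod ((ContinuousLinearMap.toSpanSingleton ℝ (vF ρ e (e (γ ζ.re)))).comp reCLM)))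
      ζ := HasFDerivAt.comp ζ (f := fun ζ : ℂ => (ζ.im, (e ∘ γ) ζ.re)) hHF hpair
  have e1 : fderiv ℝ (HF ρ e e) q (1, 0) = xF ρ e (HF ρ e e q) :=
    (hasDerivAt_HF_left hρ he he hq).unique (hasDerivAt_HF_time hρ he hq)
  have e2 : fderiv ℝ (HF ρ e e) q (0, vF ρ e (e (γ ζ.re))) = vF ρ e (HF ρ e e q) := by
    have h3 := vF_change hρ he he hq
    rw [(hasFDerivAt_HF_right hρ he he hq).fderiv] at h3
    exact h3
  have hL : ∀ v : ℂ, fderiv ℝ (fun ζ : ℂ => HF ρ e e (ζ.im, e (γ ζ.re))) ζ v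
      = v.im • xF ρ e (HF ρ e e q) + v.re • vF ρ e (HF ρ e e q) := by
    intro v
    rw [hw.fderiv]
    have h3 : (imCLM.prod ((ContinuousLinearMap.toSpanSingleton ℝ
        (vF ρ e (e (γ ζ.re)))).comp reCLM)) v
        = v.im • ((1 : ℝ), (0 : E)) + v.re • ((0 : ℝ), vF ρ e (e (γ ζ.re))) := by
      simp
    rw [ContinuousLinearMap.comp_apply, h3, map_add, map_smul, map_smul, e1, e2]
  refine ⟨differentiableAt_complex_of_real hw.differentiableAt fun v => ?_, ?_⟩
  · rw [hL, hL, ← I_smul_vF ρ e (HF ρ e e q)]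
    simp only [smul_eq_mul, mul_re, mul_im, I_re, I_im, zero_mul, one_mul, zero_sub, zero_add,
      smul_add, neg_smul]
    rw [smul_comm I v.im, smul_comm I v.re, smul_smul I I, I_mul_I, neg_one_smul]
    simp only [smul_neg]
    abel
  · rw [hL]
    simp

/-- the four point family of the complexified orbit is harmonic -/
theorem orbit_harm (hρ : IsHolIsomFlow E ρ) (he : e ∈ maximalAtlas 𝓘(ℂ, E) 1 M)
    (hγ : IsMIntegralCurve (I := 𝓘(ℝ, E)) γ (W ρ)) {t : ℝ} (ht : γ t ∈ e.source) :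
    Harm e (γ t) (vF ρ e (e (γ t)))
      (fun r k => ρ ((t : ℂ) + r * I ^ (k : ℕ)).im (γ ((t : ℂ) + r * I ^ (k : ℕ)).re)) := by
  have hγc : Continuous γ := hγ.continuous
  have hρc : Continuous (fun q : ℝ × M => ρ q.1 q.2) := hρ.smooth.continuous
  set Ω : Set ℂ := {ζ : ℂ | γ ζ.re ∈ e.source ∧ ρ ζ.im (γ ζ.re) ∈ e.source} with hΩ
  have hΩo : IsOpen Ω := by
    have c1 : Continuous (fun ζ : ℂ => γ ζ.re) := hγc.comp continuous_re
    have c2 : Continuous (fun ζ : ℂ => ρ ζ.im (γ ζ.re)) :=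
      hρc.comp (continuous_im.prodMk c1)
    exact (e.open_source.preimage c1).inter (e.open_source.preimage c2)
  have htΩ : (t : ℂ) ∈ Ω := by
    refine ⟨by simpa using ht, ?_⟩
    simp only [ofReal_im, ofReal_re, hρ.zero]
    exact ht
  have hd : DifferentiableOn ℂ (fun ζ : ℂ => HF ρ e e (ζ.im, e (γ ζ.re))) Ω := fun ζ hζ =>
    (orbit_holo hρ he hγ hζ.1 hζ.2).1.differentiableWithinAt
  have hev : ∀ᶠ r : ℝ in 𝓝[>] (0:ℝ), ∀ k : Fin 4, (t : ℂ) + (r : ℂ) * I ^ (k : ℕ) ∈ Ω := by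
    apply eventually_all.2
    intro k
    have hc : Continuous (fun r : ℝ => (t : ℂ) + r * I ^ (k:ℕ)) :=
      continuous_const.add (continuous_ofReal.mul continuous_const)
    have h0 : Tendsto (fun r : ℝ => (t : ℂ) + r * I ^ (k:ℕ)) (𝓝[>] (0:ℝ)) (𝓝 (t : ℂ)) := by
      have := (hc.tendsto 0).mono_left (nhdsWithin_le_nhds (s := Ioi (0:ℝ)))
      simpa using this
    exact h0.eventually (hΩo.mem_nhds htΩ)
  have hval : ∀ ζ ∈ Ω, HF ρ e e (ζ.im, e (γ ζ.re)) = e (ρ ζ.im (γ ζ.re)) := by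
    intro ζ hζ
    simp only [HF]
    rw [e.left_inv hζ.1]
  have hwt : HF ρ e e ((t : ℂ).im, e (γ (t : ℂ).re)) = e (γ t) := by
    rw [hval _ htΩ]
    simp [hρ.zero]
  refine ⟨?_, ?_⟩
  · filter_upwards [hev] with r hr k
    exact (hr k).2
  · have h1 := isSmall_map (E := E) hΩo hd htΩ (1:ℂ) (isSmall_zero (E := ℂ))
    have h2 := (orbit_holo hρ he hγ htΩ.1 htΩ.2).2
    rw [hwt] at h2
    refine h1.congr ?_
    filter_upwards [hev] with r hr k
    have e1 : (t : ℂ) + (r • (I ^ (k:ℕ) • (1:ℂ)) + 0) = (t : ℂ) + r * I ^ (k : ℕ) := by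
      simp
    rw [e1, h2, hwt, hval _ (hr k)]

variable [IsRiemannianManifold 𝓘(ℝ, E) M]

/-- second difference bound for the distance to an orbit, local version -/
theorem second_diff_local [ProperSpace M] (hρ : IsHolIsomFlow E ρ) {p : M}
    (hp : ∀ θ, ρ θ p = p) (he : e ∈ maximalAtlas 𝓘(ℂ, E) 1 M)
    (hγ : IsMIntegralCurve (I := 𝓘(ℝ, E)) γ (W ρ)) (q : M) {t : ℝ} (ht : γ t ∈ e.source) {A : ℝ}
    (hA : ∀ y ∈ orb ρ q, LeviBound (E := E) y (γ t) A) {η : ℝ} (hη : 0 < η) :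
    ∀ᶠ r in 𝓝[>] (0:ℝ),
      (-A * chartG e (e (γ t)) (vF ρ e (e (γ t))) (vF ρ e (e (γ t))) - η) * r ^ 2 ≤
      -infDist (γ (t + r)) (orb ρ q) + -infDist (γ (t - r)) (orb ρ q)
        - 2 * -infDist (γ t) (orb ρ q) := by
  obtain ⟨y, hyo, hy⟩ := (isCompact_orb hρ hp q).exists_infDist_eq_dist ⟨_, mem_orb q 0⟩ (γ t)
  have h1 := hA y hyo e he ht _ _ (orbit_harm hρ he hγ ht) η hη
  filter_upwards [h1] with r hr
  rw [Fin.sum_univ_four] at hr
  have h3 : (I : ℂ) ^ 3 = -I := by rw [pow_succ, I_sq]; ring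
  simp only [Fin.val_zero, Fin.val_one, Fin.val_two, pow_zero, pow_one, I_sq,
    show ((3 : Fin 4) : ℕ) = 3 from rfl, h3, mul_one, mul_neg, add_re, add_im, neg_re, neg_im,
    ofReal_re, ofReal_im, mul_re, mul_im, I_re, I_im, mul_zero, sub_zero, add_zero, zero_add,
    neg_zero, hρ.zero] at hr
  have e1 : infDist (γ (t + r)) (orb ρ q) ≤ dist (γ (t + r)) y := infDist_le_dist_of_mem hyo
  have e2 : infDist (γ (t - r)) (orb ρ q) ≤ dist (γ (t + -r)) y := by
    rw [← sub_eq_add_neg]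
    exact infDist_le_dist_of_mem hyo
  have e3 : infDist (γ t) (orb ρ q) ≤ dist (ρ r (γ t)) y := by
    rw [← infDist_orb hρ hp q _ r]
    exact infDist_le_dist_of_mem hyo
  have e4 : infDist (γ t) (orb ρ q) ≤ dist (ρ (-r) (γ t)) y := by
    rw [← infDist_orb hρ hp q _ (-r)]
    exact infDist_le_dist_of_mem hyo
  rw [← hy] at hr
  linarith only [hr, e1, e2, e3, e4]

/-- uniform strictness on a compact set -/
theorem levi_strict_compact (hK : IsKahler E M) [ProperSpace M]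
    (hnn : ∀ x : M, NonnegBisectionalAt E x) {K : Set M} (hKc : IsCompact K)
    (hpos : ∀ x ∈ K, PosBisectionalAt E x) :
    ∃ c > 0, ∃ L₀ > 0, ∀ x ∈ K, ∀ q : M, L₀ ≤ dist x q → LeviBound (E := E) q x (-c) := by
  refine hKc.induction_on (p := fun S => ∃ c > 0, ∃ L₀ > 0, ∀ x ∈ S, ∀ q : M, L₀ ≤ dist x q →
    LeviBound (E := E) q x (-c)) ?_ ?_ ?_ ?_
  · exact ⟨1, one_pos, 1, one_pos, fun x hx => absurd hx (notMem_empty x)⟩
  · rintro S T hST ⟨c, hc, L, hL, h⟩
    exact ⟨c, hc, L, hL, fun x hx => h x (hST hx)⟩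
  · rintro S T ⟨c, hc, L, hL, h⟩ ⟨c', hc', L', hL', h'⟩
    refine ⟨min c c', lt_min hc hc', max L L', lt_max_of_lt_left hL, ?_⟩
    rintro x (hx | hx) q hq
    · exact (h x hx q ((le_max_left _ _).trans hq)).mono (neg_le_neg (min_le_left _ _))
    · exact (h' x hx q ((le_max_right _ _).trans hq)).mono (neg_le_neg (min_le_right _ _))
  · intro x hx
    obtain ⟨r, hr, c, hc, L, hL, h⟩ := levi_strict hK hnn (hpos x hx)
    exact ⟨ball x r, mem_nhdsWithin_of_mem_nhds (ball_mem_nhds x hr), c, hc, L, hL, h⟩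

/-- **Lemma Z**: no nonconstant orbit of the complexified flow is bounded -/
theorem no_bounded_orbit (hK : IsKahler E M) [CompleteSpace M] [NoncompactSpace M]
    (hnn : ∀ x : M, NonnegBisectionalAt E x) (hpos : ∀ x : M, PosBisectionalAt E x)
    (hρ : IsHolIsomFlow E ρ) {p : M} (hp : ∀ θ, ρ θ p = p)
    (hγ : IsMIntegralCurve (I := 𝓘(ℝ, E)) γ (W ρ))
    (hx : vF ρ (chartAt E (γ 0)) (chartAt E (γ 0) (γ 0)) ≠ 0) :
    ¬ Bornology.IsBounded (range γ) := by
  intro hb
  have hP : ProperSpace M := properSpace_riemannian E M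
  have hγc : Continuous γ := hγ.continuous
  obtain ⟨R, hR⟩ := hb.subset_closedBall p
  have hdR : ∀ t, dist (γ t) p ≤ R := fun t => hR ⟨t, rfl⟩
  obtain ⟨c, hc, L₀, hL₀, hlev⟩ := levi_strict_compact hK hnn (isCompact_closedBall p R)
    fun x _ => hpos x
  obtain ⟨q, hq⟩ := exists_far p (R + L₀)
  set O := orb ρ q with hO
  have hfar : ∀ t, ∀ y ∈ O, L₀ ≤ dist (γ t) y := by
    intro t y hy
    have h1 := dist_orb hρ hp q hy
    have h2 := dist_triangle p (γ t) y
    rw [dist_comm p (γ t)] at h2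
    linarith [hdR t]
  set f : ℝ → ℝ := fun t => -infDist (γ t) O with hf
  have hfc : Continuous f := ((continuous_infDist_pt O).comp hγc).neg
  have hfb : ∀ t, |f t| ≤ R + dist p q := by
    intro t
    have h1 : infDist (γ t) O ≤ dist (γ t) q := by
      refine infDist_le_dist_of_mem ?_
      have := mem_orb (ρ := ρ) q 0
      rwa [hρ.zero] at this
    have h2 := dist_triangle (γ t) p q
    rw [hf]
    simp only [abs_neg, abs_of_nonneg infDist_nonneg]
    linarith [hdR t]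
  have hsec : ∀ t : ℝ, ∀ η > 0, ∀ᶠ r in 𝓝[>] (0:ℝ),
      (c * chartG (chartAt E (γ t)) (chartAt E (γ t) (γ t))
        (vF ρ (chartAt E (γ t)) (chartAt E (γ t) (γ t)))
        (vF ρ (chartAt E (γ t)) (chartAt E (γ t) (γ t))) - η) * r ^ 2
        ≤ f (t + r) + f (t - r) - 2 * f t := by
    intro t η hη
    have h1 := second_diff_local hρ hp (chart_mem_maximalAtlas (γ t)) hγ q
      (mem_chart_source E (γ t)) (A := -c)
      (fun y hy => hlev _ (by rw [mem_closedBall]; exact hdR t) y (hfar t y hy)) hη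
    filter_upwards [h1] with r hr
    rw [neg_neg] at hr
    exact hr
  have hNn : ∀ t : ℝ, 0 ≤ chartG (chartAt E (γ t)) (chartAt E (γ t) (γ t))
        (vF ρ (chartAt E (γ t)) (chartAt E (γ t) (γ t)))
        (vF ρ (chartAt E (γ t)) (chartAt E (γ t) (γ t))) := by
    intro t
    by_cases h0 : vF ρ (chartAt E (γ t)) (chartAt E (γ t) (γ t)) = 0
    · rw [h0]; simp
    · exact (chartG_pos (mem_maximalAtlas_real (chart_mem_maximalAtlas (γ t)))
        (mem_chart_target E (γ t)) _ h0).le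
  have hconv : ∀ a b : ℝ, a < b → ConvexOn ℝ (Icc a b) f := by
    intro a b _
    have h1 := convexOn_of_second_diff (f := f) (a := a) (b := b) (m := 0) hfc.continuousOn
      fun t _ η hη => by
        filter_upwards [hsec t η hη] with r hr
        refine le_trans ?_ hr
        have := mul_nonneg hc.le (hNn t)
        nlinarith [sq_nonneg r]
    simpa using h1
  have hconst := const_of_convex_bounded hconv hfb
  have hN0 : 0 < chartG (chartAt E (γ 0)) (chartAt E (γ 0) (γ 0))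
        (vF ρ (chartAt E (γ 0)) (chartAt E (γ 0) (γ 0)))
        (vF ρ (chartAt E (γ 0)) (chartAt E (γ 0) (γ 0))) :=
    chartG_pos (mem_maximalAtlas_real (chart_mem_maximalAtlas (γ 0)))
        (mem_chart_target E (γ 0)) _ hx
  set N := chartG (chartAt E (γ 0)) (chartAt E (γ 0) (γ 0))
        (vF ρ (chartAt E (γ 0)) (chartAt E (γ 0) (γ 0)))
        (vF ρ (chartAt E (γ 0)) (chartAt E (γ 0) (γ 0))) with hN
  have h1 := hsec 0 (c * N / 2) (by positivity)
  have h2 : ∀ᶠ r in 𝓝[>] (0:ℝ), 0 < r := self_mem_nhdsWithin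
  obtain ⟨r, hr, hr0⟩ := (h1.and h2).exists
  rw [hconst (0 + r) 0, hconst (0 - r) 0] at hr
  have h3 : 0 < (c * N - c * N / 2) * r ^ 2 := by
    have : c * N - c * N / 2 = c * N / 2 := by ring
    rw [this]
    positivity
  linarith

end Vale.Agent.P253.H348
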