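import Vale.Agent.P253.H348.Conv

/-!
P253: if the curvature is positive at a point at which the field does not vanish and its covariant
derivative is nonnegative, then the covariant derivative is positive definite at another point.
-/

open scoped Manifold ContDiff Topology Bundle
open Set Metric Complex Filter Bundle IsManifold Manifold Module
  Vale.Agent.P253.Mfd Vale.Agent.P253.H577 Vale.Agent.P253.H22

set_option maxSynthPendingDepth 3
set_option linter.unusedSectionVars false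

noncomputable section

namespace Vale.Agent.P253.H348

variable {E : Type*} [NormedAddCommGroup E] [NormedSpace ℂ E] [FiniteDimensional ℂ E]

/-- the top eigenvalue decreases at a definite rate in positive curvature -/
theorem top_strict {G : E → E →L[ℝ] E →L[ℝ] ℝ} {U : Set E} {v : E → E}
    (h : LocalKahler G U) (hv : ContDiffOn ℂ ∞ v U)
    (hk : Killing G v U) {y : ℝ → E} {a b : ℝ} (hab : a ≤ b)
    (hy : ∀ t ∈ Icc a b, HasDerivWithinAt y (v (y t)) (Icc a b) t) (hyU : ∀ t ∈ Icc a b, y t ∈ U)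
    {κ m : ℝ} (hκ : 0 ≤ κ)
    (hR : ∀ t ∈ Icc a b, ∀ X w, κ * G (y t) X X * G (y t) w w ≤ Rc G (y t) X w)
    (hm : ∀ t ∈ Icc a b, m ≤ G (y t) (v (y t)) (v (y t)))
    {Λ : ℝ} (hΛ : ∀ w, Sfun G v (y a) w ≤ Λ * G (y a) w w) (w : E) :
    Sfun G v (y b) w ≤ (Λ - 2 * κ * m * (b - a)) * G (y b) w w := by
  have hyc : ContinuousOn y (Icc a b) := fun t ht => (hy t ht).continuousWithinAt
  have hvr : ContDiffOn ℝ ∞ v U := hv.restrict_scalars ℝ
  have hvc : ContinuousOn (fun t => v (y t)) (Icc a b) := hvr.continuousOn.comp hyc hyU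
  obtain ⟨β, hβ1, hβ⟩ := exists_par_back h hab hyc hyU hvc w
  have hβc : ContinuousOn β (Icc a b) := fun t ht => (hβ t ht).continuousWithinAt
  have hconst : ∀ t ∈ Icc a b, G (y t) (β t) (β t) = G (y b) w w := by
    intro t ht
    have h1 := par_const h hy hyU hβ ht
    have h2 := par_const h hy hyU hβ (right_mem_Icc.2 hab)
    rw [hβ1] at h2
    rw [h1, h2]
  set L := G (y b) w w with hL
  have hL0 : 0 ≤ L := by
    by_cases h0 : w = 0
    · simp [hL, h0]
    · exact (h.pos _ (hyU b (right_mem_Icc.2 hab)) w h0).le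
  have hder : ∀ t ∈ Ioo a b, HasDerivAt
      (fun t => Sfun G v (y t) (β t) + 2 * κ * m * L * (t - a))
      (-(2 * Rc G (y t) (v (y t)) (β t)) + 2 * κ * m * L * 1) t := by
    intro t ht
    have hn : Icc a b ∈ 𝓝 t := Icc_mem_nhds ht.1 ht.2
    have h1 := hasDerivAt_Sfun_par h hv hk (hyU t (Ioo_subset_Icc_self ht))
      ((hy t (Ioo_subset_Icc_self ht)).hasDerivAt hn) rfl
      ((hβ t (Ioo_subset_Icc_self ht)).hasDerivAt hn) rfl
    exact h1.add (((hasDerivAt_id t).sub_const a).const_mul (2 * κ * m * L))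
  have hanti : AntitoneOn (fun t => Sfun G v (y t) (β t) + 2 * κ * m * L * (t - a)) (Icc a b) := by
    apply antitoneOn_of_deriv_nonpos (convex_Icc a b)
    · have c1 : ContinuousOn (fun t => fderiv ℝ G (y t)) (Icc a b) :=
        h.contDiffOn_fderiv.continuousOn.comp hyc hyU
      have c2 : ContinuousOn (fun t => G (y t)) (Icc a b) := h.smooth.continuousOn.comp hyc hyU
      have c3 : ContinuousOn (fun t => fderiv ℝ v (y t)) (Icc a b) :=
        (hvr.fderiv_of_isOpen h.isOpen (m := ∞) (by simp)).continuousOn.comp hyc hyU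
      have c4 := ((c1.clm_apply hvc).clm_apply hβc).clm_apply hβc
      have c5 := (c2.clm_apply (c3.clm_apply hβc)).clm_apply hβc
      exact ((c4.add (continuousOn_const.mul c5)).div_const 2).add (by fun_prop)
    · intro t ht
      rw [interior_Icc] at ht
      exact (hder t ht).differentiableAt.differentiableWithinAt
    · intro t ht
      rw [interior_Icc] at ht
      rw [(hder t ht).deriv]
      have ht' := Ioo_subset_Icc_self ht
      have h1 := hR t ht' (v (y t)) (β t)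
      rw [hconst t ht'] at h1
      have h2 := hm t ht'
      have h3 : κ * L * m ≤ κ * L * G (y t) (v (y t)) (v (y t)) :=
        mul_le_mul_of_nonneg_left h2 (mul_nonneg hκ hL0)
      nlinarith only [h1, h3]
  have h1 := hanti (left_mem_Icc.2 hab) (right_mem_Icc.2 hab) hab
  simp only [sub_self, mul_zero, add_zero] at h1
  rw [hβ1] at h1
  have h2 := hΛ (β a)
  rw [hconst a (left_mem_Icc.2 hab)] at h2
  linarith only [h1, h2]

variable {M : Type*} [MetricSpace M] [ChartedSpace E M]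
  [IsManifold 𝓘(ℂ, E) 1 M] [IsManifold 𝓘(ℝ, E) ∞ M]
  [RiemannianBundle (fun x : M => TangentSpace 𝓘(ℝ, E) x)]
  [IsContMDiffRiemannianBundle 𝓘(ℝ, E) ∞ E (fun x : M => TangentSpace 𝓘(ℝ, E) x)]
  [IsRiemannianManifold 𝓘(ℝ, E) M]
  {ρ : ℝ → M → M} {e e' : OpenPartialHomeomorph M E} {p : M} {lam : ℝ}

theorem exists_top_strict (hK : IsKahler E M) (hρ : IsHolIsomFlow E ρ) {x₀ : M}
    (hpos : PosBisectionalAt E x₀) (hne : vF ρ (chartAt E x₀) (chartAt E x₀ x₀) ≠ 0)
    (htop : TopLE (E := E) ρ 0 x₀) : ∃ x₁ : M, ∃ c > 0, TopLE (E := E) ρ (-c) x₁ := by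
  obtain ⟨ε, hε, V, hV, hcurve⟩ := exists_local_curve (E := E) hρ x₀
  obtain ⟨γ, hγ0, hγ⟩ := hcurve x₀ (mem_of_mem_nhds hV)
  have he : chartAt E x₀ ∈ maximalAtlas 𝓘(ℂ, E) 1 M := chart_mem_maximalAtlas x₀
  have hx : x₀ ∈ (chartAt E x₀).source := mem_chart_source E x₀
  set e := chartAt E x₀ with hedef
  have her := mem_maximalAtlas_real he
  have hz : e x₀ ∈ e.target := e.map_source hx
  have hL := localKahler_chartG hK he
  obtain ⟨κ, hκ, δ, hδ, hball, hR⟩ := hL.exists_kappa hz fun X a hX ha =>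
    Rc_pos_chartG hK he hz (by rw [e.left_inv hx]; exact hpos) X a hX ha
  have hval : 0 < chartG e (e x₀) (vF ρ e (e x₀)) (vF ρ e (e x₀)) := hL.pos _ hz _ hne
  set m := chartG e (e x₀) (vF ρ e (e x₀)) (vF ρ e (e x₀)) / 2 with hm
  have hm0 : 0 < m := by positivity
  have hγc : ContinuousAt γ 0 :=
    (hγ.continuousWithinAt ⟨by linarith, hε⟩).continuousAt (Ioo_mem_nhds (by linarith) hε)
  have hxs : γ 0 ∈ e.source := by rw [hγ0]; exact hx
  have hyc : ContinuousAt (e ∘ γ) 0 := (e.continuousAt hxs).comp hγc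
  have hy0 : (e ∘ γ) 0 = e x₀ := by simp [hγ0]
  have hGc : ContinuousAt (fun z => chartG e z (vF ρ e z) (vF ρ e z)) (e x₀) := by
    have h1 : ContinuousAt (chartG e) (e x₀) :=
      hL.smooth.continuousOn.continuousAt (e.open_target.mem_nhds hz)
    have h2 : ContinuousAt (vF ρ e) (e x₀) :=
      (contDiffOn_vF hρ he).continuousOn.continuousAt (e.open_target.mem_nhds hz)
    exact (h1.clm_apply h2).clm_apply h2
  have ev1 : ∀ᶠ t in 𝓝 (0:ℝ), t ∈ Ioo (-ε) ε := Ioo_mem_nhds (by linarith) hε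
  have ev2 : ∀ᶠ t in 𝓝 (0:ℝ), γ t ∈ e.source := hγc.eventually (e.open_source.mem_nhds hxs)
  have ev3 : ∀ᶠ t in 𝓝 (0:ℝ), (e ∘ γ) t ∈ closedBall (e x₀) δ := by
    refine hyc.eventually ?_
    rw [hy0]
    exact closedBall_mem_nhds _ hδ
  have ev4 : ∀ᶠ t in 𝓝 (0:ℝ),
      m ≤ chartG e ((e ∘ γ) t) (vF ρ e ((e ∘ γ) t)) (vF ρ e ((e ∘ γ) t)) := by
    have h1 : ∀ᶠ z in 𝓝 (e x₀), m ≤ chartG e z (vF ρ e z) (vF ρ e z) :=
      hGc.eventually (eventually_ge_nhds (by rw [hm]; linarith))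
    rw [← hy0] at h1
    exact hyc.eventually h1
  obtain ⟨η, hη, hloc⟩ := Metric.eventually_nhds_iff.1 (((ev1.and ev2).and ev3).and ev4)
  set b := η / 2 with hb
  have hb0 : 0 < b := by positivity
  have hloc' : ∀ t ∈ Icc (0:ℝ) b, ((t ∈ Ioo (-ε) ε ∧ γ t ∈ e.source) ∧
      (e ∘ γ) t ∈ closedBall (e x₀) δ) ∧
      m ≤ chartG e ((e ∘ γ) t) (vF ρ e ((e ∘ γ) t)) (vF ρ e ((e ∘ γ) t)) := by
    intro t ht
    apply hloc
    rw [Real.dist_eq, sub_zero, abs_of_nonneg ht.1]
    linarith [ht.2]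
  have hbI : b ∈ Icc (0:ℝ) b := ⟨hb0.le, le_rfl⟩
  refine ⟨γ b, 2 * κ * m * b, by positivity, TopLE.of_chart hρ he (hloc' b hbI).1.1.2 fun w => ?_⟩
  have h1 := top_strict (y := e ∘ γ) hL (contDiffOn_vF hρ he) (killing_vF hρ he) hb0.le
    (fun t ht => (IntegralCurve.hasDerivAt hρ he hγ
      (Ioo_mem_nhds (hloc' t ht).1.1.1.1 (hloc' t ht).1.1.1.2)
      (hloc' t ht).1.1.2).hasDerivWithinAt)
    (fun t ht => e.map_source (hloc' t ht).1.1.2) hκ.le
    (fun t ht X w => hR _ (hloc' t ht).1.2 X w) (fun t ht => (hloc' t ht).2) (Λ := 0)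
    (fun w => by
      rw [hy0]
      exact htop e he hx w) w
  refine h1.trans (le_of_eq ?_)
  simp only [Function.comp_apply]
  ring

/-- **semidefinite at one point suffices** if the curvature is positive there and the field does not
vanish there -/
theorem exists_botGE_of_nonneg (hK : IsKahler E M) (hρ : IsHolIsomFlow E ρ) {x₀ : M}
    (hpos : PosBisectionalAt E x₀) (hne : ∃ t, ρ t x₀ ≠ x₀)
    (hb : BotGE (E := E) ρ 0 x₀) : ∃ x₁ : M, ∃ c > 0, BotGE (E := E) ρ c x₁ := by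
  have h1 : TopLE (E := E) (fun t => ρ (-t)) 0 x₀ := by
    have := topLE_rev.2 hb
    rwa [neg_zero] at this
  obtain ⟨x₁, c, hc, h2⟩ := exists_top_strict hK hρ.rev hpos (fun h0 => by
    rw [vF_rev, neg_eq_zero] at h0
    obtain ⟨t, ht⟩ := hne
    exact ht (fixed_of_zero hρ (chart_mem_maximalAtlas x₀) (mem_chart_source E x₀) h0 t)) h1
  exact ⟨x₁, c, hc, topLE_rev.1 h2⟩

end Vale.Agent.P253.H348
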