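import Vale.Agent.P253.H348.Pot
import Vale.Agent.P253.H348.Weak
import Vale.Agent.P253.H502.Src

/-!
P253: uniformization by a real function with J-invariant Hessian; gradient Kaehler-Ricci solitons.
-/

open scoped Manifold ContDiff Topology Bundle
open Set Metric Complex Filter Bundle IsManifold Manifold Module
  Vale.Agent.P253.Mfd Vale.Agent.P253.H577 Vale.Agent.P253.H595 Vale.Agent.P253.H22

set_option maxSynthPendingDepth 3
set_option linter.unusedSectionVars false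

noncomputable section

namespace Vale.Agent.P253.H348

section defs

variable {E : Type*} [NormedAddCommGroup E] [NormedSpace ℂ E]
  {M : Type*} [MetricSpace M] [ChartedSpace E M]
  [RiemannianBundle (fun x : M => TangentSpace 𝓘(ℝ, E) x)]

variable (E) in
/-- the Hessian of `h` is positive definite at `x` -/
def HessPosAt (h : M → ℝ) (x : M) : Prop :=
  ∀ e ∈ maximalAtlas 𝓘(ℂ, E) 1 M, x ∈ e.source → ∀ Γ, IsChristoffel e (e x) Γ →
    ∀ a, a ≠ 0 → 0 < HessAt e (e x) Γ h a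

variable (E) in
/-- the Hessian of `h` is nonnegative at `x` -/
def HessNonnegAt (h : M → ℝ) (x : M) : Prop :=
  ∀ e ∈ maximalAtlas 𝓘(ℂ, E) 1 M, x ∈ e.source → ∀ Γ, IsChristoffel e (e x) Γ →
    ∀ a, 0 ≤ HessAt e (e x) Γ h a

variable (E) in
/-- `ρ` is the flow of `J grad h`: the generator `X` of `ρ` satisfies `g (X, w) = - dh (J w)` -/
def IsJGradFlow (h : M → ℝ) (ρ : ℝ → M → M) : Prop :=
  IsHolIsomFlow E ρ ∧ ∀ e ∈ maximalAtlas 𝓘(ℂ, E) 1 M, ∀ z ∈ e.target, ∀ w : E,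
    chartMetric e z (deriv (fun t : ℝ => e (ρ t (e.symm z))) 0) w
      = -fderiv ℝ (fun y => h (e.symm y)) z (I • w)

end defs

variable {E : Type*} [NormedAddCommGroup E] [NormedSpace ℂ E] [FiniteDimensional ℂ E]
  {M : Type*} [MetricSpace M] [ChartedSpace E M]
  [IsManifold 𝓘(ℂ, E) 1 M] [IsManifold 𝓘(ℝ, E) ∞ M]
  [RiemannianBundle (fun x : M => TangentSpace 𝓘(ℝ, E) x)]
  [IsContMDiffRiemannianBundle 𝓘(ℝ, E) ∞ E (fun x : M => TangentSpace 𝓘(ℝ, E) x)]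
  [IsRiemannianManifold 𝓘(ℝ, E) M]
  {h : M → ℝ} {ρ : ℝ → M → M} {e e' : OpenPartialHomeomorph M E} {z : E} {Γ : E → E → E} {lam : ℝ}

/-- (0) the flow of `J grad h` exists -/
theorem isJGradFlow_potFlow (hK : IsKahler E M) [CompleteSpace M]
    (hh : ContMDiff 𝓘(ℝ, E) 𝓘(ℝ, ℝ) ∞ h) (hJ : HessJ E h) :
    IsJGradFlow E h (potFlow (E := E) h) := by
  refine ⟨isHolIsomFlow_potFlow hK hh hJ, fun e he z hz w => ?_⟩
  have h1 : deriv (fun t : ℝ => e (potFlow (E := E) h t (e.symm z))) 0 = I • gradF h e z := by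
    have h2 := I_smul_vF (potFlow (E := E) h) e z
    rw [vF_potFlow hK hh hJ he hz] at h2
    exact h2.symm
  rw [h1]
  have h3 := (hK e he z hz).1 (I • gradF h e z) w
  rw [smul_smul, I_mul_I, neg_one_smul] at h3
  rw [← h3, ← chartG_apply, map_neg, neg_apply, gradF_spec hK he hz]

/-- the holomorphic gradient of a flow of `J grad h` -/
theorem IsJGradFlow.vF_eq (hK : IsKahler E M) (hρ : IsJGradFlow E h ρ)
    (he : e ∈ maximalAtlas 𝓘(ℂ, E) 1 M) (hz : z ∈ e.target) : vF ρ e z = gradF h e z := by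
  refine gradF_unique hK he hz fun w => ?_
  have h1 := hρ.2 e he z hz (-(I • w))
  have h2 := (hK e he z hz).1 (vF ρ e z) w
  rw [I_smul_vF] at h2
  rw [chartG_apply, ← h2]
  have h3 : chartMetric e z (xF ρ e z) (I • w) = -chartMetric e z (xF ρ e z) (-(I • w)) := by
    rw [← chartG_apply, ← chartG_apply, map_neg, neg_neg]
  rw [h3]
  refine (congrArg Neg.neg h1).trans ?_
  rw [neg_neg, smul_neg, smul_smul, I_mul_I, neg_one_smul, neg_neg]

theorem IsJGradFlow.Sfun_eq (hK : IsKahler E M) (hh : ContMDiff 𝓘(ℝ, E) 𝓘(ℝ, ℝ) ∞ h)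
    (hρ : IsJGradFlow E h ρ)
    (he : e ∈ maximalAtlas 𝓘(ℂ, E) 1 M) (hz : z ∈ e.target) (hΓ : IsChristoffel e z Γ) (a : E) :
    Sfun (chartG e) (vF ρ e) z a = HessAt e z Γ h a := by
  rw [← Sfun_gradF hK hh he hz hΓ]
  have hev : vF ρ e =ᶠ[𝓝 z] gradF h e := by
    filter_upwards [e.open_target.mem_nhds hz] with y hy using hρ.vF_eq hK he hy
  simp only [Sfun]
  rw [hev.fderiv_eq, hρ.vF_eq hK he hz]

theorem IsJGradFlow.botGE_iff (hK : IsKahler E M) (hh : ContMDiff 𝓘(ℝ, E) 𝓘(ℝ, ℝ) ∞ h)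
    (hρ : IsJGradFlow E h ρ) {x : M} :
    (∃ c > 0, BotGE (E := E) ρ c x) ↔ HessPosAt E h x := by
  constructor
  · rintro ⟨c, hc, hb⟩ e he hx Γ hΓ a ha
    have h1 := hb e he hx a
    rw [hρ.Sfun_eq hK hh he (e.map_source hx) hΓ] at h1
    have h2 := chartG_pos (mem_maximalAtlas_real he) (e.map_source hx) a ha
    have h3 := mul_pos hc h2
    linarith
  · intro hp
    have he : chartAt E x ∈ maximalAtlas 𝓘(ℂ, E) 1 M := chart_mem_maximalAtlas x
    have hx : x ∈ (chartAt E x).source := mem_chart_source E x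
    have hz := (chartAt E x).map_source hx
    obtain ⟨Γ, hΓ⟩ := exists_christoffel hK he hz
    obtain ⟨c, hc, hb⟩ := exists_lower_of_pos hh he hz hΓ (hp _ he hx Γ hΓ)
    exact ⟨c, hc, botGE_of_chart hρ.1 he hx fun a => by
      rw [hρ.Sfun_eq hK hh he hz hΓ]; exact hb a⟩

theorem IsJGradFlow.botGE_zero_iff (hK : IsKahler E M) (hh : ContMDiff 𝓘(ℝ, E) 𝓘(ℝ, ℝ) ∞ h)
    (hρ : IsJGradFlow E h ρ) {x : M} : BotGE (E := E) ρ 0 x ↔ HessNonnegAt E h x := by
  constructor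
  · intro hb e he hx Γ hΓ a
    have h1 := hb e he hx a
    rw [hρ.Sfun_eq hK hh he (e.map_source hx) hΓ, zero_mul] at h1
    exact h1
  · intro hp e he hx a
    obtain ⟨Γ, hΓ⟩ := exists_christoffel hK he (e.map_source hx)
    rw [hρ.Sfun_eq hK hh he (e.map_source hx) hΓ, zero_mul]
    exact hp e he hx Γ hΓ a

/-- the differential of a function in the preferred chart -/
theorem mfderiv_eq_inChart (hh : ContMDiff 𝓘(ℝ, E) 𝓘(ℝ, ℝ) ∞ h) (x : M) :
    (mfderiv 𝓘(ℝ, E) 𝓘(ℝ, ℝ) h x : E →L[ℝ] ℝ)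
      = fderiv ℝ (inChart (chartAt E x) h) (chartAt E x x) := by
  have hmd : MDifferentiableAt 𝓘(ℝ, E) 𝓘(ℝ, ℝ) h x := (hh x).mdifferentiableAt (by simp)
  refine hmd.mfderiv.trans ?_
  simp only [mfld_simps]
  rw [fderivWithin_univ]
  rfl

/-- the zeros of the gradient are the critical points -/
theorem gradF_eq_zero_iff (hK : IsKahler E M) (hh : ContMDiff 𝓘(ℝ, E) 𝓘(ℝ, ℝ) ∞ h) (x : M) :
    gradF h (chartAt E x) (chartAt E x x) = 0 ↔ mfderiv 𝓘(ℝ, E) 𝓘(ℝ, ℝ) h x = 0 := by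
  have he : chartAt E x ∈ maximalAtlas 𝓘(ℂ, E) 1 M := chart_mem_maximalAtlas x
  have hz : chartAt E x x ∈ (chartAt E x).target := mem_chart_target E x
  have hL := localKahler_chartG hK he
  have h1 := gradG_apply (φ := inChart (chartAt E x) h) hL hz
  have h2 := mfderiv_eq_inChart hh x
  constructor
  · intro h0
    have h3 : gradG (chartG (chartAt E x)) (inChart (chartAt E x) h) (chartAt E x x) = 0 := h0
    rw [h3, map_zero] at h1
    exact h2.trans h1.symm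
  · intro h0
    have h3 : fderiv ℝ (inChart (chartAt E x) h) (chartAt E x x) = 0 := h2.symm.trans h0
    rw [h3] at h1
    by_contra hne
    have h4 := hL.pos _ hz _ hne
    have h5 : chartG (chartAt E x) (chartAt E x x) (gradF h (chartAt E x) (chartAt E x x)) = 0 := h1
    rw [h5] at h4
    exact lt_irrefl _ h4

theorem IsJGradFlow.fixed_iff (hK : IsKahler E M) (hh : ContMDiff 𝓘(ℝ, E) 𝓘(ℝ, ℝ) ∞ h)
    (hρ : IsJGradFlow E h ρ) (x : M) :
    (∀ t, ρ t x = x) ↔ mfderiv 𝓘(ℝ, E) 𝓘(ℝ, ℝ) h x = 0 := by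
  have he : chartAt E x ∈ maximalAtlas 𝓘(ℂ, E) 1 M := chart_mem_maximalAtlas x
  have hx : x ∈ (chartAt E x).source := mem_chart_source E x
  have hz : chartAt E x x ∈ (chartAt E x).target := mem_chart_target E x
  rw [← gradF_eq_zero_iff hK hh, ← hρ.vF_eq hK he hz]
  constructor
  · intro hfix
    have h1 : (fun t : ℝ => chartAt E x (ρ t ((chartAt E x).symm (chartAt E x x)))) =
        fun _ => chartAt E x x := by
      funext t
      rw [(chartAt E x).left_inv hx, hfix]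
    rw [vF, xF, h1, deriv_const, smul_zero, neg_zero]
  · exact fun h0 => fixed_of_zero hρ.1 he hx h0

/-- the fixed point is unique -/
theorem fixed_unique {p x : M} {b : Basis (Fin (finrank ℂ E)) ℂ E} {m : Fin (finrank ℂ E) → ℝ}
    (hw : HasWeights ρ p b m) {F : M ≃ₘ^1⟮𝓘(ℂ, E), 𝓘(ℂ, E)⟯ E} (hF : IsLinearization ρ p F)
    (hx : ∀ t, ρ t x = x) : x = p := by
  apply F.injective
  change F x = F p
  rw [hF.base]
  apply ext_coord (φ := b.equivFun.toContinuousLinearEquiv)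
  intro j
  have hm := hw.2.1 j
  have h1 := hF.equivariant (Real.pi / m j) x
  rw [hx, U165.weights_LE hw.2.2] at h1
  have h2 : b.equivFun.toContinuousLinearEquiv (F x) j
      = b.equivFun.toContinuousLinearEquiv (LE b.equivFun.toContinuousLinearEquiv m
        ((Real.pi / m j : ℝ) * I) (F x)) j := congrArg (fun z => b.equivFun.toContinuousLinearEquiv z j) h1
  rw [LE_coord] at h2
  have h3 : ((Real.pi / m j : ℝ) : ℂ) * I * (m j : ℂ) = Real.pi * I := by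
    have : (m j : ℂ) ≠ 0 := by exact_mod_cast hm.ne'
    push_cast
    field_simp
  rw [h3, exp_pi_mul_I, neg_one_mul] at h2
  rw [map_zero]
  exact self_eq_neg.1 h2

/-- (1), (4): the Hessian of `h` is positive definite at one point -/
theorem main_pos (hK : IsKahler E M) [CompleteSpace M] [NoncompactSpace M] [ConnectedSpace M]
    (hnn : ∀ x : M, NonnegBisectionalAt E x) (hh : ContMDiff 𝓘(ℝ, E) 𝓘(ℝ, ℝ) ∞ h)
    (hρ : IsJGradFlow E h ρ) {x₀ : M} (hx₀ : HessPosAt E h x₀) :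
    ∃ p : M, mfderiv 𝓘(ℝ, E) 𝓘(ℝ, ℝ) h p = 0 ∧ HessPosAt E h p ∧
      (∃ (b : Basis (Fin (finrank ℂ E)) ℂ E) (m : Fin (finrank ℂ E) → ℝ), HasWeights ρ p b m) ∧
      (PosBisectionalAt E p ∨ (∀ x, HessNonnegAt E h x) →
        ∃ F : M ≃ₘ^1⟮𝓘(ℂ, E), 𝓘(ℂ, E)⟯ E, IsLinearization ρ p F) := by
  obtain ⟨c, hc, hb⟩ := (hρ.botGE_iff hK hh).2 hx₀
  obtain ⟨p, b, m, hw, hle, hmain⟩ := main_flow hK hnn hρ.1 hc hb
  refine ⟨p, (hρ.fixed_iff hK hh p).1 hw.1, (hρ.botGE_iff hK hh).1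
    (exists_botGE_of_hasWeights hK hρ.1 hw), ⟨b, m, hw⟩, ?_⟩
  rintro (hpos | hN)
  · obtain ⟨F, hF, -⟩ := hmain hpos
    exact ⟨F, hF⟩
  · refine H502.main_nonneg hK hnn hρ.1 (fun e he z hz a => ?_) hw
    obtain ⟨Γ, hΓ⟩ := exists_christoffel hK he hz
    rw [hρ.Sfun_eq hK hh he hz hΓ]
    have h1 := hN (e.symm z) e he (e.map_target hz) Γ (by rwa [e.right_inv hz]) a
    rwa [e.right_inv hz] at h1

/-- (2): the Hessian of `h` is nonnegative at one noncritical point of positive curvature -/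
theorem main_nonneg_point (hK : IsKahler E M) (hh : ContMDiff 𝓘(ℝ, E) 𝓘(ℝ, ℝ) ∞ h)
    (hρ : IsJGradFlow E h ρ) {x₀ : M} (hpos : PosBisectionalAt E x₀)
    (hne : mfderiv 𝓘(ℝ, E) 𝓘(ℝ, ℝ) h x₀ ≠ 0) (hx₀ : HessNonnegAt E h x₀) :
    ∃ x₁, HessPosAt E h x₁ := by
  have h1 : ∃ t, ρ t x₀ ≠ x₀ := by
    by_contra hcon
    push Not at hcon
    exact hne ((hρ.fixed_iff hK hh x₀).1 hcon)
  obtain ⟨x₁, c, hc, hb⟩ := exists_botGE_of_nonneg hK hρ.1 hpos h1
    ((hρ.botGE_zero_iff hK hh).2 hx₀)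
  exact ⟨x₁, (hρ.botGE_iff hK hh).1 ⟨c, hc, hb⟩⟩

theorem hessPosAt_of_lower {x : M} (hc : ∀ e ∈ maximalAtlas 𝓘(ℂ, E) 1 M, x ∈ e.source →
      ∀ Γ, IsChristoffel e (e x) Γ → ∃ c > 0, ∀ a, c * chartG e (e x) a a ≤ HessAt e (e x) Γ h a) :
    HessPosAt E h x := by
  intro e he hx Γ hΓ a ha
  obtain ⟨c, hc, hb⟩ := hc e he hx Γ hΓ
  exact (mul_pos hc (chartG_pos (mem_maximalAtlas_real he) (e.map_source hx) a ha)).trans_le (hb a)

/-- (5): gradient Kaehler-Ricci solitons, steady or expanding -/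
theorem main_soliton (hK : IsKahler E M) [CompleteSpace M] [NoncompactSpace M] [ConnectedSpace M]
    (hnn : ∀ x : M, NonnegBisectionalAt E x) {f : M → ℝ} (hs : IsGradSoliton E f lam)
    (hlam : lam ≤ 0) {x₀ : M} (hx₀ : RicciGTAt E lam x₀) :
    ∃ (ρ : ℝ → M → M) (p : M) (F : M ≃ₘ^1⟮𝓘(ℂ, E), 𝓘(ℂ, E)⟯ E),
      IsJGradFlow E (fun x => -f x) ρ ∧ mfderiv 𝓘(ℝ, E) 𝓘(ℝ, ℝ) f p = 0 ∧
      (∃ (b : Basis (Fin (finrank ℂ E)) ℂ E) (m : Fin (finrank ℂ E) → ℝ), HasWeights ρ p b m) ∧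
      IsLinearization ρ p F := by
  have hh := contMDiff_neg_fun hs.smooth
  have hJ := (hs.hessJ hK).neg
  have hρ := isJGradFlow_potFlow hK hh hJ
  obtain ⟨p, hp, -, hw, hmain⟩ := main_pos hK hnn hh hρ (x₀ := x₀) (hessPosAt_of_lower
    fun e he hx Γ hΓ => hs.hess_pos hx₀ he hx hΓ)
  obtain ⟨F, hF⟩ := hmain (Or.inr fun x e he hx Γ hΓ a => by
    have h1 := hs.hess_ge hK he (e.map_source hx) (by rw [e.left_inv hx]; exact hnn x) hΓ a
    have h2 : 0 ≤ chartG e (e x) a a := by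
      by_cases h0 : a = 0
      · simp [h0]
      · exact (chartG_pos (mem_maximalAtlas_real he) (e.map_source hx) a h0).le
    nlinarith only [h1, h2, hlam])
  refine ⟨_, p, F, hρ, ?_, hw, hF⟩
  have h2 := mfderiv_eq_inChart hs.smooth p
  have h3 := mfderiv_eq_inChart hh p
  have h4 : fderiv ℝ (inChart (chartAt E p) fun x => -f x) (chartAt E p p)
      = -fderiv ℝ (inChart (chartAt E p) f) (chartAt E p p) :=
    fderiv_fun_neg (f := inChart (chartAt E p) f)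
  have h5 : fderiv ℝ (inChart (chartAt E p) fun x => -f x) (chartAt E p p) = 0 := h3.symm.trans hp
  rw [h4] at h5
  exact h2.trans (neg_eq_zero.1 h5)

/-- positive bisectional curvature at a point implies positive Ricci curvature there -/
theorem IsGradSoliton.ricciGT (hK : IsKahler E M) {f : M → ℝ} (hs : IsGradSoliton E f lam)
    (hlam : lam ≤ 0) {x : M} (hpos : PosBisectionalAt E x) : RicciGTAt E lam x := by
  intro e he hx Γ hΓ b hb a ha
  have hz := e.map_source hx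
  have : FiniteDimensional ℝ E := FiniteDimensional.complexToReal E
  have : Nontrivial E := ⟨a, 0, ha⟩
  have hne : Nonempty (Fin (finrank ℝ E)) := ⟨⟨0, finrank_pos⟩⟩
  rw [hs.ricNum_eq hK he hz hΓ hb]
  have h1 : 0 < ∑ i, Rc (chartG e) (e x) (b i) a := by
    refine Finset.sum_pos (fun i _ => ?_) Finset.univ_nonempty
    refine Rc_pos_chartG hK he hz (by rwa [e.left_inv hx]) (b i) a (fun h0 => ?_) ha
    have h2 := hb i i
    rw [if_pos rfl, h0, ← chartG_apply, map_zero] at h2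
    exact zero_ne_one h2
  have h2 := chartG_pos (mem_maximalAtlas_real he) hz a ha
  rw [← chartG_apply]
  nlinarith only [h1, h2, hlam]

/-- a Hessian which is nonnegative in one chart is nonnegative -/
theorem IsJGradFlow.nonneg_of_chart (hK : IsKahler E M) (hh : ContMDiff 𝓘(ℝ, E) 𝓘(ℝ, ℝ) ∞ h)
    (hρ : IsJGradFlow E h ρ) {x : M} (he : e ∈ maximalAtlas 𝓘(ℂ, E) 1 M) (hx : x ∈ e.source)
    (hΓ : IsChristoffel e (e x) Γ) (hc : ∀ a, 0 ≤ HessAt e (e x) Γ h a) :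
    HessNonnegAt E h x := by
  refine (hρ.botGE_zero_iff hK hh).1 (botGE_of_chart hρ.1 he hx fun a => ?_)
  rw [hρ.Sfun_eq hK hh he (e.map_source hx) hΓ, zero_mul]
  exact hc a

/-- a Killing potential whose Hessian is nonnegative at a noncritical point -/
theorem nonempty_of_nonneg (hK : IsKahler E M) [CompleteSpace M] [NoncompactSpace M]
    [ConnectedSpace M] (hpos : ∀ x : M, PosBisectionalAt E x)
    (hh : ContMDiff 𝓘(ℝ, E) 𝓘(ℝ, ℝ) ∞ h) (hJ : HessJ E h) {x : M}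
    (hx : mfderiv 𝓘(ℝ, E) 𝓘(ℝ, ℝ) h x ≠ 0) (he : e ∈ maximalAtlas 𝓘(ℂ, E) 1 M)
    (hxe : x ∈ e.source) (hΓ : IsChristoffel e (e x) Γ) (hc : ∀ a, 0 ≤ HessAt e (e x) Γ h a) :
    Nonempty (M ≃ₘ^1⟮𝓘(ℂ, E), 𝓘(ℂ, E)⟯ E) := by
  have hρ := isJGradFlow_potFlow hK hh hJ
  obtain ⟨x₁, hx₁⟩ := main_nonneg_point hK hh hρ (hpos x) hx
    (hρ.nonneg_of_chart hK hh he hxe hΓ hc)
  obtain ⟨p, -, -, -, hmain⟩ := main_pos hK (fun x => (hpos x).nonneg) hh hρ hx₁
  obtain ⟨F, -⟩ := hmain (Or.inl (hpos p))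
  exact ⟨F⟩

/-- **dichotomy** in positive bisectional curvature: `M` is biholomorphic to `ℂ^n`, or the Hessian
of every Killing potential is indefinite at every noncritical point -/
theorem main_dichotomy (hK : IsKahler E M) [CompleteSpace M] [NoncompactSpace M]
    [ConnectedSpace M] (hpos : ∀ x : M, PosBisectionalAt E x)
    (hh : ContMDiff 𝓘(ℝ, E) 𝓘(ℝ, ℝ) ∞ h) (hJ : HessJ E h) :
    Nonempty (M ≃ₘ^1⟮𝓘(ℂ, E), 𝓘(ℂ, E)⟯ E) ∨
    ∀ x : M, mfderiv 𝓘(ℝ, E) 𝓘(ℝ, ℝ) h x ≠ 0 → ∀ e ∈ maximalAtlas 𝓘(ℂ, E) 1 M, x ∈ e.source →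
      ∀ Γ, IsChristoffel e (e x) Γ →
        (∃ a, HessAt e (e x) Γ h a < 0) ∧ ∃ a, 0 < HessAt e (e x) Γ h a := by
  by_cases hM : Nonempty (M ≃ₘ^1⟮𝓘(ℂ, E), 𝓘(ℂ, E)⟯ E)
  · exact Or.inl hM
  refine Or.inr fun x hx e he hxe Γ hΓ => ⟨?_, ?_⟩
  · by_contra hcon
    push Not at hcon
    exact hM (nonempty_of_nonneg hK hpos hh hJ hx he hxe hΓ hcon)
  · by_contra hcon
    push Not at hcon
    have hh' := contMDiff_neg_fun hh
    have hx' : mfderiv 𝓘(ℝ, E) 𝓘(ℝ, ℝ) (fun x => -h x) x ≠ 0 := by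
      intro h0
      apply hx
      have h2 := mfderiv_eq_inChart hh x
      have h3 := mfderiv_eq_inChart hh' x
      have h4 : fderiv ℝ (inChart (chartAt E x) fun x => -h x) (chartAt E x x)
          = -fderiv ℝ (inChart (chartAt E x) h) (chartAt E x x) :=
        fderiv_fun_neg (f := inChart (chartAt E x) h)
      have h5 : fderiv ℝ (inChart (chartAt E x) fun x => -h x) (chartAt E x x) = 0 :=
        h3.symm.trans h0
      rw [h4] at h5
      exact h2.trans (neg_eq_zero.1 h5)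
    refine hM (nonempty_of_nonneg hK hpos hh' hJ.neg hx' he hxe hΓ fun a => ?_)
    rw [HessAt_neg]
    linarith [hcon a]

end Vale.Agent.P253.H348
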