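import Vale.Agent.P253.H22.Min
import Vale.Agent.P253.H202.Orb
import Vale.Agent.P253.H348.Fin
import Vale.Agent.P253.H348.LemZ

/-!
P253: Killing potentials whose backward gradient orbits converge (positive bisectional curvature):
the critical points are the minima, and `M` is the model space if they form a bounded set.
-/

open scoped Manifold ContDiff Topology Bundle
open Set Metric Complex Filter Bundle IsManifold Manifold Module Vale.Agent.P253.Mfd
  Vale.Agent.P253.H577 Vale.Agent.P253.H22 Vale.Agent.P253.H202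

set_option maxSynthPendingDepth 3
set_option linter.unusedSectionVars false

noncomputable section

namespace Vale.Agent.P253.H348

variable {E : Type*} [NormedAddCommGroup E] [NormedSpace ℂ E] [FiniteDimensional ℂ E]
  {M : Type*} [MetricSpace M] [ChartedSpace E M]
  [IsManifold 𝓘(ℂ, E) 1 M] [IsManifold 𝓘(ℝ, E) ∞ M]
  [RiemannianBundle (fun x : M => TangentSpace 𝓘(ℝ, E) x)]
  [IsContMDiffRiemannianBundle 𝓘(ℝ, E) ∞ E (fun x : M => TangentSpace 𝓘(ℝ, E) x)]
  {ρ Φ : ℝ → M → M} {e e' : OpenPartialHomeomorph M E} {γ : ℝ → M} {h : M → ℝ}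

/-- every backward orbit of `Φ` converges to a fixed point of `ρ` -/
def BackConv (ρ Φ : ℝ → M → M) : Prop :=
  ∀ x, ∃ p, (∀ t, ρ t p = p) ∧ Tendsto (fun t => Φ t x) atBot (𝓝 p)

section

variable [IsRiemannianManifold 𝓘(ℝ, E) M]
  {ι : Type*} [Fintype ι] {φ : E ≃L[ℂ] (ι → ℂ)} {m : ι → ℝ}

/-- orbits in a linearizing chart -/
theorem flow_chart (hρ : IsHolIsomFlow E ρ) (hF : IsFlow E ρ Φ)
    (he : e ∈ maximalAtlas 𝓘(ℂ, E) 1 M)
    (hequiv : ∀ θ : ℝ, ∀ x ∈ e.source, ρ θ x ∈ e.source ∧ e (ρ θ x) = LE φ m (θ * I) (e x))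
    {z : E} {a b : ℝ} (h0 : (0:ℝ) ∈ Ioo a b)
    (hz : ∀ s ∈ Ioo a b, LE φ m ((s : ℝ) : ℂ) z ∈ e.target) :
    ∀ s ∈ Ioo a b, Φ s (e.symm z) = e.symm (LE φ m ((s : ℝ) : ℂ) z) := by
  have hcurve : IsMIntegralCurveOn (I := 𝓘(ℝ, E)) (fun s : ℝ => e.symm (LE φ m (s : ℂ) z)) (W ρ)
      (Ioo a b) := by
    intro s hs
    have h1 : HasDerivAt (fun s : ℝ => LE φ m (s:ℂ) z) (vF ρ e (LE φ m (s:ℂ) z)) s := by
      rw [vF_linear hρ hequiv (hz s hs)]
      have h2 : HasDerivAt (fun s : ℝ => (s:ℂ)) 1 s := (hasDerivAt_id s).ofReal_comp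
      have h3 := (hasDerivAt_LE (φ := φ) (m := m) (s:ℂ) z).scomp s h2
      rw [one_smul] at h3
      exact h3
    exact (IntegralCurve.of_chart hρ he h1 (hz s hs)).hasMFDerivWithinAt
  have heq := isMIntegralCurveOn_Ioo_eqOn_of_contMDiff_boundaryless (t₀ := 0)
    h0 (contMDiff_W hρ) ((hF.curve (e.symm z)).isMIntegralCurveOn (Ioo a b)) hcurve
    (by simp [hF.zero, LE_zero])
  intro s hs
  exact heq hs

/-- nonnegative weights contract backwards in time -/
theorem norm_LE_back (hm : ∀ j, 0 ≤ m j) {t : ℝ} (ht : t ≤ 0) (z : E) :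
    ‖φ (LE φ m (t : ℂ) z)‖ ≤ ‖φ z‖ := by
  have h1 := norm_LE_le (φ := φ) (m := m) (t := t) (M := 1) (fun j => by
    rw [Real.exp_le_one_iff]
    exact mul_nonpos_of_nonpos_of_nonneg ht (hm j)) z zero_le_one
  rwa [one_mul] at h1

/-- the projection to the zero weights is the limit backwards in time -/
theorem tendsto_LE_back (hm : ∀ j, 0 ≤ m j) (z : E) :
    ∃ w : E, (∀ j, φ w j = if m j = 0 then φ z j else 0) ∧
      Tendsto (fun t : ℝ => LE φ m (t : ℂ) z) atBot (𝓝 w) := by
  refine ⟨φ.symm fun j => if m j = 0 then φ z j else 0, fun j => by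
    rw [φ.apply_symm_apply], ?_⟩
  have h1 : ∀ t : ℝ, LE φ m (t : ℂ) z = φ.symm fun j => exp ((t : ℂ) * m j) * φ z j := by
    intro t
    apply ext_coord (φ := φ)
    intro j
    rw [LE_coord, φ.apply_symm_apply]
  simp only [h1]
  refine (φ.symm.continuous.tendsto _).comp (tendsto_pi_nhds.2 fun j => ?_)
  by_cases hj : m j = 0
  · rw [if_pos hj]
    have h2 : (fun t : ℝ => exp ((t : ℂ) * m j) * φ z j) = fun _ => φ z j := by
      funext t
      rw [hj, ofReal_zero, mul_zero, exp_zero, one_mul]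
    rw [h2]
    exact tendsto_const_nhds
  · rw [if_neg hj]
    have hj' : 0 < m j := lt_of_le_of_ne (hm j) (Ne.symm hj)
    have h2 : Tendsto (fun t : ℝ => exp ((t : ℂ) * m j)) atBot (𝓝 0) := by
      rw [tendsto_zero_iff_norm_tendsto_zero]
      simp only [norm_exp_mul]
      exact Real.tendsto_exp_atBot.comp (tendsto_id.atBot_mul_const hj')
    have h3 := h2.mul_const (φ z j)
    rwa [zero_mul] at h3

end

variable [IsRiemannianManifold 𝓘(ℝ, E) M]

/-- the potential is continuous -/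
theorem continuous_of_grad (hgrad : IsGradOf (E := E) ρ h) : Continuous h := by
  rw [continuous_iff_continuousAt]
  intro x
  have he : chartAt E x ∈ maximalAtlas 𝓘(ℂ, E) 1 M := chart_mem_maximalAtlas x
  have hx : x ∈ (chartAt E x).source := mem_chart_source E x
  have h1 := (hgrad _ he _ (mem_chart_target E x)).continuousAt
  have h2 : ContinuousAt (fun y => h ((chartAt E x).symm (chartAt E x y))) x :=
    ContinuousAt.comp (f := chartAt E x) (g := fun z => h ((chartAt E x).symm z)) h1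
      ((chartAt E x).continuousAt hx)
  refine h2.congr ?_
  filter_upwards [(chartAt E x).open_source.mem_nhds hx] with y hy
  rw [(chartAt E x).left_inv hy]

/-- the potential increases along the orbits -/
theorem hasDerivAt_pot (hρ : IsHolIsomFlow E ρ) (hgrad : IsGradOf (E := E) ρ h)
    (hγ : IsMIntegralCurve (I := 𝓘(ℝ, E)) γ (W ρ)) (t : ℝ) :
    HasDerivAt (fun s => h (γ s)) (nW (E := E) ρ (γ t)) t := by
  have he : chartAt E (γ t) ∈ maximalAtlas 𝓘(ℂ, E) 1 M := chart_mem_maximalAtlas _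
  have hx : γ t ∈ (chartAt E (γ t)).source := mem_chart_source E _
  set e := chartAt E (γ t) with hedef
  have h1 := IntegralCurve.hasDerivAt hρ he (hγ.isMIntegralCurveOn univ) univ_mem hx
  have h2 := hgrad e he (e (γ t)) (e.map_source hx)
  have h3 : HasDerivAt (fun s => h (e.symm ((e ∘ γ) s)))
      (chartG e (e (γ t)) (vF ρ e (e (γ t))) (vF ρ e (e (γ t)))) t :=
    HasFDerivAt.comp_hasDerivAt (f := e ∘ γ) t h2 h1
  rw [nW_eq hρ he hx]
  refine h3.congr_of_eventuallyEq ?_
  have hc : Continuous γ := hγ.continuous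
  filter_upwards [hc.continuousAt.eventually (e.open_source.mem_nhds hx)] with s hs
  simp only [Function.comp_apply]
  rw [e.left_inv hs]

/-- a curve that converges in both directions is bounded -/
theorem bounded_of_tendsto {p q : M} (hc : Continuous γ) (h1 : Tendsto γ atTop (𝓝 p))
    (h2 : Tendsto γ atBot (𝓝 q)) : Bornology.IsBounded (range γ) := by
  obtain ⟨a, ha⟩ := eventually_atTop.1 (h1.eventually (ball_mem_nhds p one_pos))
  obtain ⟨b, hb⟩ := eventually_atBot.1 (h2.eventually (ball_mem_nhds q one_pos))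
  have h3 : Bornology.IsBounded (γ '' Icc b a) := (isCompact_Icc.image hc).isBounded
  refine ((h3.union isBounded_ball).union isBounded_ball).subset
    (s := range γ) (t := (γ '' Icc b a ∪ ball p 1) ∪ ball q 1) ?_
  rintro _ ⟨t, rfl⟩
  by_cases hta : a ≤ t
  · exact Or.inl (Or.inr (ha t hta))
  · by_cases htb : t ≤ b
    · exact Or.inr (hb t htb)
    · exact Or.inl (Or.inl ⟨t, ⟨(not_le.1 htb).le, (not_le.1 hta).le⟩, rfl⟩)

/-- **no negative weights**: if all backward orbits converge then the weights at the fixed points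
are nonnegative -/
theorem weights_nonneg (hK : IsKahler E M) [CompleteSpace M] [NoncompactSpace M]
    (hnn : ∀ x : M, NonnegBisectionalAt E x) (hpos : ∀ x : M, PosBisectionalAt E x)
    (hρ : IsHolIsomFlow E ρ) (hF : IsFlow E ρ Φ) (hB : BackConv ρ Φ) {p : M}
    (hfix : ∀ t, ρ t p = p) {b : Basis (Fin (finrank ℂ E)) ℂ E} {m : Fin (finrank ℂ E) → ℝ}
    (hw : ∀ (t : ℝ) j, mfderiv 𝓘(ℂ, E) 𝓘(ℂ, E) (ρ t) p (b j) = exp (t * m j * I) • b j)
    (j : Fin (finrank ℂ E)) : 0 ≤ m j := by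
  by_contra hneg
  push Not at hneg
  set φ : E ≃L[ℂ] (Fin (finrank ℂ E) → ℂ) := b.equivFun.toContinuousLinearEquiv with hφ
  have hw' := Vale.Agent.P253.U165.weights_LE hw
  obtain ⟨e₀, he₀, δ, hδ, hpe, hep, htgt, hequiv⟩ := exists_linearizing_chart hρ hfix φ m hw'
  have her₀ := mem_maximalAtlas_real he₀
  have hφa : φ (b j) = Pi.single j 1 := by
    rw [hφ]
    change b.equivFun (b j) = Pi.single j 1
    funext i
    rw [Basis.equivFun_self, Pi.single_apply]
    simp only [eq_comm]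
  have hane : b j ≠ 0 := b.ne_zero j
  have h0t : (0 : E) ∈ e₀.target := by rw [← hep]; exact e₀.map_source hpe
  have hsy0 : e₀.symm 0 = p := by rw [← hep, e₀.left_inv hpe]
  have hnorm : ∀ w : ℂ, ‖φ (w • b j)‖ = ‖w‖ := by
    intro w
    rw [map_smul, hφa, norm_smul, Pi.norm_single, norm_one, mul_one]
  set z : E := ((δ / 2 : ℝ) : ℂ) • b j with hz
  have hLE : ∀ t : ℝ, LE φ m (t : ℂ) z = ((Real.exp (t * m j) * (δ / 2) : ℝ) : ℂ) • b j := by
    intro t
    apply ext_coord (φ := φ)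
    intro i
    rw [LE_coord, hz, map_smul, map_smul, hφa]
    simp only [Pi.smul_apply, smul_eq_mul, Pi.single_apply]
    split_ifs with hij
    · rw [hij]
      push_cast
      ring
    · simp
  have hmem : ∀ t : ℝ, Real.log 2 / m j < t → LE φ m (t : ℂ) z ∈ e₀.target := by
    intro t ht
    rw [htgt, mem_ofPred_eq, hLE, hnorm, norm_real, Real.norm_of_nonneg (by positivity)]
    have h1 : t * m j < Real.log 2 := by
      rwa [div_lt_iff_of_neg hneg] at ht
    have h2 := Real.exp_lt_exp.2 h1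
    rw [Real.exp_log two_pos] at h2
    nlinarith
  have hlog : Real.log 2 / m j < 0 := div_neg_of_pos_of_neg (Real.log_pos one_lt_two) hneg
  have hzt : z ∈ e₀.target := by
    have h1 := hmem 0 hlog
    rwa [ofReal_zero, LE_zero] at h1
  set x : M := e₀.symm z with hx
  have hflow : ∀ t : ℝ, 0 ≤ t → Φ t x = e₀.symm (LE φ m (t : ℂ) z) := fun t ht =>
    flow_chart hρ hF he₀ hequiv (a := Real.log 2 / m j) (b := t + 1)
      ⟨hlog, by linarith⟩ (fun s hs => hmem s hs.1) t ⟨hlog.trans_le ht, by linarith⟩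
  have hfwd : Tendsto (fun t => Φ t x) atTop (𝓝 p) := by
    have h1 : Tendsto (fun t : ℝ => LE φ m (t : ℂ) z) atTop (𝓝 0) := by
      simp only [hLE]
      have h2 : Tendsto (fun t : ℝ => Real.exp (t * m j) * (δ / 2)) atTop (𝓝 0) := by
        have h3 := (Real.tendsto_exp_atBot.comp
          (tendsto_id.atTop_mul_const_of_neg hneg)).mul_const (δ / 2)
        rwa [zero_mul] at h3
      have h3 : Tendsto (fun t : ℝ => ((Real.exp (t * m j) * (δ / 2) : ℝ) : ℂ)) atTop
          (𝓝 ((0 : ℝ) : ℂ)) := (continuous_ofReal.tendsto _).comp h2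
      have h4 := h3.smul_const (b j)
      rwa [ofReal_zero, zero_smul] at h4
    have h2 := (e₀.continuousAt_symm h0t).tendsto.comp h1
    rw [hsy0] at h2
    refine h2.congr' ?_
    filter_upwards [eventually_ge_atTop 0] with t ht
    simp only [Function.comp_apply]
    rw [hflow t ht]
  obtain ⟨q, -, hq⟩ := hB x
  have hbd := bounded_of_tendsto (hF.curve x).continuous hfwd hq
  refine no_bounded_orbit hK hnn hpos hρ hfix (hF.curve x) ?_ hbd
  rw [hF.zero]
  intro h0
  have h1 := nW_eq hρ (chart_mem_maximalAtlas x) (mem_chart_source E x)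
  rw [h0, map_zero] at h1
  have hxs : x ∈ e₀.source := e₀.map_target hzt
  have h2 := nW_eq hρ he₀ hxs
  have h3 : vF ρ e₀ (e₀ x) ≠ 0 := by
    rw [hx, e₀.right_inv hzt, vF_linear hρ hequiv hzt]
    intro h4
    have h5 := congrArg (fun w => φ w j) h4
    simp only [AE_coord] at h5
    rw [hz, map_smul, hφa, map_zero] at h5
    simp only [Pi.smul_apply, Pi.single_eq_same, Pi.zero_apply, smul_eq_mul, mul_one] at h5
    rw [← ofReal_mul, ofReal_eq_zero] at h5
    rcases mul_eq_zero.1 h5 with h6 | h6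
    · exact hneg.ne h6
    · linarith
  have h4 := chartG_pos her₀ (e₀.map_source hxs) _ h3
  rw [← h2, h1] at h4
  exact lt_irrefl _ h4

/-- at an isolated fixed point no weight vanishes -/
theorem weights_ne_zero (hρ : IsHolIsomFlow E ρ) {p : M} (hfix : ∀ t, ρ t p = p)
    {b : Basis (Fin (finrank ℂ E)) ℂ E} {m : Fin (finrank ℂ E) → ℝ}
    (hw : ∀ (t : ℝ) j, mfderiv 𝓘(ℂ, E) 𝓘(ℂ, E) (ρ t) p (b j) = exp (t * m j * I) • b j)
    {U : Set M} (hU : U ∈ 𝓝 p) (hiso : ∀ x ∈ U, (∀ t, ρ t x = x) → x = p)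
    (j : Fin (finrank ℂ E)) : m j ≠ 0 := by
  intro hj
  set φ : E ≃L[ℂ] (Fin (finrank ℂ E) → ℂ) := b.equivFun.toContinuousLinearEquiv with hφ
  have hw' := Vale.Agent.P253.U165.weights_LE hw
  obtain ⟨e₀, he₀, δ, hδ, hpe, hep, htgt, hequiv⟩ := exists_linearizing_chart hρ hfix φ m hw'
  have hφa : φ (b j) = Pi.single j 1 := by
    rw [hφ]
    change b.equivFun (b j) = Pi.single j 1
    funext i
    rw [Basis.equivFun_self, Pi.single_apply]
    simp only [eq_comm]
  have h0t : (0 : E) ∈ e₀.target := by rw [← hep]; exact e₀.map_source hpe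
  have hsy0 : e₀.symm 0 = p := by rw [← hep, e₀.left_inv hpe]
  have hsmall : ∀ᶠ w : ℂ in 𝓝 0, w • b j ∈ e₀.target ∧ e₀.symm (w • b j) ∈ U := by
    have h1 : ContinuousAt (fun w : ℂ => w • b j) 0 := by fun_prop
    have h2 : Tendsto (fun w : ℂ => w • b j) (𝓝 0) (𝓝 0) := by
      have := h1.tendsto
      simpa using this
    have h3 : Tendsto e₀.symm (𝓝 0) (𝓝 p) := by
      have := (e₀.continuousAt_symm h0t).tendsto
      rwa [hsy0] at this
    exact (h2.eventually (e₀.open_target.mem_nhds h0t)).and ((h3.comp h2).eventually hU)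
  obtain ⟨w, ⟨hw1, hw2⟩, hw0⟩ := ((hsmall.filter_mono nhdsWithin_le_nhds).and
    (self_mem_nhdsWithin (a := (0:ℂ)) (s := {0}ᶜ))).exists
  have h1 : vF ρ e₀ (e₀ (e₀.symm (w • b j))) = 0 := by
    rw [e₀.right_inv hw1, vF_linear hρ hequiv hw1]
    apply ext_coord (φ := φ)
    intro i
    rw [AE_coord, map_smul, hφa, map_zero]
    simp only [Pi.smul_apply, smul_eq_mul, Pi.single_apply, Pi.zero_apply]
    split_ifs with hij
    · rw [hij, hj]
      simp
    · simp
  have h2 := hiso _ hw2 (fixed_of_zero hρ he₀ (e₀.map_target hw1) h1)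
  have h3 := congrArg e₀ h2
  rw [e₀.right_inv hw1, hep] at h3
  rcases smul_eq_zero.1 h3 with h4 | h4
  · exact hw0 h4
  · exact b.ne_zero j h4

/-- near a fixed point the backward limits have the same value of the potential -/
theorem pot_near (hK : IsKahler E M) [CompleteSpace M] [NoncompactSpace M]
    (hnn : ∀ x : M, NonnegBisectionalAt E x) (hpos : ∀ x : M, PosBisectionalAt E x)
    (hρ : IsHolIsomFlow E ρ) (hgrad : IsGradOf (E := E) ρ h) (hF : IsFlow E ρ Φ)
    (hB : BackConv ρ Φ) {p : M} (hfix : ∀ t, ρ t p = p) :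
    ∀ᶠ y in 𝓝 p, ∀ q, Tendsto (fun t => Φ t y) atBot (𝓝 q) → h q = h p := by
  obtain ⟨b, m, hw⟩ := exists_real_weights hK hρ hfix
  have hm : ∀ j, 0 ≤ m j := weights_nonneg hK hnn hpos hρ hF hB hfix hw
  set φ : E ≃L[ℂ] (Fin (finrank ℂ E) → ℂ) := b.equivFun.toContinuousLinearEquiv with hφ
  have hw' := Vale.Agent.P253.U165.weights_LE hw
  obtain ⟨e₀, he₀, δ, hδ, hpe, hep, htgt, hequiv⟩ := exists_linearizing_chart hρ hfix φ m hw'
  have hsy0 : e₀.symm 0 = p := by rw [← hep, e₀.left_inv hpe]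
  filter_upwards [e₀.open_source.mem_nhds hpe] with y hy q hq
  set z := e₀ y with hz
  have hzt : z ∈ e₀.target := e₀.map_source hy
  have hzn : ‖φ z‖ < δ := by rw [htgt] at hzt; exact hzt
  have hback : ∀ s : ℝ, s ≤ 0 → LE φ m (s : ℂ) z ∈ e₀.target := by
    intro s hs
    rw [htgt]
    exact (norm_LE_back hm hs z).trans_lt hzn
  have hc : Continuous (fun s : ℝ => LE φ m (s : ℂ) z) :=
    continuous_LE.comp (continuous_ofReal.prodMk continuous_const)
  obtain ⟨ε, hε, hεb⟩ : ∃ ε > 0, ∀ s : ℝ, |s| < ε → LE φ m (s : ℂ) z ∈ e₀.target := by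
    have h1 : ∀ᶠ s : ℝ in 𝓝 0, LE φ m (s : ℂ) z ∈ e₀.target := by
      apply hc.continuousAt.eventually
      apply e₀.open_target.mem_nhds
      simpa [LE_zero] using hzt
    obtain ⟨ε, hε, h2⟩ := Metric.eventually_nhds_iff.1 h1
    exact ⟨ε, hε, fun s hs => h2 (by simpa [Real.dist_eq] using hs)⟩
  have hall : ∀ s : ℝ, s < ε → LE φ m (s : ℂ) z ∈ e₀.target := by
    intro s hs
    by_cases hs0 : s ≤ 0
    · exact hback s hs0
    · push Not at hs0
      exact hεb s (by rwa [abs_of_pos hs0])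
  have hflow : ∀ t : ℝ, t ≤ 0 → Φ t y = e₀.symm (LE φ m (t : ℂ) z) := by
    intro t ht
    have h1 := flow_chart hρ hF he₀ hequiv (z := z) (a := t - 1) (b := ε)
      ⟨by linarith, hε⟩ (fun s hs => hall s hs.2) t ⟨by linarith, by linarith⟩
    rwa [hz, e₀.left_inv hy] at h1
  obtain ⟨w, hwc, hwt⟩ := tendsto_LE_back (φ := φ) hm z
  have hwn : ∀ r : ℝ, |r| ≤ 1 → ‖φ (r • w)‖ < δ := by
    intro r hr
    refine lt_of_le_of_lt ?_ hzn
    rw [pi_norm_le_iff_of_nonneg (norm_nonneg _)]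
    intro j
    have h1 : φ (r • w) j = (r : ℂ) * φ w j := by
      rw [← Complex.coe_smul, map_smul, Pi.smul_apply, smul_eq_mul]
    rw [h1, hwc, norm_mul, norm_real, Real.norm_eq_abs]
    have h2 : ‖(if m j = 0 then φ z j else 0 : ℂ)‖ ≤ ‖φ z‖ := by
      split_ifs
      · exact norm_le_pi_norm (φ z) j
      · rw [norm_zero]; exact norm_nonneg _
    calc |r| * ‖(if m j = 0 then φ z j else 0 : ℂ)‖
        ≤ 1 * ‖φ z‖ := mul_le_mul hr h2 (norm_nonneg _) zero_le_one
      _ = ‖φ z‖ := one_mul _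
  have hwtgt : ∀ r : ℝ, |r| ≤ 1 → r • w ∈ e₀.target := fun r hr => by
    rw [htgt]; exact hwn r hr
  have hwt1 : w ∈ e₀.target := by
    have := hwtgt 1 (by simp)
    rwa [one_smul] at this
  have hqw : q = e₀.symm w := by
    refine tendsto_nhds_unique hq ?_
    refine ((e₀.continuousAt_symm hwt1).tendsto.comp hwt).congr' ?_
    filter_upwards [eventually_le_atBot 0] with t ht
    simp only [Function.comp_apply]
    rw [hflow t ht]
  have hAE : ∀ r : ℝ, AE φ m (r • w) = 0 := by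
    intro r
    apply ext_coord (φ := φ)
    intro j
    rw [AE_coord, ← Complex.coe_smul, map_smul, Pi.smul_apply, hwc, map_zero]
    split_ifs with hj
    · rw [hj]; simp
    · simp
  have hder : ∀ r ∈ Icc (0:ℝ) 1, HasDerivAt (fun r : ℝ => h (e₀.symm (r • w))) 0 r := by
    intro r hr
    have h1 := hgrad e₀ he₀ (r • w) (hwtgt r (by rw [abs_of_nonneg hr.1]; exact hr.2))
    rw [vF_linear hρ hequiv (hwtgt r (by rw [abs_of_nonneg hr.1]; exact hr.2)), hAE,
      map_zero] at h1
    have h2 : HasDerivAt (fun r : ℝ => r • w) w r := by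
      simpa using (hasDerivAt_id r).smul_const w
    have h3 := HasFDerivAt.comp_hasDerivAt (f := fun r : ℝ => r • w) r h1 h2
    exact h3
  have h1 := constant_of_has_deriv_right_zero (a := (0:ℝ)) (b := 1)
    (f := fun r : ℝ => h (e₀.symm (r • w)))
    (fun s hs => (hder s hs).continuousAt.continuousWithinAt)
    (fun s hs => (hder s (Ico_subset_Icc_self hs)).hasDerivWithinAt) 1
    (right_mem_Icc.2 zero_le_one)
  simp only [one_smul, zero_smul] at h1
  rw [hqw, h1, hsy0]

/-- the potential does not increase backwards in time -/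
theorem pot_le (hρ : IsHolIsomFlow E ρ) (hgrad : IsGradOf (E := E) ρ h) (hF : IsFlow E ρ Φ)
    {x q : M} (hq : Tendsto (fun t => Φ t x) atBot (𝓝 q)) : h q ≤ h x := by
  have hmono : Monotone (fun t => h (Φ t x)) := by
    apply monotone_of_deriv_nonneg
    · exact fun t => (hasDerivAt_pot hρ hgrad (hF.curve x) t).differentiableAt
    · intro t
      rw [(hasDerivAt_pot hρ hgrad (hF.curve x) t).deriv]
      exact nW_nonneg hρ _
  have h1 : Tendsto (fun t => h (Φ t x)) atBot (𝓝 (h q)) :=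
    ((continuous_of_grad hgrad).tendsto q).comp hq
  have h2 := le_of_tendsto h1 (b := h x) (by
    filter_upwards [eventually_le_atBot 0] with t ht
    have h3 := hmono ht
    simp only [hF.zero] at h3
    exact h3)
  exact h2

/-- **the critical points are the minima** -/
theorem exists_min (hK : IsKahler E M) [CompleteSpace M] [NoncompactSpace M] [ConnectedSpace M]
    (hnn : ∀ x : M, NonnegBisectionalAt E x) (hpos : ∀ x : M, PosBisectionalAt E x)
    (hρ : IsHolIsomFlow E ρ) (hgrad : IsGradOf (E := E) ρ h) (hF : IsFlow E ρ Φ)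
    (hB : BackConv ρ Φ) :
    ∃ p₀ : M, (∀ x, h p₀ ≤ h x) ∧ ∀ x, (∀ t, ρ t x = x) ↔ h x = h p₀ := by
  choose P hPfix hPlim using hB
  have hB : BackConv ρ Φ := fun x => ⟨P x, hPfix x, hPlim x⟩
  have hshift : ∀ T y, P (Φ T y) = P y := by
    intro T y
    refine tendsto_nhds_unique (hPlim (Φ T y)) ?_
    have h1 : Tendsto (fun t : ℝ => Φ (t + T) y) atBot (𝓝 (P y)) :=
      (hPlim y).comp (tendsto_atBot_add_const_right atBot T tendsto_id)
    refine h1.congr fun t => ?_
    rw [hF.add]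
  have hloc : IsLocallyConstant (fun x => h (P x)) := by
    rw [IsLocallyConstant.iff_eventually_eq]
    intro x
    have h1 := pot_near hK hnn hpos hρ hgrad hF hB (hPfix x)
    obtain ⟨U, hUp, hUo, hxU⟩ := _root_.eventually_nhds_iff.1 h1
    obtain ⟨T, hT⟩ := ((hPlim x).eventually (hUo.mem_nhds hxU)).exists
    have hc : Continuous (Φ T) := (hF.smooth hρ T).continuous
    filter_upwards [hc.continuousAt.eventually (hUo.mem_nhds hT)] with y hy
    have h2 := hUp _ hy (P (Φ T y)) (hPlim _)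
    rw [hshift] at h2
    exact h2
  have hne : Nonempty M := inferInstance
  obtain ⟨x₀⟩ := hne
  have hconst : ∀ x, h (P x) = h (P x₀) := fun x =>
    hloc.apply_eq_of_preconnectedSpace x x₀
  have hmin : ∀ x, h (P x₀) ≤ h x := fun x => by
    rw [← hconst x]
    exact pot_le hρ hgrad hF (hPlim x)
  refine ⟨P x₀, hmin, fun x => ⟨fun hx => ?_, fun hx => ?_⟩⟩
  · have h1 := (pot_near hK hnn hpos hρ hgrad hF hB hx).self_of_nhds (P x) (hPlim x)
    rw [← h1, hconst]
  · exact fixed_of_min hρ hgrad (Eventually.of_forall fun y => by rw [hx]; exact hmin y)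

/-- the reversed flow -/
theorem IsFlow.rev (hF : IsFlow E ρ Φ) : IsFlow E (fun t => ρ (-t)) (fun t => Φ (-t)) where
  zero x := by simp [hF.zero]
  add s t x := by simp only [neg_add]; rw [hF.add]
  curve x := by
    have h1 := (hF.curve x).comp_mul (-1)
    have h2 : ((-1 : ℝ) • W (E := E) ρ : (x : M) → TangentSpace 𝓘(ℝ, E) x)
        = W (E := E) (fun t => ρ (-t)) := by
      funext y
      change (-1 : ℝ) • WE (E := E) ρ y = WE (E := E) (fun t => ρ (-t)) y
      rw [WE_rev]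
      simp
    rw [h2] at h1
    have h3 : ((fun t => Φ t x) ∘ (· * (-1)) : ℝ → M) = fun t => Φ (-t) x := by
      funext t
      simp
    rwa [h3] at h1

theorem backConv_of (hF : IsFlow E ρ Φ)
    (hrev : ∀ γ : ℝ → M, IsMIntegralCurve (I := 𝓘(ℝ, E)) γ (W (E := E) (fun t => ρ (-t))) →
      ∃ p, (∀ t, ρ t p = p) ∧ Tendsto γ atTop (𝓝 p)) : BackConv ρ Φ := by
  intro x
  obtain ⟨p, hp, hlim⟩ := hrev _ ((IsFlow.rev hF).curve x)
  refine ⟨p, hp, ?_⟩
  have h1 := hlim.comp tendsto_neg_atBot_atTop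
  refine h1.congr fun t => ?_
  simp

/-- **the model space**, if the critical points form a bounded set, or if one of them is isolated -/
theorem main_back (hK : IsKahler E M) [CompleteSpace M] [NoncompactSpace M] [ConnectedSpace M]
    (hnn : ∀ x : M, NonnegBisectionalAt E x) (hpos : ∀ x : M, PosBisectionalAt E x)
    (hρ : IsHolIsomFlow E ρ) (hgrad : IsGradOf (E := E) ρ h) (hF : IsFlow E ρ Φ)
    (hB : BackConv ρ Φ)
    (hN : Bornology.IsBounded {x : M | ∀ t, ρ t x = x} ∨
      ∃ p, (∀ t, ρ t p = p) ∧ ∀ᶠ x in 𝓝 p, (∀ t, ρ t x = x) → x = p) :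
    ∃ (p : M) (b : Basis (Fin (finrank ℂ E)) ℂ E) (m : Fin (finrank ℂ E) → ℝ)
      (F : M ≃ₘ^1⟮𝓘(ℂ, E), 𝓘(ℂ, E)⟯ E), HasWeights ρ p b m ∧ IsLinearization ρ p F ∧
      ∀ x, (∀ t, ρ t x = x) ↔ x = p := by
  have key : ∃ (p : M) (b : Basis (Fin (finrank ℂ E)) ℂ E) (m : Fin (finrank ℂ E) → ℝ),
      HasWeights ρ p b m := by
    rcases hN with hN | ⟨p, hfix, hiso⟩
    · have hP : ProperSpace M := properSpace_riemannian E M
      obtain ⟨p₀, hmin, hiff⟩ := exists_min hK hnn hpos hρ hgrad hF hB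
      have hset : {x : M | ∀ t, ρ t x = x} = h ⁻¹' {h p₀} := by
        ext x
        exact hiff x
      have hcl : IsClosed (h ⁻¹' {h p₀}) :=
        isClosed_singleton.preimage (continuous_of_grad hgrad)
      rw [hset] at hN
      obtain ⟨p, -, b, m, hw⟩ := exists_weights_of_min hK hnn hpos hρ hgrad
        (N := h ⁻¹' {h p₀}) (O := univ) (c := h p₀)
        (Metric.isCompact_of_isClosed_isBounded hcl hN) ⟨p₀, rfl⟩ isOpen_univ (subset_univ _)
        (fun x hx => hx) (fun x hx => lt_of_le_of_ne (hmin x) fun h1 => hx.2 h1.symm)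
      exact ⟨p, b, m, hw⟩
    · obtain ⟨b, m, hw⟩ := exists_real_weights hK hρ hfix
      refine ⟨p, b, m, hfix, fun j => lt_of_le_of_ne
        (weights_nonneg hK hnn hpos hρ hF hB hfix hw j) (Ne.symm ?_), hw⟩
      exact weights_ne_zero hρ hfix hw hiso (fun x hx => hx) j
  obtain ⟨p, b, m, hw⟩ := key
  obtain ⟨F, hF', -⟩ := Vale.Agent.P253.U165.main_weights hK hnn hρ (hpos p) hw
  refine ⟨p, b, m, F, hw, hF', fun x => ⟨fun hx => fixed_unique hw hF' hx, fun hx => ?_⟩⟩
  rw [hx]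
  exact hw.1

end Vale.Agent.P253.H348
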