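import Vale.Agent.P253.Mfd.Defs

/-!
P253: the orbits of the flow of `-grad h`.
-/

open scoped Manifold ContDiff Topology Bundle
open Set Metric Complex Filter Bundle IsManifold Manifold Vale.Agent.P253.Mfd

noncomputable section

namespace Vale.Agent.P253.H348

section defs

variable (E : Type*) [NormedAddCommGroup E] [NormedSpace ℂ E]
  {M : Type*} [MetricSpace M] [ChartedSpace E M]
  [RiemannianBundle (fun x : M => TangentSpace 𝓘(ℝ, E) x)]

/-- `γ` is an orbit of the flow of `-grad h`: the velocity `v` of `γ` satisfies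
`g (v, w) = - dh (w)` -/
def IsDescent (h : M → ℝ) (γ : ℝ → M) : Prop :=
  Continuous γ ∧ ∀ t, ∀ e ∈ maximalAtlas 𝓘(ℂ, E) 1 M, γ t ∈ e.source →
    ∃ v : E, HasDerivAt (fun s => e (γ s)) v t ∧
      ∀ w, chartMetric e (e (γ t)) v w = -fderiv ℝ (fun y => h (e.symm y)) (e (γ t)) w

end defs

end Vale.Agent.P253.H348
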