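import Vale.Agent.P253.H22.Asm
import Vale.Agent.P253.H202.Lim
import Vale.Agent.P253.H348.BBP
import Vale.Agent.P253.H348.Desc

/-!
P253: Killing potentials with a sublinear lower bound (positive bisectional curvature).
-/

open scoped Manifold ContDiff Topology Bundle
open Set Metric Complex Filter Bundle IsManifold Manifold Module Vale.Agent.P253.Mfd
  Vale.Agent.P253.H577 Vale.Agent.P253.H22 Vale.Agent.P253.H202

set_option maxSynthPendingDepth 3
set_option linter.unusedSectionVars false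

noncomputable section

namespace Vale.Agent.P253.H348

variable {E : Type*} [NormedAddCommGroup E] [NormedSpace ℂ E] [FiniteDimensional ℂ E]
  {M : Type*} [MetricSpace M] [ChartedSpace E M]
  [IsManifold 𝓘(ℂ, E) 1 M] [IsManifold 𝓘(ℝ, E) ∞ M]
  [RiemannianBundle (fun x : M => TangentSpace 𝓘(ℝ, E) x)]
  [IsContMDiffRiemannianBundle 𝓘(ℝ, E) ∞ E (fun x : M => TangentSpace 𝓘(ℝ, E) x)]
  [IsRiemannianManifold 𝓘(ℝ, E) M]
  {ρ Φ : ℝ → M → M} {e e' : OpenPartialHomeomorph M E} {γ : ℝ → M} {h : M → ℝ} {x₀ : M}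

theorem isDescent_iff (hρ : IsHolIsomFlow E ρ) (hgrad : IsGradOf (E := E) ρ h) :
    IsDescent E h γ ↔ IsMIntegralCurve (I := 𝓘(ℝ, E)) γ (W (E := E) (fun t => ρ (-t))) := by
  have hσ := hρ.rev
  have hspec : ∀ e ∈ maximalAtlas 𝓘(ℂ, E) 1 M, ∀ z ∈ e.target, ∀ w : E,
      chartMetric e z (vF (fun t => ρ (-t)) e z) w = -fderiv ℝ (fun y => h (e.symm y)) z w := by
    intro e he z hz w
    rw [(hgrad e he z hz).fderiv, ← chartG_apply, vF_rev, map_neg]
    rfl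
  constructor
  · rintro ⟨hc, hd⟩ t
    have he : chartAt E (γ t) ∈ maximalAtlas 𝓘(ℂ, E) 1 M := chart_mem_maximalAtlas _
    have hx : γ t ∈ (chartAt E (γ t)).source := mem_chart_source E _
    set e := chartAt E (γ t) with hedef
    have hz : e (γ t) ∈ e.target := e.map_source hx
    obtain ⟨v, hv, hvw⟩ := hd t e he hx
    have h1 : v = vF (fun t => ρ (-t)) e (e (γ t)) := by
      by_contra hne
      have h2 := chartG_pos (mem_maximalAtlas_real he) hz _ (sub_ne_zero.2 hne)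
      have h3 : ∀ a, chartG e (e (γ t)) (v - vF (fun t => ρ (-t)) e (e (γ t))) a = 0 := by
        intro a
        rw [map_sub (chartG e (e (γ t))) v _, sub_apply, chartG_apply, chartG_apply, hvw,
          hspec e he _ hz, sub_self]
      rw [h3] at h2
      exact lt_irrefl _ h2
    rw [h1] at hv
    have h2 := IntegralCurve.of_chart hσ he (y := fun s => e (γ s)) hv hz
    have hev : γ =ᶠ[𝓝 t] e.symm ∘ fun s => e (γ s) := by
      filter_upwards [hc.continuousAt.eventually (e.open_source.mem_nhds hx)] with s hs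
      simp only [Function.comp_apply]
      rw [e.left_inv hs]
    have h3 := h2.congr_of_eventuallyEq hev
    have h4 : e.symm (e (γ t)) = γ t := e.left_inv hx
    rw [h4] at h3
    exact h3
  · intro hγ
    refine ⟨hγ.continuous, fun t e he hx => ⟨_, IntegralCurve.hasDerivAt hσ he
      (hγ.isMIntegralCurveOn univ) univ_mem hx, hspec e he _ (e.map_source hx)⟩⟩

/-- the constant curve at a fixed point -/
theorem isDescent_const (hgrad : IsGradOf (E := E) ρ h) {x : M} (hx : ∀ t, ρ t x = x) :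
    IsDescent E h (fun _ : ℝ => x) := by
  refine ⟨continuous_const, fun t e he hxe => ⟨0, hasDerivAt_const _ _, fun w => ?_⟩⟩
  have h1 : vF ρ e (e x) = 0 := by
    have h2 : (fun t : ℝ => e (ρ t (e.symm (e x)))) = fun _ => e x := by
      funext t
      rw [e.left_inv hxe, hx]
    rw [vF, xF, h2, deriv_const, smul_zero, neg_zero]
  have h2 := hgrad e he (e x) (e.map_source hxe)
  rw [h1, map_zero] at h2
  have h3 : chartMetric e (e x) 0 w = 0 := by
    rw [← chartG_apply, map_zero]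
    rfl
  have h4 : fderiv ℝ (fun y : E => h (e.symm y)) (e x) w = 0 := by
    rw [h2.fderiv]
    rfl
  change chartMetric e (e x) 0 w = -fderiv ℝ (fun y : E => h (e.symm y)) (e x) w
  rw [h3, h4, neg_zero]

theorem rev_rev (ρ : ℝ → M → M) : (fun t : ℝ => (fun t => ρ (-t)) (-t)) = ρ := by
  funext t
  simp

theorem descent_lim (hK : IsKahler E M) (hnn : ∀ x : M, NonnegBisectionalAt E x)
    [CompleteSpace M] (hρ : IsHolIsomFlow E ρ) (hgrad : IsGradOf (E := E) ρ h)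
    (hsub : ∀ ε > 0, ∃ C, ∀ x, -(ε * dist x₀ x) - C ≤ h x) (hγ : IsDescent E h γ) :
    ∃ p, (∀ t, ρ t p = p) ∧ ∃ C s, 0 < s ∧ ∀ t, 0 ≤ t → dist (γ t) p ≤ C * Real.exp (-(s * t)) := by
  have h1 := rev_curve (E := E) ((isDescent_iff hρ hgrad).1 hγ)
  rw [rev_rev] at h1
  obtain ⟨p, hp, -, -, C, s, hs, hb⟩ := exists_lim_back hK hnn hρ hgrad hsub h1
  refine ⟨p, hp, C, s, hs, fun t ht => ?_⟩
  have h2 := hb (-t) (by linarith)
  rwa [neg_neg, mul_neg] at h2

theorem backConv (hK : IsKahler E M) (hnn : ∀ x : M, NonnegBisectionalAt E x)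
    [CompleteSpace M] (hρ : IsHolIsomFlow E ρ) (hgrad : IsGradOf (E := E) ρ h)
    (hsub : ∀ ε > 0, ∃ C, ∀ x, -(ε * dist x₀ x) - C ≤ h x) (hF : IsFlow E ρ Φ) :
    BackConv ρ Φ := by
  intro x
  obtain ⟨p, hp, hl, -⟩ := exists_lim_back hK hnn hρ hgrad hsub (hF.curve x)
  exact ⟨p, hp, hl⟩

/-- the projection to the zero weights -/
def zeroProj {ι : Type*} (φ : E ≃L[ℂ] (ι → ℂ)) (m : ι → ℝ) (z : E) : E :=
  φ.symm fun j => if m j = 0 then φ z j else 0

theorem differentiable_zeroProj {ι : Type*} [Fintype ι] (φ : E ≃L[ℂ] (ι → ℂ)) (m : ι → ℝ) :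
    Differentiable ℂ (zeroProj φ m) := by
  refine φ.symm.differentiable.comp (differentiable_pi.2 fun j => ?_)
  by_cases hj : m j = 0
  · simp only [if_pos hj]
    exact differentiable_pi.1 φ.differentiable j
  · simp only [if_neg hj]
    exact differentiable_const _

/-- near a fixed point the backward limits are given by a holomorphic map -/
theorem local_limit (hK : IsKahler E M) [CompleteSpace M] [NoncompactSpace M]
    (hnn : ∀ x : M, NonnegBisectionalAt E x) (hpos : ∀ x : M, PosBisectionalAt E x)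
    (hρ : IsHolIsomFlow E ρ) (hF : IsFlow E ρ Φ) (hB : BackConv ρ Φ) {p : M}
    (hfix : ∀ t, ρ t p = p) :
    ∃ e₀ ∈ maximalAtlas 𝓘(ℂ, E) 1 M, p ∈ e₀.source ∧ ∃ Q : E → E, Differentiable ℂ Q ∧
      ∀ y ∈ e₀.source, Q (e₀ y) ∈ e₀.target ∧
        Tendsto (fun t => Φ t y) atBot (𝓝 (e₀.symm (Q (e₀ y)))) := by
  obtain ⟨b, m, hw⟩ := exists_real_weights hK hρ hfix
  have hm : ∀ j, 0 ≤ m j := weights_nonneg hK hnn hpos hρ hF hB hfix hw
  set φ : E ≃L[ℂ] (Fin (finrank ℂ E) → ℂ) := b.equivFun.toContinuousLinearEquiv with hφ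
  have hw' := Vale.Agent.P253.U165.weights_LE hw
  obtain ⟨e₀, he₀, δ, hδ, hpe, hep, htgt, hequiv⟩ := exists_linearizing_chart hρ hfix φ m hw'
  refine ⟨e₀, he₀, hpe, zeroProj φ m, differentiable_zeroProj φ m, fun y hy => ?_⟩
  set z := e₀ y with hz
  have hzt : z ∈ e₀.target := e₀.map_source hy
  have hzn : ‖φ z‖ < δ := by rw [htgt] at hzt; exact hzt
  have hback : ∀ s : ℝ, s ≤ 0 → LE φ m (s : ℂ) z ∈ e₀.target := by
    intro s hs
    rw [htgt]
    exact (norm_LE_back hm hs z).trans_lt hzn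
  have hc : Continuous (fun s : ℝ => LE φ m (s : ℂ) z) :=
    continuous_LE.comp (continuous_ofReal.prodMk continuous_const)
  obtain ⟨ε, hε, hεb⟩ : ∃ ε > 0, ∀ s : ℝ, |s| < ε → LE φ m (s : ℂ) z ∈ e₀.target := by
    have h1 : ∀ᶠ s : ℝ in 𝓝 0, LE φ m (s : ℂ) z ∈ e₀.target := by
      apply hc.continuousAt.eventually
      apply e₀.open_target.mem_nhds
      simpa [LE_zero] using hzt
    obtain ⟨ε, hε, h2⟩ := Metric.eventually_nhds_iff.1 h1
    exact ⟨ε, hε, fun s hs => h2 (by simpa [Real.dist_eq] using hs)⟩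
  have hall : ∀ s : ℝ, s < ε → LE φ m (s : ℂ) z ∈ e₀.target := by
    intro s hs
    by_cases hs0 : s ≤ 0
    · exact hback s hs0
    · push Not at hs0
      exact hεb s (by rwa [abs_of_pos hs0])
  have hflow : ∀ t : ℝ, t ≤ 0 → Φ t y = e₀.symm (LE φ m (t : ℂ) z) := by
    intro t ht
    have h1 := flow_chart hρ hF he₀ hequiv (z := z) (a := t - 1) (b := ε)
      ⟨by linarith, hε⟩ (fun s hs => hall s hs.2) t ⟨by linarith, by linarith⟩
    rwa [hz, e₀.left_inv hy] at h1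
  obtain ⟨w, hwc, hwt⟩ := tendsto_LE_back (φ := φ) hm z
  have hwz : w = zeroProj φ m z := by
    apply ext_coord (φ := φ)
    intro j
    rw [hwc, zeroProj, φ.apply_symm_apply]
  rw [← hwz]
  have hwt1 : w ∈ e₀.target := by
    rw [htgt]
    refine lt_of_le_of_lt ?_ hzn
    rw [pi_norm_le_iff_of_nonneg (norm_nonneg _)]
    intro j
    rw [hwc]
    split_ifs
    · exact norm_le_pi_norm (φ z) j
    · rw [norm_zero]; exact norm_nonneg _
  refine ⟨hwt1, ((e₀.continuousAt_symm hwt1).tendsto.comp hwt).congr' ?_⟩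
  filter_upwards [eventually_le_atBot 0] with t ht
  simp only [Function.comp_apply]
  rw [hflow t ht]

/-- **the backward limits define a holomorphic retraction** -/
theorem exists_retraction (hK : IsKahler E M) [CompleteSpace M] [NoncompactSpace M]
    (hnn : ∀ x : M, NonnegBisectionalAt E x) (hpos : ∀ x : M, PosBisectionalAt E x)
    (hρ : IsHolIsomFlow E ρ) (hF : IsFlow E ρ Φ) (hB : BackConv ρ Φ) :
    ∃ P : M → M, MDifferentiable 𝓘(ℂ, E) 𝓘(ℂ, E) P ∧ (∀ x t, ρ t (P x) = P x) ∧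
      (∀ x, Tendsto (fun t => Φ t x) atBot (𝓝 (P x))) := by
  choose P hPfix hPlim using hB
  have hB : BackConv ρ Φ := fun x => ⟨P x, hPfix x, hPlim x⟩
  have hshift : ∀ T y, P (Φ T y) = P y := by
    intro T y
    refine tendsto_nhds_unique (hPlim (Φ T y)) ?_
    have h1 : Tendsto (fun t : ℝ => Φ (t + T) y) atBot (𝓝 (P y)) :=
      (hPlim y).comp (tendsto_atBot_add_const_right atBot T tendsto_id)
    refine h1.congr fun t => ?_
    rw [hF.add]
  refine ⟨P, fun x => ?_, hPfix, hPlim⟩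
  obtain ⟨e₀, he₀, hpe, Q, hQ, hloc⟩ := local_limit hK hnn hpos hρ hF hB (hPfix x)
  obtain ⟨T, hT⟩ := ((hPlim x).eventually (e₀.open_source.mem_nhds hpe)).exists
  have hPe : ∀ y ∈ e₀.source, P y = e₀.symm (Q (e₀ y)) := fun y hy =>
    tendsto_nhds_unique (hPlim y) (hloc y hy).2
  have h1 : MDifferentiableAt 𝓘(ℂ, E) 𝓘(ℂ, E) e₀ (Φ T x) :=
    ((contMDiffOn_of_mem_maximalAtlas he₀).contMDiffAt
      (e₀.open_source.mem_nhds hT)).mdifferentiableAt (by simp)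
  have h2 : MDifferentiableAt 𝓘(ℂ, E) 𝓘(ℂ, E) Q (e₀ (Φ T x)) :=
    (hQ _).mdifferentiableAt
  have h3 : MDifferentiableAt 𝓘(ℂ, E) 𝓘(ℂ, E) e₀.symm (Q (e₀ (Φ T x))) :=
    ((contMDiffOn_symm_of_mem_maximalAtlas he₀).contMDiffAt
      (e₀.open_target.mem_nhds (hloc _ hT).1)).mdifferentiableAt (by simp)
  have h4 : MDifferentiableAt 𝓘(ℂ, E) 𝓘(ℂ, E) (Φ T) x := flow_holo hρ hF.zero hF.add hF.curve T x
  have h5 := (h3.comp (Φ T x) (h2.comp (Φ T x) h1)).comp x h4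
  refine h5.congr_of_eventuallyEq ?_
  have hc : Continuous (Φ T) := (hF.smooth hρ T).continuous
  filter_upwards [hc.continuousAt.eventually (e₀.open_source.mem_nhds hT)] with y hy
  simp only [Function.comp_apply]
  rw [← hshift T y, hPe _ hy]

variable [CompleteSpace M] [NoncompactSpace M] [ConnectedSpace M]

/-- the critical points are the minima -/
theorem crit_iff_min (hK : IsKahler E M) (hpos : ∀ x : M, PosBisectionalAt E x)
    (hρ : IsHolIsomFlow E ρ) (hgrad : IsGradOf (E := E) ρ h)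
    (hsub : ∀ ε > 0, ∃ C, ∀ x, -(ε * dist x₀ x) - C ≤ h x) :
    ∃ p₀ : M, (∀ x, h p₀ ≤ h x) ∧ ∀ x, (∀ t, ρ t x = x) ↔ h x = h p₀ := by
  have hnn : ∀ x : M, NonnegBisectionalAt E x := fun x => (hpos x).nonneg
  obtain ⟨Φ, hΦ0, hΦadd, hΦ, -⟩ := exists_flow hK hnn hρ
  have hF : IsFlow E ρ Φ := ⟨hΦ0, hΦadd, hΦ⟩
  exact exists_min hK hnn hpos hρ hgrad hF (backConv hK hnn hρ hgrad hsub hF)

/-- sublinear Killing potentials are constant -/
theorem const_of_sublinear (hK : IsKahler E M) (hpos : ∀ x : M, PosBisectionalAt E x)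
    (hρ : IsHolIsomFlow E ρ) (hgrad : IsGradOf (E := E) ρ h)
    (hsub : ∀ ε > 0, ∃ C, ∀ x, -(ε * dist x₀ x) - C ≤ h x)
    (hsup : ∀ ε > 0, ∃ C, ∀ x, h x ≤ ε * dist x₀ x + C) (x y : M) : h x = h y := by
  obtain ⟨p, hp, hpi⟩ := crit_iff_min hK hpos hρ hgrad hsub
  obtain ⟨q, hq, hqi⟩ := crit_iff_min hK hpos hρ.rev (IsGradOf.rev hgrad) (x₀ := x₀)
    (fun ε hε => by
      obtain ⟨C, hC⟩ := hsup ε hε
      exact ⟨C, fun x => by linarith [hC x]⟩)
  have h1 := (hqi p).1 fun t => (hpi p).2 rfl (-t)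
  have h2 : ∀ x, h x = h p := fun x => le_antisymm (by linarith [hq x]) (hp x)
  rw [h2 x, h2 y]

/-- **the model space**, if the set of critical points has a nonempty compact open piece -/
theorem main_piece (hK : IsKahler E M) (hpos : ∀ x : M, PosBisectionalAt E x)
    (hρ : IsHolIsomFlow E ρ) (hgrad : IsGradOf (E := E) ρ h)
    (hsub : ∀ ε > 0, ∃ C, ∀ x, -(ε * dist x₀ x) - C ≤ h x) {O : Set M} (hO : IsOpen O)
    (hne : (O ∩ {x : M | ∀ t, ρ t x = x}).Nonempty)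
    (hcomp : IsCompact (O ∩ {x : M | ∀ t, ρ t x = x})) :
    ∃ (p : M) (b : Basis (Fin (finrank ℂ E)) ℂ E) (m : Fin (finrank ℂ E) → ℝ)
      (F : M ≃ₘ^1⟮𝓘(ℂ, E), 𝓘(ℂ, E)⟯ E), HasWeights ρ p b m ∧ IsLinearization ρ p F := by
  have hnn : ∀ x : M, NonnegBisectionalAt E x := fun x => (hpos x).nonneg
  obtain ⟨p₀, hp, hpi⟩ := crit_iff_min hK hpos hρ hgrad hsub
  obtain ⟨p, -, b, m, hw⟩ := exists_weights_of_min hK hnn hpos hρ hgrad (c := h p₀) hcomp hne hO
    inter_subset_left (fun x hx => (hpi x).1 hx.2)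
    (fun x hx => lt_of_le_of_ne (hp x) fun h1 => hx.2 ⟨hx.1, (hpi x).2 h1.symm⟩)
  obtain ⟨F, hF, -⟩ := Vale.Agent.P253.U165.main_weights hK hnn hρ (hpos p) hw
  exact ⟨p, b, m, F, hw, hF⟩

/-- the two last clauses of the final statement -/
theorem main_bbp (hK : IsKahler E M) (hpos : ∀ x : M, PosBisectionalAt E x)
    (hh : ContMDiff 𝓘(ℝ, E) 𝓘(ℝ, ℝ) ∞ h) (hρ : IsJGradFlow E h ρ)
    (hsub : ∀ ε > 0, ∃ C, ∀ x, -(ε * dist x₀ x) - C ≤ h x) :
    ((∀ ε > 0, ∃ C, ∀ x, h x ≤ ε * dist x₀ x + C) → ∀ x y, h x = h y) ∧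
    (∀ O : Set M, IsOpen O → (O ∩ {x : M | mfderiv 𝓘(ℝ, E) 𝓘(ℝ, ℝ) h x = 0}).Nonempty →
      IsCompact (O ∩ {x : M | mfderiv 𝓘(ℝ, E) 𝓘(ℝ, ℝ) h x = 0}) →
      ∃ (p : M) (b : Basis (Fin (finrank ℂ E)) ℂ E) (m : Fin (finrank ℂ E) → ℝ)
        (F : M ≃ₘ^1⟮𝓘(ℂ, E), 𝓘(ℂ, E)⟯ E), HessPosAt E h p ∧ HasWeights ρ p b m ∧
        (∀ x, mfderiv 𝓘(ℝ, E) 𝓘(ℝ, ℝ) h x = 0 ↔ x = p) ∧ IsLinearization ρ p F) := by
  have hgrad := isGradOf_flow hK hh hρ
  have hfix := hρ.fixed_iff hK hh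
  refine ⟨fun hsup => const_of_sublinear hK hpos hρ.1 hgrad hsub hsup, fun O hO hne hcomp => ?_⟩
  have hset : {x : M | mfderiv 𝓘(ℝ, E) 𝓘(ℝ, ℝ) h x = 0} = {x : M | ∀ t, ρ t x = x} := by
    ext x
    exact (hfix x).symm
  rw [hset] at hne hcomp
  obtain ⟨p, b, m, F, hw, hF⟩ := main_piece hK hpos hρ.1 hgrad hsub hO hne hcomp
  refine ⟨p, b, m, F, (hρ.botGE_iff hK hh).1 (exists_botGE_of_hasWeights hK hρ.1 hw), hw,
    fun x => ⟨fun hx => fixed_unique hw hF ((hfix x).2 hx), fun hx => ?_⟩, hF⟩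
  rw [hx]
  exact (hfix p).1 hw.1

end Vale.Agent.P253.H348
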