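import Vale.Agent.P253.H348.Grad
import Vale.Agent.P253.Bdl.B2

/-!
P253: gradient fields of functions with J-invariant Hessian; gradient Kaehler-Ricci solitons.
-/

open scoped Manifold ContDiff Topology Bundle
open Set Metric Complex Filter Bundle IsManifold Module Vale.Agent.P253.Mfd

set_option maxSynthPendingDepth 3
set_option linter.unusedSectionVars false

noncomputable section

namespace Vale.Agent.P253.H348

variable {E : Type*} [NormedAddCommGroup E] [NormedSpace ℂ E]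
  {M : Type*} [MetricSpace M] [ChartedSpace E M]

/-- the Hessian `∇²f (a, a)` in the chart `e` at the point `z` of the chart -/
def HessAt (e : OpenPartialHomeomorph M E) (z : E) (Γ : E → E → E) (f : M → ℝ) (a : E) : ℝ :=
  fderiv ℝ (fun y => fderiv ℝ (fun x => f (e.symm x)) y a) z a
    - fderiv ℝ (fun x => f (e.symm x)) z (Γ a a)

section metric

variable [RiemannianBundle (fun x : M => TangentSpace 𝓘(ℝ, E) x)]

/-- `b` is an orthonormal basis of the tangent space at the point `z` of the chart `e` -/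
def IsOrthonormalAt (e : OpenPartialHomeomorph M E) (z : E) (b : Fin (finrank ℝ E) → E) : Prop :=
  ∀ i j, chartMetric e z (b i) (b j) = if i = j then 1 else 0

/-- the Ricci curvature `Rc(a, a)`, computed in the orthonormal basis `b` -/
def ricNum (e : OpenPartialHomeomorph M E) (z : E) (Γ : E → E → E) (b : Fin (finrank ℝ E) → E)
    (a : E) : ℝ :=
  ∑ i, sectNum e z Γ a (b i)

variable (E) in
/-- `Rc > lam g` at the point `x` -/
def RicciGTAt (lam : ℝ) (x : M) : Prop :=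
  ∀ e ∈ maximalAtlas 𝓘(ℂ, E) 1 M, x ∈ e.source → ∀ Γ, IsChristoffel e (e x) Γ →
    ∀ b, IsOrthonormalAt e (e x) b → ∀ a, a ≠ 0 →
      lam * chartMetric e (e x) a a < ricNum e (e x) Γ b a

variable (E) in
/-- `Rc < lam g` at the point `x` -/
def RicciLTAt (lam : ℝ) (x : M) : Prop :=
  ∀ e ∈ maximalAtlas 𝓘(ℂ, E) 1 M, x ∈ e.source → ∀ Γ, IsChristoffel e (e x) Γ →
    ∀ b, IsOrthonormalAt e (e x) b → ∀ a, a ≠ 0 →
      ricNum e (e x) Γ b a < lam * chartMetric e (e x) a a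

variable (E) in
/-- `Rc + ∇²f = lam g`: the metric is a gradient Ricci soliton with potential `f` -/
structure IsGradSoliton (f : M → ℝ) (lam : ℝ) : Prop where
  smooth : ContMDiff 𝓘(ℝ, E) 𝓘(ℝ, ℝ) ∞ f
  eq : ∀ e ∈ maximalAtlas 𝓘(ℂ, E) 1 M, ∀ z ∈ e.target, ∀ Γ, IsChristoffel e z Γ →
    ∀ b, IsOrthonormalAt e z b → ∀ a, ricNum e z Γ b a + HessAt e z Γ f a = lam * chartMetric e z a a

variable (E) in
/-- the Hessian of `f` is invariant under the complex structure -/
def HessJ (f : M → ℝ) : Prop :=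
  ∀ e ∈ maximalAtlas 𝓘(ℂ, E) 1 M, ∀ z ∈ e.target, ∀ Γ, IsChristoffel e z Γ →
    ∀ a, HessAt e z Γ f (I • a) = HessAt e z Γ f a

end metric

/-- a function in a chart -/
def inChart (e : OpenPartialHomeomorph M E) (f : M → ℝ) : E → ℝ := fun x => f (e.symm x)

theorem HessAt_neg (e : OpenPartialHomeomorph M E) (z : E) (Γ : E → E → E) (f : M → ℝ) (a : E) :
    HessAt e z Γ (fun x => -f x) a = -HessAt e z Γ f a := by
  simp only [HessAt, fderiv_fun_neg, neg_apply]
  ring

variable [FiniteDimensional ℂ E] [IsManifold 𝓘(ℂ, E) 1 M] [IsManifold 𝓘(ℝ, E) ∞ M]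
  {f : M → ℝ} {e e' : OpenPartialHomeomorph M E} {z : E} {Γ : E → E → E} {lam : ℝ}

theorem contDiffOn_inChart (hf : ContMDiff 𝓘(ℝ, E) 𝓘(ℝ, ℝ) ∞ f)
    (he : e ∈ maximalAtlas 𝓘(ℂ, E) 1 M) : ContDiffOn ℝ ∞ (inChart e f) e.target := by
  have h1 : ContMDiffOn 𝓘(ℝ, E) 𝓘(ℝ, E) ∞ e.symm e.target :=
    contMDiffOn_symm_of_mem_maximalAtlas (mem_maximalAtlas_real he)
  exact contMDiffOn_iff_contDiffOn.1 (hf.comp_contMDiffOn h1)

variable [RiemannianBundle (fun x : M => TangentSpace 𝓘(ℝ, E) x)]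

/-- the gradient of `f` in the chart `e` -/
def gradF (f : M → ℝ) (e : OpenPartialHomeomorph M E) (z : E) : E :=
  gradG (chartG e) (inChart e f) z

variable [IsContMDiffRiemannianBundle 𝓘(ℝ, E) ∞ E (fun x : M => TangentSpace 𝓘(ℝ, E) x)]

theorem HessAt_eq (hf : ContMDiff 𝓘(ℝ, E) 𝓘(ℝ, ℝ) ∞ f) (he : e ∈ maximalAtlas 𝓘(ℂ, E) 1 M)
    (hz : z ∈ e.target) (hΓ : IsChristoffel e z Γ) (a : E) :
    HessAt e z Γ f a = hessG (chartG e) (inChart e f) z a a := by
  have h1 : HasFDerivAt (fderiv ℝ (inChart e f)) (fderiv ℝ (fderiv ℝ (inChart e f)) z) z :=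
    ((((contDiffOn_inChart hf he).fderiv_of_isOpen e.open_target (m := ∞) (by simp)).contDiffAt
      (e.open_target.mem_nhds hz)).differentiableAt (by simp)).hasFDerivAt
  have h2 := h1.clm_apply (hasFDerivAt_const a z)
  have h3 : fderiv ℝ (fun y => fderiv ℝ (inChart e f) y a) z a
      = fderiv ℝ (fderiv ℝ (inChart e f)) z a a := by
    rw [h2.fderiv]; simp
  rw [hessG, ← h3, ← isChristoffel_eq (mem_maximalAtlas_real he) hz hΓ]
  rfl

theorem exists_christoffel (hK : IsKahler E M) (he : e ∈ maximalAtlas 𝓘(ℂ, E) 1 M)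
    (hz : z ∈ e.target) : ∃ Γ, IsChristoffel e z Γ := by
  obtain ⟨Γ, hΓ, _⟩ := (hK e he z hz).2
  exact ⟨Γ, hΓ⟩

theorem hessG_of_HessJ (hK : IsKahler E M) (hf : ContMDiff 𝓘(ℝ, E) 𝓘(ℝ, ℝ) ∞ f) (hJ : HessJ E f)
    (he : e ∈ maximalAtlas 𝓘(ℂ, E) 1 M) : ∀ z ∈ e.target, ∀ a,
    hessG (chartG e) (inChart e f) z (I • a) (I • a) = hessG (chartG e) (inChart e f) z a a := by
  intro z hz a
  obtain ⟨Γ, hΓ⟩ := exists_christoffel hK he hz
  rw [← HessAt_eq hf he hz hΓ, ← HessAt_eq hf he hz hΓ, hJ e he z hz Γ hΓ]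

/-- (G0) -/
theorem gradF_spec (hK : IsKahler E M) (he : e ∈ maximalAtlas 𝓘(ℂ, E) 1 M) (hz : z ∈ e.target)
    (w : E) : chartG e z (gradF f e z) w = fderiv ℝ (fun y => f (e.symm y)) z w := by
  have h := gradG_apply (φ := inChart e f) (localKahler_chartG hK he) hz
  exact congrArg (fun T => T w) h

/-- (G0) -/
theorem gradF_unique (hK : IsKahler E M) (he : e ∈ maximalAtlas 𝓘(ℂ, E) 1 M) (hz : z ∈ e.target)
    {v : E} (hv : ∀ w, chartG e z v w = fderiv ℝ (fun y => f (e.symm y)) z w) :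
    v = gradF f e z :=
  eq_gradG (φ := inChart e f) (localKahler_chartG hK he) hz hv

/-- (G1) -/
theorem contDiffOn_real_gradF (hK : IsKahler E M) (hf : ContMDiff 𝓘(ℝ, E) 𝓘(ℝ, ℝ) ∞ f)
    (he : e ∈ maximalAtlas 𝓘(ℂ, E) 1 M) : ContDiffOn ℝ ∞ (gradF f e) e.target :=
  contDiffOn_gradG (localKahler_chartG hK he) (contDiffOn_inChart hf he)

/-- (G1) -/
theorem differentiableOn_gradF (hK : IsKahler E M) (hf : ContMDiff 𝓘(ℝ, E) 𝓘(ℝ, ℝ) ∞ f)
    (hJ : HessJ E f) (he : e ∈ maximalAtlas 𝓘(ℂ, E) 1 M) :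
    DifferentiableOn ℂ (gradF f e) e.target :=
  differentiableOn_gradG (localKahler_chartG hK he) (contDiffOn_inChart hf he)
    (hessG_of_HessJ hK hf hJ he)

/-- (G1) -/
theorem contDiffOn_gradF (hK : IsKahler E M) (hf : ContMDiff 𝓘(ℝ, E) 𝓘(ℝ, ℝ) ∞ f)
    (hJ : HessJ E f) (he : e ∈ maximalAtlas 𝓘(ℂ, E) 1 M) :
    ContDiffOn ℂ ∞ (gradF f e) e.target := by
  have : CompleteSpace E := FiniteDimensional.complete ℂ E
  exact contDiffOn_of_differentiableOn_complex e.open_target (differentiableOn_gradF hK hf hJ he)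

/-- (G2) -/
theorem killing_gradF (hK : IsKahler E M) (hf : ContMDiff 𝓘(ℝ, E) 𝓘(ℝ, ℝ) ∞ f)
    (hJ : HessJ E f) (he : e ∈ maximalAtlas 𝓘(ℂ, E) 1 M) :
    Killing (chartG e) (gradF f e) e.target :=
  killing_gradG (localKahler_chartG hK he) (contDiffOn_inChart hf he) (hessG_of_HessJ hK hf hJ he)

/-- (G2) -/
theorem Sfun_gradF (hK : IsKahler E M) (hf : ContMDiff 𝓘(ℝ, E) 𝓘(ℝ, ℝ) ∞ f)
    (he : e ∈ maximalAtlas 𝓘(ℂ, E) 1 M) (hz : z ∈ e.target) (hΓ : IsChristoffel e z Γ) (a : E) :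
    Sfun (chartG e) (gradF f e) z a = HessAt e z Γ f a := by
  rw [HessAt_eq hf he hz hΓ]
  exact Sfun_gradG (localKahler_chartG hK he) (contDiffOn_inChart hf he) hz a

/-- (G3) -/
theorem gradF_change (hK : IsKahler E M) (hf : ContMDiff 𝓘(ℝ, E) 𝓘(ℝ, ℝ) ∞ f)
    (he : e ∈ maximalAtlas 𝓘(ℂ, E) 1 M) (he' : e' ∈ maximalAtlas 𝓘(ℂ, E) 1 M) {x : M}
    (hx : x ∈ e.source) (hx' : x ∈ e'.source) :
    gradF f e' (e' x) = fderiv ℝ (fun y => e' (e.symm y)) (e x) (gradF f e (e x)) := by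
  have hL := localKahler_chartG hK he'
  have hL0 := localKahler_chartG hK he
  refine (eq_gradG hL (e'.map_source hx') (fun w => ?_)).symm
  -- the transition maps
  have hd : DifferentiableAt ℝ (e' ∘ e.symm) (e x) :=
    (((transition_complex he he').restrict_scalars ℝ).contDiffAt
      ((e.symm.trans e').open_source.mem_nhds (by simp [hx, hx']))).differentiableAt (by simp)
  have hd' : DifferentiableAt ℝ (e ∘ e'.symm) (e' x) :=
    (((transition_complex he' he).restrict_scalars ℝ).contDiffAt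
      ((e'.symm.trans e).open_source.mem_nhds (by simp [hx, hx']))).differentiableAt (by simp)
  have hpt : (e ∘ e'.symm) (e' x) = e x := by simp [e'.left_inv hx']
  have hpt' : (e' ∘ e.symm) (e x) = e' x := by simp [e.left_inv hx]
  have hid : (e' ∘ e.symm) ∘ (e ∘ e'.symm) =ᶠ[𝓝 (e' x)] id := by
    have hzV : e' x ∈ (e'.symm.trans e).source := by simp [hx, hx']
    filter_upwards [(e'.symm.trans e).open_source.mem_nhds hzV] with y hy
    have h1 : y ∈ e'.target := by simpa using hy.1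
    have h2 : e'.symm y ∈ e.source := by simpa using hy.2
    simp [e.left_inv h2, e'.right_inv h1]
  have hcomp : fderiv ℝ (e' ∘ e.symm) (e x) (fderiv ℝ (e ∘ e'.symm) (e' x) w) = w := by
    have h1 : HasFDerivAt (e' ∘ e.symm) (fderiv ℝ (e' ∘ e.symm) (e x))
        ((e ∘ e'.symm) (e' x)) := by
      rw [hpt]; exact hd.hasFDerivAt
    have h2 := (h1.comp (e' x) hd'.hasFDerivAt).unique
      ((hasFDerivAt_id (e' x)).congr_of_eventuallyEq hid)
    have := congrArg (fun T => T w) h2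
    simpa using this
  have hφ : inChart e f =ᶠ[𝓝 (e x)] inChart e' f ∘ (e' ∘ e.symm) := by
    have hzV : e x ∈ (e.symm.trans e').source := by simp [hx, hx']
    filter_upwards [(e.symm.trans e').open_source.mem_nhds hzV] with y hy
    have h2 : e.symm y ∈ e'.source := by simpa using hy.2
    simp [inChart, e'.left_inv h2]
  have hφd : HasFDerivAt (inChart e' f) (fderiv ℝ (inChart e' f) (e' x))
      ((e' ∘ e.symm) (e x)) := by
    rw [hpt']
    exact (((contDiffOn_inChart hf he').contDiffAt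
      (e'.open_target.mem_nhds (e'.map_source hx'))).differentiableAt (by simp)).hasFDerivAt
  have hφ2 : fderiv ℝ (inChart e f) (e x)
      = (fderiv ℝ (inChart e' f) (e' x)).comp (fderiv ℝ (e' ∘ e.symm) (e x)) := by
    exact ((hφd.comp (e x) hd.hasFDerivAt).congr_of_eventuallyEq hφ).fderiv
  have hG := chartG_change he he' hx hx'
    (gradG (chartG e) (inChart e f) (e x)) (fderiv ℝ (e ∘ e'.symm) (e' x) w)
  rw [hcomp, gradG_apply hL0 (e.map_source hx), hφ2] at hG
  refine hG.trans ?_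
  change fderiv ℝ (inChart e' f) (e' x) (fderiv ℝ (e' ∘ e.symm) (e x)
    (fderiv ℝ (e ∘ e'.symm) (e' x) w)) = _
  rw [hcomp]

-- gradient Kaehler-Ricci solitons

theorem Rc_I_right {G : E → E →L[ℝ] E →L[ℝ] ℝ} {U : Set E} (h : LocalKahler G U) (hz : z ∈ U)
    (X a : E) : Rc G z X (I • a) = Rc G z X a := by
  simp only [Rc]
  rw [h.par z hz, h.herm z hz, h.fderiv2_herm hz, h.fderiv2_herm hz]

/-- existence of an orthonormal basis -/
theorem exists_orthonormalAt (he : e ∈ maximalAtlas 𝓘(ℂ, E) 1 M) (hz : z ∈ e.target) :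
    ∃ b : Fin (finrank ℝ E) → E, IsOrthonormalAt e z b := by
  have hfd : FiniteDimensional ℝ E := FiniteDimensional.complexToReal E
  have hfd' : FiniteDimensional ℝ (TangentSpace 𝓘(ℝ, E) (e.symm z)) := hfd
  have her := mem_maximalAtlas_real he
  let b0 := stdOrthonormalBasis ℝ (TangentSpace 𝓘(ℝ, E) (e.symm z))
  have hinj : Function.Injective (dsymm e z) := mfderiv_symm_injective her hz
  have hsurj : Function.Surjective (dsymm e z) :=
    (LinearMap.injective_iff_surjective (f := (dsymm e z : E →ₗ[ℝ] E))).1 hinj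
  choose g hg using hsurj
  have key : ∀ v w : E, chartMetric e z (g v) (g w) = innerAt (e.symm z) v w := by
    intro v w
    have h1 : chartMetric e z (g v) (g w)
        = innerAt (e.symm z) (dsymm e z (g v)) (dsymm e z (g w)) := rfl
    rw [h1, hg, hg]
  refine ⟨fun i => g (b0 i), fun i j => (key _ _).trans ?_⟩
  exact orthonormal_iff_ite.1 b0.orthonormal i j

theorem IsOrthonormalAt.smul_I (hK : IsKahler E M) (he : e ∈ maximalAtlas 𝓘(ℂ, E) 1 M)
    (hz : z ∈ e.target) {b : Fin (finrank ℝ E) → E} (hb : IsOrthonormalAt e z b) :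
    IsOrthonormalAt e z (fun i => I • b i) := fun i j => by
  rw [(hK e he z hz).1, hb]

/-- for a soliton the sum of the sectional curvatures is the sum of bisectional curvatures -/
theorem IsGradSoliton.ricNum_eq (hK : IsKahler E M) (hs : IsGradSoliton E f lam)
    (he : e ∈ maximalAtlas 𝓘(ℂ, E) 1 M) (hz : z ∈ e.target) (hΓ : IsChristoffel e z Γ)
    {b : Fin (finrank ℝ E) → E} (hb : IsOrthonormalAt e z b) (a : E) :
    ricNum e z Γ b a = ∑ i, Rc (chartG e) z (b i) a := by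
  have her := mem_maximalAtlas_real he
  have hL := localKahler_chartG hK he
  have h1 := hs.eq e he z hz Γ hΓ b hb a
  have h2 := hs.eq e he z hz Γ hΓ _ (hb.smul_I hK he hz) a
  have h3 : ricNum e z Γ b a + ricNum e z Γ (fun i => I • b i) a
      = 2 * ∑ i, Rc (chartG e) z (b i) a := by
    rw [ricNum, ricNum, ← Finset.sum_add_distrib, Finset.mul_sum]
    refine Finset.sum_congr rfl fun i _ => ?_
    rw [sectNum_eq her hz hΓ, sectNum_eq her hz hΓ, hL.secG_add hz]
  linarith only [h1, h2, h3]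

/-- (G4) the Hessian of the potential of a gradient Kaehler-Ricci soliton is J-invariant -/
theorem IsGradSoliton.hessJ (hK : IsKahler E M) (hs : IsGradSoliton E f lam) : HessJ E f := by
  intro e he z hz Γ hΓ a
  have hL := localKahler_chartG hK he
  obtain ⟨b, hb⟩ := exists_orthonormalAt (e := e) he hz
  have h1 := hs.eq e he z hz Γ hΓ b hb a
  have h2 := hs.eq e he z hz Γ hΓ b hb (I • a)
  rw [hs.ricNum_eq hK he hz hΓ hb] at h1 h2
  rw [(hK e he z hz).1] at h2
  simp only [Rc_I_right hL hz] at h2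
  linarith only [h1, h2]

theorem HessJ.neg (hJ : HessJ E f) : HessJ E (fun x => -f x) := by
  intro e he z hz Γ hΓ a
  rw [HessAt_neg, HessAt_neg, hJ e he z hz Γ hΓ]

theorem contMDiff_neg_fun (hf : ContMDiff 𝓘(ℝ, E) 𝓘(ℝ, ℝ) ∞ f) :
    ContMDiff 𝓘(ℝ, E) 𝓘(ℝ, ℝ) ∞ (fun x => -f x) :=
  (contDiff_neg (𝕜 := ℝ) (F := ℝ) (n := ∞)).contMDiff.comp hf

/-- (G4) lower bound for the Hessian of `-f` -/
theorem IsGradSoliton.hess_ge (hK : IsKahler E M) (hs : IsGradSoliton E f lam)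
    (he : e ∈ maximalAtlas 𝓘(ℂ, E) 1 M) (hz : z ∈ e.target)
    (hnn : NonnegBisectionalAt E (e.symm z)) (hΓ : IsChristoffel e z Γ) (a : E) :
    -lam * chartG e z a a ≤ HessAt e z Γ (fun x => -f x) a := by
  obtain ⟨b, hb⟩ := exists_orthonormalAt (e := e) he hz
  have h1 := hs.eq e he z hz Γ hΓ b hb a
  rw [hs.ricNum_eq hK he hz hΓ hb] at h1
  have h2 : 0 ≤ ∑ i, Rc (chartG e) z (b i) a :=
    Finset.sum_nonneg fun i _ => Rc_nonneg_chartG hK he hz hnn _ _
  rw [HessAt_neg, chartG_apply]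
  linarith only [h1, h2]

/-- a positive continuous function, homogeneous of degree two, dominates a quadratic form -/
theorem exists_const {q : E → ℝ} (hq : Continuous q) (hh : ∀ (t : ℝ) a, q (t • a) = t ^ 2 * q a)
    (hpos : ∀ a, a ≠ 0 → 0 < q a) (B : E →L[ℝ] E →L[ℝ] ℝ) :
    ∃ c > 0, ∀ a, c * B a a ≤ q a := by
  have : ProperSpace E := FiniteDimensional.proper ℂ E
  rcases subsingleton_or_nontrivial E with hE | hE
  · refine ⟨1, one_pos, fun a => ?_⟩
    rw [Subsingleton.elim a 0]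
    have := hh 0 0
    simp at this
    simp [this]
  · obtain ⟨a0, ha0, hmin⟩ := (isCompact_sphere (0 : E) 1).exists_isMinOn
      (NormedSpace.sphere_nonempty.2 zero_le_one) hq.continuousOn
    have ha0' : a0 ≠ 0 := by
      intro h
      rw [h] at ha0
      simp at ha0
    have hm := hpos a0 ha0'
    set C := ‖B‖ + 1 with hC
    have hC0 : 0 < C := by positivity
    refine ⟨q a0 / C, by positivity, fun a => ?_⟩
    rcases eq_or_ne a 0 with rfl | ha
    · have := hh 0 0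
      simp at this
      simp [this]
    have hn : 0 < ‖a‖ := norm_pos_iff.2 ha
    have h1 : q a0 ≤ q ((‖a‖⁻¹ : ℝ) • a) := by
      apply hmin
      rw [mem_sphere_zero_iff_norm, norm_smul, norm_inv, norm_norm, inv_mul_cancel₀ hn.ne']
    rw [hh] at h1
    have h2 : q a0 * ‖a‖ ^ 2 ≤ q a := by
      have := mul_le_mul_of_nonneg_right h1 (sq_nonneg ‖a‖)
      refine this.trans (le_of_eq ?_)
      field_simp
    have h3 : B a a ≤ C * ‖a‖ ^ 2 := by
      have h4 := (le_abs_self (B a a)).trans (B.le_opNorm₂ a a)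
      nlinarith [h4, sq_nonneg ‖a‖]
    calc q a0 / C * B a a ≤ q a0 / C * (C * ‖a‖ ^ 2) :=
          mul_le_mul_of_nonneg_left h3 (by positivity)
      _ = q a0 * ‖a‖ ^ 2 := by field_simp
      _ ≤ q a := h2

theorem continuous_hessG (G : E → E →L[ℝ] E →L[ℝ] ℝ) (φ : E → ℝ) (z : E) :
    Continuous (fun a => hessG G φ z a a) := by
  simp only [hessG]
  fun_prop

theorem hessG_smul (G : E → E →L[ℝ] E →L[ℝ] ℝ) (φ : E → ℝ) (z : E) (t : ℝ) (a : E) :
    hessG G φ z (t • a) (t • a) = t ^ 2 * hessG G φ z a a := by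
  simp only [hessG, map_smul, smul_apply, smul_eq_mul]
  ring

/-- a positive definite Hessian at a point has a positive lower bound -/
theorem exists_lower_of_pos (hf : ContMDiff 𝓘(ℝ, E) 𝓘(ℝ, ℝ) ∞ f)
    (he : e ∈ maximalAtlas 𝓘(ℂ, E) 1 M) (hz : z ∈ e.target) (hΓ : IsChristoffel e z Γ)
    (hpos : ∀ a, a ≠ 0 → 0 < HessAt e z Γ f a) :
    ∃ c > 0, ∀ a, c * chartG e z a a ≤ HessAt e z Γ f a := by
  obtain ⟨c, hc, h⟩ := exists_const (continuous_hessG (chartG e) (inChart e f) z)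
    (hessG_smul (chartG e) (inChart e f) z)
    (fun a ha => by rw [← HessAt_eq hf he hz hΓ]; exact hpos a ha) (chartG e z)
  exact ⟨c, hc, fun a => by rw [HessAt_eq hf he hz hΓ]; exact h a⟩

/-- (G4) `Rc > lam g` at one point: the Hessian of `-f` is positive there -/
theorem IsGradSoliton.hess_pos (hs : IsGradSoliton E f lam) {x₀ : M}
    (hx : RicciGTAt E lam x₀) (he : e ∈ maximalAtlas 𝓘(ℂ, E) 1 M) (hxe : x₀ ∈ e.source)
    (hΓ : IsChristoffel e (e x₀) Γ) :
    ∃ c > 0, ∀ a, c * chartG e (e x₀) a a ≤ HessAt e (e x₀) Γ (fun x => -f x) a := by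
  have hz := e.map_source hxe
  refine exists_lower_of_pos (contMDiff_neg_fun hs.smooth) he hz hΓ fun a ha => ?_
  obtain ⟨b, hb⟩ := exists_orthonormalAt (e := e) he hz
  have h1 := hs.eq e he _ hz Γ hΓ b hb a
  have h2 := hx e he hxe Γ hΓ b hb a ha
  rw [HessAt_neg]
  linarith only [h1, h2]

/-- (G4) `Rc < lam g` at one point: the Hessian of `f` is positive there -/
theorem IsGradSoliton.hess_pos' (hs : IsGradSoliton E f lam) {x₀ : M}
    (hx : RicciLTAt E lam x₀) (he : e ∈ maximalAtlas 𝓘(ℂ, E) 1 M) (hxe : x₀ ∈ e.source)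
    (hΓ : IsChristoffel e (e x₀) Γ) :
    ∃ c > 0, ∀ a, c * chartG e (e x₀) a a ≤ HessAt e (e x₀) Γ f a := by
  have hz := e.map_source hxe
  refine exists_lower_of_pos hs.smooth he hz hΓ fun a ha => ?_
  obtain ⟨b, hb⟩ := exists_orthonormalAt (e := e) he hz
  have h1 := hs.eq e he _ hz Γ hΓ b hb a
  have h2 := hx e he hxe Γ hΓ b hb a ha
  linarith only [h1, h2]

end Vale.Agent.P253.H348
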