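import Vale.Agent.P253.H22.Zero
import Vale.Agent.P253.H348.Sol

/-!
P253: at a zero with positive weights the covariant derivative is positive definite.
-/

open scoped Manifold ContDiff Topology Bundle
open Set Metric Complex Filter Bundle IsManifold Manifold Module
  Vale.Agent.P253.Mfd Vale.Agent.P253.H577 Vale.Agent.P253.H22

set_option maxSynthPendingDepth 3
set_option linter.unusedSectionVars false

noncomputable section

namespace Vale.Agent.P253.H348

variable {E : Type*} [NormedAddCommGroup E] [NormedSpace ℂ E] [FiniteDimensional ℂ E]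

/-- a symmetric complex endomorphism, diagonal with positive eigenvalues, is positive definite -/
theorem pos_of_eigen {B : E →L[ℝ] E →L[ℝ] ℝ} {D : E →L[ℂ] E} (hpos : ∀ v, v ≠ 0 → 0 < B v v)
    (hsymm : ∀ v w, B v w = B w v) (hD : ∀ v w, B (D v) w = B (D w) v)
    {ι : Type*} [Fintype ι] (b : Basis ι ℂ E) {m : ι → ℝ} (hb : ∀ j, D (b j) = m j • b j)
    (hm : ∀ j, 0 < m j) (a : E) (ha : a ≠ 0) : 0 < B (D a) a := by
  have : ProperSpace E := FiniteDimensional.proper ℂ E
  have : Nontrivial E := ⟨a, 0, ha⟩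
  have hne : (sphere (0 : E) 1).Nonempty := NormedSpace.sphere_nonempty.2 zero_le_one
  have hqc : Continuous (fun v : E => B (D v) v) := by fun_prop
  have hBc : Continuous (fun v : E => B v v) := by fun_prop
  have hsph : ∀ v ∈ sphere (0 : E) 1, v ≠ 0 := by
    intro v hv h0
    rw [h0] at hv
    simp at hv
  obtain ⟨a0, ha0, hmin⟩ := (isCompact_sphere (0 : E) 1).exists_isMinOn hne
    (f := fun v => B (D v) v / B v v)
    (hqc.continuousOn.div hBc.continuousOn fun v hv => (hpos v (hsph v hv)).ne')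
  have ha0' := hsph a0 ha0
  set μ : ℝ := B (D a0) a0 / B a0 a0 with hμ
  have hμa : B (D a0) a0 = μ * B a0 a0 := by
    rw [hμ, div_mul_cancel₀ _ (hpos a0 ha0').ne']
  have hge : ∀ v : E, μ * B v v ≤ B (D v) v := by
    intro v
    rcases eq_or_ne v 0 with rfl | hv
    · simp
    have hn : 0 < ‖v‖ := norm_pos_iff.2 hv
    have h1 : μ ≤ B (D ((‖v‖⁻¹ : ℝ) • v)) ((‖v‖⁻¹ : ℝ) • v) /
        B ((‖v‖⁻¹ : ℝ) • v) ((‖v‖⁻¹ : ℝ) • v) := by
      apply hmin
      rw [mem_sphere_zero_iff_norm, norm_smul, norm_inv, norm_norm, inv_mul_cancel₀ hn.ne']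
    have h2 : D ((‖v‖⁻¹ : ℝ) • v) = (‖v‖⁻¹ : ℝ) • D v := (D.restrictScalars ℝ).map_smul _ _
    rw [h2] at h1
    simp only [map_smul, smul_apply, smul_eq_mul] at h1
    have h3 : ‖v‖⁻¹ * (‖v‖⁻¹ * B (D v) v) / (‖v‖⁻¹ * (‖v‖⁻¹ * B v v)) = B (D v) v / B v v := by
      have := hpos v hv
      field_simp
    rw [h3, le_div_iff₀ (hpos v hv)] at h1
    exact h1
  -- the minimum is an eigenvalue
  have hker : ∀ w, B (D a0) w - μ * B a0 w = 0 := by
    intro w
    have h1 : ∀ t : ℝ, 0 ≤ 2 * t * (B (D a0) w - μ * B a0 w)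
        + t ^ 2 * (B (D w) w - μ * B w w) := by
      intro t
      have h2 := hge (a0 + t • w)
      have h3 : D (a0 + t • w) = D a0 + t • D w := by
        have := (D.restrictScalars ℝ).map_add a0 (t • w)
        have h4 := (D.restrictScalars ℝ).map_smul t w
        exact this.trans (by rw [h4]; rfl)
      rw [h3] at h2
      simp only [map_add, map_smul, add_apply, smul_apply, smul_eq_mul] at h2
      have h4 := hD w a0
      have h5 := hsymm w a0
      rw [h4, h5] at h2
      nlinarith only [h2, hμa]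
    set x := B (D a0) w - μ * B a0 w with hx
    set y := B (D w) w - μ * B w w with hy
    have hy0 : 0 ≤ y := by linarith [hge w]
    by_contra hne0
    have h2 := h1 (-x / (y + 1))
    have hy1 : 0 < y + 1 := by linarith
    have h3 : 2 * (-x / (y + 1)) * x + (-x / (y + 1)) ^ 2 * y
        = -(x ^ 2 * (y + 2)) / (y + 1) ^ 2 := by
      field_simp
      ring
    rw [h3] at h2
    have h4 : 0 < x ^ 2 * (y + 2) / (y + 1) ^ 2 := by positivity
    rw [neg_div] at h2
    linarith
  have heig : D a0 = μ • a0 := by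
    by_contra hne0
    have h1 := hpos (D a0 - μ • a0) (sub_ne_zero.2 hne0)
    have h2 := hker (D a0 - μ • a0)
    rw [map_sub B, map_smul B, sub_apply, smul_apply, smul_eq_mul, h2] at h1
    exact lt_irrefl _ h1
  have hcoord : ∀ (v : E) (j : ι), b.repr (D v) j = (m j : ℂ) * b.repr v j := by
    intro v j
    have h1 : D v = ∑ i, b.repr v i • D (b i) := by
      conv_lhs => rw [← b.sum_repr v, map_sum]
      simp only [map_smul]
    have h2 : ∀ i, D (b i) = (m i : ℂ) • b i := fun i => hb i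
    rw [h1]
    simp only [h2, map_sum, map_smul, Finsupp.coe_finsetSum, Finset.sum_apply,
      Finsupp.smul_apply, Basis.repr_self, smul_eq_mul]
    rw [Finset.sum_eq_single j]
    · simp; ring
    · intro i _ hij
      rw [Finsupp.single_eq_of_ne (by exact fun h => hij h.symm)]
      ring
    · intro h
      exact absurd (Finset.mem_univ j) h
  have hex : ∃ j, b.repr a0 j ≠ 0 := by
    by_contra hcon
    push Not at hcon
    apply ha0'
    apply b.repr.injective
    ext j
    rw [hcon j]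
    simp
  obtain ⟨j, hj⟩ := hex
  have h1 := hcoord a0 j
  have h2 : D a0 = (μ : ℂ) • a0 := heig
  rw [h2, map_smul, Finsupp.smul_apply, smul_eq_mul] at h1
  have h3 := mul_right_cancel₀ hj h1
  have h4 : μ = m j := by exact_mod_cast h3
  have h5 : 0 < μ := h4 ▸ hm j
  exact (mul_pos h5 (hpos a ha)).trans_le (hge a)

variable {M : Type*} [MetricSpace M] [ChartedSpace E M]
  [IsManifold 𝓘(ℂ, E) 1 M] [IsManifold 𝓘(ℝ, E) ∞ M]
  [RiemannianBundle (fun x : M => TangentSpace 𝓘(ℝ, E) x)]
  [IsContMDiffRiemannianBundle 𝓘(ℝ, E) ∞ E (fun x : M => TangentSpace 𝓘(ℝ, E) x)]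
  {ρ : ℝ → M → M} {e e' : OpenPartialHomeomorph M E} {p : M} {lam : ℝ}

theorem botGE_of_chart (hρ : IsHolIsomFlow E ρ) (he : e ∈ maximalAtlas 𝓘(ℂ, E) 1 M) {x : M}
    (hx : x ∈ e.source)
    (hc : ∀ a, lam * chartG e (e x) a a ≤ Sfun (chartG e) (vF ρ e) (e x) a) :
    BotGE (E := E) ρ lam x := by
  rw [← topLE_rev]
  refine TopLE.of_chart hρ.rev he hx fun a => ?_
  rw [Sfun_rev]
  linarith only [hc a]

/-- the linear part of the generator at a fixed point with weights -/
theorem fderiv_vF_weights (hρ : IsHolIsomFlow E ρ)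
    {b : Basis (Fin (finrank ℂ E)) ℂ E} {m : Fin (finrank ℂ E) → ℝ} (hw : HasWeights ρ p b m)
    (j : Fin (finrank ℂ E)) :
    fderiv ℝ (vF ρ (chartAt E p)) (chartAt E p p) (b j) = m j • b j := by
  obtain ⟨hfix, hm, hw⟩ := hw
  have he : chartAt E p ∈ maximalAtlas 𝓘(ℂ, E) 1 M := chart_mem_maximalAtlas p
  have hp : p ∈ (chartAt E p).source := mem_chart_source E p
  have h1 := hasDerivAt_TF hρ he hp hfix 0 (b j)
  rw [TF_zero hρ he hp hfix] at h1
  have h2 : (fun s : ℝ => TF ρ (chartAt E p) (chartAt E p p) s (b j))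
      = fun s : ℝ => exp (s * m j * I) • b j := by
    funext s
    rw [← mfderiv_eq_TF hρ hfix]
    exact hw s j
  rw [h2] at h1
  have h3 : HasDerivAt (fun s : ℝ => exp (s * m j * I) • b j) ((m j * I : ℂ) • b j) 0 := by
    have h4 : HasDerivAt (fun s : ℝ => ((s:ℂ) * m j * I)) (1 * m j * I) (0:ℝ) :=
      ((hasDerivAt_id (0:ℝ)).ofReal_comp.mul_const (m j : ℂ)).mul_const I
    have h5 := h4.cexp.smul_const (b j)
    simpa using h5
  have h4 := h1.unique h3
  have h5 := fderiv_vF hρ he ((chartAt E p).map_source hp) (b j)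
  rw [h5, h4, smul_smul, ← neg_smul]
  have h6 : -(I * (m j * I : ℂ)) = (m j : ℂ) := by
    have : I * (m j * I : ℂ) = m j * (I * I) := by ring
    rw [this, I_mul_I]
    ring
  rw [h6]
  rfl

/-- **converse**: at a fixed point with positive weights the form is positive definite -/
theorem exists_botGE_of_hasWeights (hK : IsKahler E M) (hρ : IsHolIsomFlow E ρ)
    {b : Basis (Fin (finrank ℂ E)) ℂ E} {m : Fin (finrank ℂ E) → ℝ} (hw : HasWeights ρ p b m) :
    ∃ c > 0, BotGE (E := E) ρ c p := by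
  have he : chartAt E p ∈ maximalAtlas 𝓘(ℂ, E) 1 M := chart_mem_maximalAtlas p
  have hp : p ∈ (chartAt E p).source := mem_chart_source E p
  have hder := fderiv_vF_weights hρ hw
  obtain ⟨hfix, hm, hw'⟩ := hw
  set e := chartAt E p with hedef
  have hz : e p ∈ e.target := e.map_source hp
  have hL := localKahler_chartG hK he
  have hx0 : xF ρ e (e p) = 0 := by
    have h1 : (fun t : ℝ => e (ρ t (e.symm (e p)))) = fun _ => e p := by
      funext t
      rw [e.left_inv hp, hfix]
    rw [xF, h1, deriv_const]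
  have hv0 : vF ρ e (e p) = 0 := by rw [vF, hx0, smul_zero, neg_zero]
  have hvd := differentiableOn_vF hρ he
  have hvc : DifferentiableAt ℂ (vF ρ e) (e p) :=
    (hvd _ hz).differentiableAt (e.open_target.mem_nhds hz)
  set D := fderiv ℂ (vF ρ e) (e p) with hD
  have hDr : fderiv ℝ (vF ρ e) (e p) = D.restrictScalars ℝ :=
    (hvc.hasFDerivAt.restrictScalars ℝ).fderiv
  have hDa : ∀ a, fderiv ℝ (vF ρ e) (e p) a = D a := fun a => by rw [hDr]; rfl
  have hsymm : ∀ v w, chartG e (e p) (D v) w = chartG e (e p) (D w) v := by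
    intro v w
    have h1 := Nop_symm hL hvd (killing_vF hρ he) hz v w
    simp only [Nop, hv0, map_zero, zero_apply, add_zero, hDa] at h1
    exact h1
  have hS : ∀ a, Sfun (chartG e) (vF ρ e) (e p) a = chartG e (e p) (D a) a := by
    intro a
    rw [Sfun, hv0, map_zero, hDa]
    simp
  have hpos : ∀ a, a ≠ 0 → 0 < chartG e (e p) (D a) a :=
    pos_of_eigen (hL.pos _ hz) (hL.symm _ hz) hsymm b (fun j => by rw [← hDa]; exact hder j) hm
  obtain ⟨c, hc, hcc⟩ := exists_const (q := fun a => chartG e (e p) (D a) a) (by fun_prop)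
    (fun t a => by
      have h2 : D (t • a) = t • D a := (D.restrictScalars ℝ).map_smul t a
      rw [h2]
      simp only [map_smul, smul_apply, smul_eq_mul]
      ring) hpos (chartG e (e p))
  exact ⟨c, hc, botGE_of_chart hρ he hp fun a => by rw [hS]; exact hcc a⟩

end Vale.Agent.P253.H348
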