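import Vale.Agent.P253.H577.Grad

/-!
P253: dimension count for a commuting family of self-adjoint operators, relative to the kernel of
one of them.
-/

open scoped ContDiff Topology
open Set Metric Complex Filter Vale.Agent.P253.Mfd Module Vale.Agent.P253.H577

set_option maxSynthPendingDepth 3
set_option linter.unusedSectionVars false

noncomputable section

namespace Vale.Agent.P253.H348

variable {E : Type*} [NormedAddCommGroup E] [NormedSpace ℂ E] [FiniteDimensional ℂ E]
  {V : Type*} [NormedAddCommGroup V] [NormedSpace ℝ V]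
  {G : E → E →L[ℝ] E →L[ℝ] ℝ} {U : Set E} {z : E} {L : E → V →L[ℝ] E}

theorem finrank_ker_le_rel {K : Type*} [AddCommGroup K]
    [Module ℝ K] [FiniteDimensional ℝ K] (T : K → Module.End ℂ E)
    (hadd : ∀ κ κ' x, T (κ + κ') x = T κ x + T κ' x) (hsmul : ∀ (s : ℝ) κ x, T (s • κ) x = s • T κ x)
    (k₀ : K) (KC : Submodule ℝ K) (hrig : ∀ κ, (∀ x, T k₀ x = 0 → T κ x = 0) → κ ∈ KC)
    (W : Submodule ℂ E) (hW : ∀ x ∈ W, ∀ κ, T κ x = 0)
    {n : ℕ} (b : Basis (Fin n) ℂ E) (r : Fin n → K → ℝ) (hr : ∀ j i, T i (b j) = r j i • b j) :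
    finrank ℂ W + finrank ℝ K ≤ finrank ℂ (LinearMap.ker (T k₀)) + finrank ℝ KC := by
  classical
  have hcoef : ∀ κ x, T κ x = 0 → ∀ j, r j κ ≠ 0 → b.coord j x = 0 := by
    intro κ x h4 j hκ
    have h5 : T κ x = ∑ i, b.coord i x • (r i κ • b i) := by
      conv_lhs => rw [← b.sum_repr x, map_sum]
      refine Finset.sum_congr rfl fun i _ => ?_
      rw [map_smul, hr]
      rfl
    rw [h5] at h4
    have h6 := congrArg (b.coord j) h4
    rw [map_sum, map_zero, Finset.sum_eq_single j] at h6
    · rw [map_smul] at h6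
      have h7 : b.coord j (r j κ • b j) = r j κ := by
        have : r j κ • b j = ((r j κ : ℂ)) • b j := rfl
        rw [this, map_smul]
        simp
      rw [h7, smul_eq_mul] at h6
      rcases mul_eq_zero.1 h6 with h8 | h8
      · exact h8
      · exact absurd (by exact_mod_cast h8) hκ
    · intro i _ hij
      rw [map_smul]
      have : r i κ • b i = ((r i κ : ℂ)) • b i := rfl
      rw [this, map_smul]
      simp [hij]
    · simp
  set J : Finset (Fin n) := Finset.univ.filter (fun j => ∀ κ, r j κ = 0) with hJ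
  set J₀ : Finset (Fin n) := Finset.univ.filter (fun j => r j k₀ = 0) with hJ₀
  set J' : Finset (Fin n) := J₀ \ J with hJ'
  have hsub : J ⊆ J₀ := by
    intro j hj
    rw [hJ, Finset.mem_filter] at hj
    rw [hJ₀, Finset.mem_filter]
    exact ⟨hj.1, hj.2 k₀⟩
  have hcard : J.card + J'.card = J₀.card := by
    rw [hJ', Finset.card_sdiff_of_subset hsub]
    have := Finset.card_le_card hsub
    omega
  -- `W` injects into the functions on `J`
  have h1 : finrank ℂ W ≤ J.card := by
    let f : W →ₗ[ℂ] (J → ℂ) :=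
      (LinearMap.pi fun j : J => (b.coord (j : Fin n))).comp W.subtype
    have hf : Function.Injective f := by
      rw [injective_iff_map_eq_zero]
      intro x hx
      have h2 : ∀ j, b.coord j (x : E) = 0 := by
        intro j
        by_cases hj : j ∈ J
        · exact congrFun hx ⟨j, hj⟩
        · have h3 : ∃ κ, r j κ ≠ 0 := by
            by_contra hcon
            push Not at hcon
            exact hj (by rw [hJ]; simpa using hcon)
          obtain ⟨κ, hκ⟩ := h3
          exact hcoef κ x (hW x x.2 κ) j hκ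
      have h3 : (x : E) = 0 := by
        apply b.ext_elem
        intro j
        rw [map_zero]
        exact h2 j
      exact Subtype.ext h3
    have h2 := LinearMap.finrank_le_finrank_of_injective hf
    simpa using h2
  have h2 : finrank ℝ K ≤ J'.card + finrank ℝ KC := by
    have hrl : ∀ j, ∀ κ κ', r j (κ + κ') = r j κ + r j κ' := by
      intro j κ κ'
      have h3 := hadd κ κ' (b j)
      rw [hr, hr, hr, ← add_smul] at h3
      exact smul_left_injective ℝ (b.ne_zero j) h3
    have hrs : ∀ j, ∀ (s : ℝ) κ, r j (s • κ) = s * r j κ := by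
      intro j s κ
      have h3 := hsmul s κ (b j)
      rw [hr, hr, smul_smul] at h3
      exact smul_left_injective ℝ (b.ne_zero j) h3
    let f : K →ₗ[ℝ] (J' → ℝ) :=
      { toFun := fun κ j => r j κ
        map_add' := fun κ κ' => by funext j; exact hrl j κ κ'
        map_smul' := fun s κ => by funext j; exact hrs j s κ }
    have hker : LinearMap.ker f ≤ KC := by
      intro κ hκ
      apply hrig
      have h3 : ∀ j, r j k₀ = 0 → r j κ = 0 := by
        intro j hj
        by_cases hjJ : j ∈ J
        · rw [hJ, Finset.mem_filter] at hjJ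
          exact hjJ.2 κ
        · have hj' : j ∈ J' := by
            rw [hJ', Finset.mem_sdiff, hJ₀, Finset.mem_filter]
            exact ⟨⟨Finset.mem_univ j, hj⟩, hjJ⟩
          exact congrFun (LinearMap.mem_ker.1 hκ) ⟨j, hj'⟩
      intro x hx
      have h5 : T κ x = ∑ i, b.coord i x • (r i κ • b i) := by
        conv_lhs => rw [← b.sum_repr x, map_sum]
        refine Finset.sum_congr rfl fun i _ => ?_
        rw [map_smul, hr]
        rfl
      rw [h5]
      refine Finset.sum_eq_zero fun i _ => ?_
      by_cases hi : r i k₀ = 0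
      · rw [h3 i hi, zero_smul, smul_zero]
      · rw [hcoef k₀ x hx i hi, zero_smul]
    have h3 := LinearMap.finrank_range_add_finrank_ker f
    have h4 := Submodule.finrank_mono hker
    have h5 : finrank ℝ (LinearMap.range f) ≤ J'.card := by
      have h6 := Submodule.finrank_le (LinearMap.range f)
      simpa using h6
    omega
  have h3 : J₀.card ≤ finrank ℂ (LinearMap.ker (T k₀)) := by
    let v : J₀ → LinearMap.ker (T k₀) := fun j => ⟨b j, by
      rw [LinearMap.mem_ker, hr]
      have h4 := (Finset.mem_filter.1 j.2).2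
      rw [h4, zero_smul]⟩
    have hli : LinearIndependent ℂ v := by
      have h4 : LinearIndependent ℂ (fun j : J₀ => b (j : Fin n)) :=
        b.linearIndependent.comp _ Subtype.val_injective
      exact LinearIndependent.of_comp (LinearMap.ker (T k₀)).subtype h4
    have h4 := hli.fintype_card_le_finrank
    simpa using h4
  omega

/-- a real submodule generates a complex one of at most the same dimension -/
theorem finrank_span_le [FiniteDimensional ℝ V] (f : V →L[ℝ] E) :
    finrank ℂ (Submodule.span ℂ (range f)) + finrank ℝ (LinearMap.ker (f : V →ₗ[ℝ] E)) ≤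
      finrank ℝ V := by
  have hfd : FiniteDimensional ℝ E := FiniteDimensional.complexToReal E
  have h1 := LinearMap.finrank_range_add_finrank_ker (f : V →ₗ[ℝ] E)
  set S := LinearMap.range (f : V →ₗ[ℝ] E) with hS
  let b := finBasis ℝ S
  have h2 : Submodule.span ℂ (range f) ≤ Submodule.span ℂ (range fun i => ((b i : S) : E)) := by
    rw [Submodule.span_le]
    rintro _ ⟨v, rfl⟩
    have h3 : f v ∈ S := ⟨v, rfl⟩
    have h4 := congrArg (fun u : S => (u : E)) (b.sum_repr ⟨f v, h3⟩)
    simp only [Submodule.coe_sum, Submodule.coe_smul] at h4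
    change f v ∈ Submodule.span ℂ (range fun i => ((b i : S) : E))
    rw [← h4]
    refine Submodule.sum_mem _ fun i _ => ?_
    have h5 : (b.repr ⟨f v, h3⟩ i) • ((b i : S) : E) =
        ((b.repr ⟨f v, h3⟩ i : ℝ) : ℂ) • ((b i : S) : E) := rfl
    rw [h5]
    exact Submodule.smul_mem _ _ (Submodule.subset_span ⟨i, rfl⟩)
  have h3 := Submodule.finrank_mono h2
  have h4 := finrank_range_le_card (R := ℂ) (fun i => ((b i : S) : E))
  rw [Fintype.card_fin] at h4
  have h5 : finrank ℂ (Submodule.span ℂ (range fun i => ((b i : S) : E))) ≤ finrank ℝ S := h4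
  omega

namespace CommFamRel

variable (h : LocalKahler G U) (hL : CommFam G L U) (hz : z ∈ U)

include h hL hz

/-- if the complexity is zero, the gradient of the length of a field is a field of the family -/
theorem exists_grad [FiniteDimensional ℝ V]
    (hiso : ∀ ξ η, G z (L z ξ) (I • L z η) = 0)
    (hdim : ∀ W : Submodule ℂ E, (∀ x ∈ W, ∀ κ, L z κ = 0 → linPart L z κ x = 0) →
      finrank ℂ W + finrank ℝ (LinearMap.ker (L z : V →ₗ[ℝ] E)) ≤ finrank ℝ V) (ξ : V) :
    ∃ ζ, Nop G (fun z => L z ξ) z (L z ξ) = L z ζ := by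
  have hfd : FiniteDimensional ℝ E := FiniteDimensional.complexToReal E
  have hg := hermForm_of_local h hz
  set K : Submodule ℝ V := LinearMap.ker (L z : V →ₗ[ℝ] E) with hK
  set R : Submodule ℝ E := LinearMap.range (L z : V →ₗ[ℝ] E) with hR
  have hKm : ∀ κ : K, L z (κ : V) = 0 := fun κ => κ.2
  set W : Submodule ℂ E := ⨅ κ : K, LinearMap.ker (linPart L z κ) with hW
  have hWm : ∀ x, x ∈ W ↔ ∀ κ : K, linPart L z κ x = 0 := by
    intro x; rw [hW, Submodule.mem_iInf]; rfl
  have h1 := hdim W fun x hx κ hκ => (hWm x).1 hx ⟨κ, hκ⟩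
  have h2 : finrank ℝ R ≤ finrank ℂ (Submodule.span ℂ (R : Set E)) := by
    apply finrank_le_span hg
    rintro _ ⟨a, rfl⟩ _ ⟨b, rfl⟩
    exact hiso a b
  have h3 : finrank ℝ R + finrank ℝ K = finrank ℝ V :=
    LinearMap.finrank_range_add_finrank_ker (L z : V →ₗ[ℝ] E)
  have h4 : Submodule.span ℂ (R : Set E) ≤ W := by
    rw [Submodule.span_le]
    rintro _ ⟨b, rfl⟩
    change _ ∈ W
    rw [hWm]
    intro κ
    have h5 := hL.Nop_vanish_field h hz (hKm κ) b
    rw [hL.Nop_vanish h hz (hKm κ)] at h5
    rw [linPart_apply h hL hz]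
    exact h5
  have h5 : Submodule.span ℂ (R : Set E) = W := by
    apply Submodule.eq_of_le_of_finrank_le h4
    omega
  have h6 : Nop G (fun z => L z ξ) z (L z ξ) ∈ Submodule.span ℂ (R : Set E) := by
    rw [h5, hWm]
    intro κ
    rw [linPart_apply h hL hz, ← hL.Nop_vanish h hz (hKm κ)]
    exact hL.Nop_vanish_grad h hz (hKm κ) ξ
  obtain ⟨_, ⟨a, rfl⟩, _, ⟨b, rfl⟩, hab⟩ := mem_span_iff R h6
  refine ⟨a, ?_⟩
  have h7 := hL.grad_orth h hz ξ b
  rw [hab] at h7
  change G z (L z a + I • L z b) (I • L z b) = 0 at h7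
  rw [map_add, add_apply, hiso, zero_add, h.herm z hz] at h7
  have h8 : L z b = 0 := hg.self_eq_zero h7
  rw [hab]
  change L z a + I • L z b = L z a
  rw [h8, smul_zero, add_zero]

end CommFamRel

end Vale.Agent.P253.H348
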