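import Vale.Agent.P253.Bdl.B1

/-!
P253: the gradient of a function with J-invariant Hessian (local part).
-/

open scoped ContDiff Topology
open Set Metric Complex Filter Vale.Agent.P253.Mfd

set_option maxSynthPendingDepth 3
set_option linter.unusedSectionVars false

noncomputable section

namespace Vale.Agent.P253.H348

variable {E : Type*} [NormedAddCommGroup E] [NormedSpace ℂ E] [FiniteDimensional ℂ E]
  {G : E → E →L[ℝ] E →L[ℝ] ℝ} {U : Set E} {z : E} {φ : E → ℝ}

/-- the gradient of `φ` for the metric `G` -/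
def gradG (G : E → E →L[ℝ] E →L[ℝ] ℝ) (φ : E → ℝ) (z : E) : E :=
  ContinuousLinearMap.inverse (G z) (fderiv ℝ φ z)

/-- the Hessian of `φ` for the metric `G` -/
def hessG (G : E → E →L[ℝ] E →L[ℝ] ℝ) (φ : E → ℝ) (z a b : E) : ℝ :=
  fderiv ℝ (fderiv ℝ φ) z a b - fderiv ℝ φ z (chris G z a b)

theorem gradG_apply (h : LocalKahler G U) (hz : z ∈ U) : G z (gradG G φ z) = fderiv ℝ φ z := by
  obtain ⟨T, hT⟩ := isInvertible_of_pos (h.pos z hz)
  rw [gradG, ← hT, ContinuousLinearMap.inverse_equiv]
  exact T.apply_symm_apply _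

theorem eq_gradG (h : LocalKahler G U) (hz : z ∈ U) {v : E} (hv : ∀ w, G z v w = fderiv ℝ φ z w) :
    v = gradG G φ z := by
  by_contra hne
  have h1 := h.pos z hz (v - gradG G φ z) (sub_ne_zero.2 hne)
  rw [map_sub (G z), sub_apply, hv, gradG_apply h hz, sub_self] at h1
  exact lt_irrefl _ h1

theorem contDiffOn_gradG (h : LocalKahler G U) (hφ : ContDiffOn ℝ ∞ φ U) :
    ContDiffOn ℝ ∞ (gradG G φ) U := by
  have : CompleteSpace E := FiniteDimensional.complete ℂ E
  have hinv : ContDiffOn ℝ ∞ (fun z => ContinuousLinearMap.inverse (G z)) U := by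
    intro z hz
    obtain ⟨T, hT⟩ := isInvertible_of_pos (h.pos z hz)
    have h1 : ContDiffAt ℝ ∞ ContinuousLinearMap.inverse (G z) := by
      rw [← hT]; exact contDiffAt_map_inverse T
    exact (h1.comp z (h.smooth.contDiffAt (h.isOpen.mem_nhds hz))).contDiffWithinAt
  exact hinv.clm_apply (hφ.fderiv_of_isOpen h.isOpen (by simp))

/-- the covariant derivative of the gradient is the Hessian -/
theorem Nop_gradG (h : LocalKahler G U) (hφ : ContDiffOn ℝ ∞ φ U) (hz : z ∈ U) (a b : E) :
    G z (Nop G (gradG G φ) z a) b = hessG G φ z a b := by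
  have hd : HasFDerivAt (gradG G φ) (fderiv ℝ (gradG G φ) z) z :=
    (((contDiffOn_gradG h hφ).contDiffAt (h.isOpen.mem_nhds hz)).differentiableAt
      (by simp)).hasFDerivAt
  have hdφ : HasFDerivAt (fderiv ℝ φ) (fderiv ℝ (fderiv ℝ φ) z) z :=
    (((hφ.fderiv_of_isOpen h.isOpen (m := ∞) (by simp)).contDiffAt
      (h.isOpen.mem_nhds hz)).differentiableAt (by simp)).hasFDerivAt
  have h1 := (((h.differentiableAt hz).hasFDerivAt.clm_apply hd).clm_apply
    (hasFDerivAt_const b z))
  have h2 := hdφ.clm_apply (hasFDerivAt_const b z)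
  have h3 : (fun y => G y (gradG G φ y) b) =ᶠ[𝓝 z] (fun y => fderiv ℝ φ y b) := by
    filter_upwards [h.isOpen.mem_nhds hz] with y hy
    rw [gradG_apply h hy]
  have h4 := (h1.congr_of_eventuallyEq h3.symm).unique h2
  have h5 := congrArg (fun T => T a) h4
  simp at h5
  have h6 := h.fderiv_eq hz a (gradG G φ z) b
  rw [gradG_apply h hz] at h6
  rw [Nop, hessG, map_add, add_apply, h.chris_symm hz (gradG G φ z) a]
  linarith only [h5, h6]

theorem hessG_symm (h : LocalKahler G U) (hφ : ContDiffOn ℝ ∞ φ U) (hz : z ∈ U) (a b : E) :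
    hessG G φ z a b = hessG G φ z b a := by
  have hs : IsSymmSndFDerivAt ℝ φ z :=
    (hφ.contDiffAt (h.isOpen.mem_nhds hz)).isSymmSndFDerivAt
      (by simpa using! (WithTop.coe_le_coe.2 le_top :
        ((2 : ℕ∞) : WithTop ℕ∞) ≤ ((⊤ : ℕ∞) : WithTop ℕ∞)))
  rw [hessG, hessG, hs.eq a b, h.chris_symm hz a b]

theorem hessG_add (z a a' b : E) :
    hessG G φ z (a + a') b = hessG G φ z a b + hessG G φ z a' b := by
  simp only [hessG, map_add, add_apply]; ring

theorem hessG_add' (z a b b' : E) :
    hessG G φ z a (b + b') = hessG G φ z a b + hessG G φ z a b' := by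
  simp only [hessG, map_add]; ring

/-- polarisation: a Hessian with J-invariant quadratic form is J-invariant -/
theorem hessG_I (h : LocalKahler G U) (hφ : ContDiffOn ℝ ∞ φ U) (hz : z ∈ U)
    (hJ : ∀ a, hessG G φ z (I • a) (I • a) = hessG G φ z a a) (a b : E) :
    hessG G φ z (I • a) (I • b) = hessG G φ z a b := by
  have h1 := hJ (a + b)
  rw [smul_add, hessG_add, hessG_add', hessG_add', hessG_add, hessG_add', hessG_add', hJ, hJ,
    hessG_symm h hφ hz (I • b) (I • a), hessG_symm h hφ hz b a] at h1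
  linarith only [h1]

/-- a real differentiable map whose derivative commutes with `I` is complex differentiable -/
theorem complex_of_real {F F' : Type*} [NormedAddCommGroup F] [NormedSpace ℂ F]
    [NormedAddCommGroup F'] [NormedSpace ℂ F'] {f : F → F'} {z : F}
    (hf : DifferentiableAt ℝ f z) (hI : ∀ v, fderiv ℝ f z (I • v) = I • fderiv ℝ f z v) :
    DifferentiableAt ℂ f z := by
  set T := fderiv ℝ f z with hT
  have hmap : ∀ (c : ℂ) (v : F), T (c • v) = c • T v := by
    intro c v
    have e1 : c • v = c.re • v + c.im • (I • v) := by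
      conv_lhs => rw [← re_add_im c, add_smul, mul_smul]
      rfl
    have e2 : c • T v = c.re • T v + c.im • (I • T v) := by
      conv_lhs => rw [← re_add_im c, add_smul, mul_smul]
      rfl
    rw [e1, e2, map_add, map_smul, map_smul, hI]
  let L : F →L[ℂ] F' := ⟨⟨⟨T, map_add T⟩, hmap⟩, T.continuous⟩
  have : HasFDerivAt f L z := hasFDerivAt_of_restrictScalars ℝ hf.hasFDerivAt (by ext v; rfl)
  exact this.differentiableAt

/-- the gradient of a function with J-invariant Hessian is holomorphic -/
theorem differentiableOn_gradG (h : LocalKahler G U) (hφ : ContDiffOn ℝ ∞ φ U)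
    (hJ : ∀ z ∈ U, ∀ a, hessG G φ z (I • a) (I • a) = hessG G φ z a a) :
    DifferentiableOn ℂ (gradG G φ) U := by
  intro z hz
  have hd : HasFDerivAt (gradG G φ) (fderiv ℝ (gradG G φ) z) z :=
    (((contDiffOn_gradG h hφ).contDiffAt (h.isOpen.mem_nhds hz)).differentiableAt
      (by simp)).hasFDerivAt
  have hN : ∀ a, Nop G (gradG G φ) z (I • a) = I • Nop G (gradG G φ) z a := by
    intro a
    by_contra hne
    have h1 := h.pos z hz _ (sub_ne_zero.2 hne)
    have h2 : ∀ b, G z (Nop G (gradG G φ) z (I • a) - I • Nop G (gradG G φ) z a) b = 0 := by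
      intro b
      have hb : b = I • (-(I • b)) := by
        rw [smul_neg, smul_smul, I_mul_I, neg_one_smul, neg_neg]
      have h3 := hessG_I h hφ hz (hJ z hz) a (-(I • b))
      rw [← hb, ← Nop_gradG h hφ hz, ← Nop_gradG h hφ hz] at h3
      rw [map_sub (G z), sub_apply, h3]
      have h4 : G z (I • Nop G (gradG G φ) z a) b = G z (Nop G (gradG G φ) z a) (-(I • b)) := by
        conv_lhs => rw [hb]
        exact h.herm z hz _ _
      rw [h4, sub_self]
    rw [h2] at h1
    exact lt_irrefl _ h1
  have hI : ∀ a, fderiv ℝ (gradG G φ) z (I • a) = I • fderiv ℝ (gradG G φ) z a := by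
    intro a
    have h1 := hN a
    rw [Nop, Nop, smul_add, h.par z hz] at h1
    exact add_right_cancel h1
  exact (complex_of_real hd.differentiableAt hI).differentiableWithinAt

/-- I times the gradient is a Killing field -/
theorem killing_gradG (h : LocalKahler G U) (hφ : ContDiffOn ℝ ∞ φ U)
    (hJ : ∀ z ∈ U, ∀ a, hessG G φ z (I • a) (I • a) = hessG G φ z a a) :
    Killing G (gradG G φ) U := by
  intro z hz a
  have h1 := h.fderiv_eq hz (I • gradG G φ z) a a
  have h2 : G z (I • Nop G (gradG G φ) z a) a = 0 := by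
    have h3 : G z (I • Nop G (gradG G φ) z a) a = - hessG G φ z a (I • a) := by
      rw [← Nop_gradG h hφ hz]
      have h4 := h.herm z hz (I • Nop G (gradG G φ) z a) a
      rw [smul_smul, I_mul_I, neg_one_smul, map_neg, neg_apply] at h4
      exact h4.symm
    have h5 := hessG_I h hφ hz (hJ z hz) a (I • a)
    rw [smul_smul, I_mul_I, neg_one_smul] at h5
    have h6 : hessG G φ z (I • a) (-a) = - hessG G φ z (I • a) a := by
      simp only [hessG, map_neg]; ring
    rw [h6, hessG_symm h hφ hz (I • a) a] at h5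
    rw [h3]
    linarith only [h5]
  rw [h.symm z hz a, h.par_left hz] at h1
  rw [Nop, smul_add, map_add, add_apply] at h2
  linarith only [h1, h2]

/-- half the Lie derivative of `G` along the gradient is the Hessian -/
theorem Sfun_gradG (h : LocalKahler G U) (hφ : ContDiffOn ℝ ∞ φ U) (hz : z ∈ U) (a : E) :
    Sfun G (gradG G φ) z a = hessG G φ z a a := by
  rw [← Nop_gradG h hφ hz, Sfun, Nop, h.fderiv_eq hz, map_add, add_apply,
    h.symm z hz a (chris G z (gradG G φ z) a)]
  ring

end Vale.Agent.P253.H348
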