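import Vale.Agent.P253.H348.Sol
import Vale.Agent.P253.H595.Vf

/-!
P253: the gradient as a section of the complex tangent bundle.
-/

open scoped Manifold ContDiff Topology Bundle
open Set Metric Complex Filter Bundle IsManifold Module Vale.Agent.P253.Mfd

set_option maxSynthPendingDepth 3
set_option linter.unusedSectionVars false

noncomputable section

namespace Vale.Agent.P253.H348

variable {E : Type*} [NormedAddCommGroup E] [NormedSpace ℂ E] [FiniteDimensional ℂ E]
  {M : Type*} [MetricSpace M] [ChartedSpace E M]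
  [IsManifold 𝓘(ℂ, E) 1 M] [IsManifold 𝓘(ℝ, E) ∞ M]
  {f : M → ℝ} {e e' : OpenPartialHomeomorph M E} {z : E} {Γ : E → E → E} {lam : ℝ}

omit [IsManifold 𝓘(ℝ, E) ∞ M] in
theorem comps_eq_fderiv (he : e ∈ maximalAtlas 𝓘(ℂ, E) 1 M) {x : M} (hx : x ∈ e.source)
    (Z : (x : M) → TangentSpace 𝓘(ℂ, E) x) :
    H595.comps Z e x = fderiv ℝ (fun y => e ((chartAt E x).symm y)) (chartAt E x x) (Z x : E) := by
  have h0 : chartAt E x ∈ maximalAtlas 𝓘(ℂ, E) 1 M := chart_mem_maximalAtlas x
  have h1 := H595.mdiff_of_mem he hx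
  have h2 : mfderiv 𝓘(ℂ, E) 𝓘(ℂ, E) e x = fderiv ℂ (e ∘ (chartAt E x).symm) (chartAt E x x) := by
    refine h1.mfderiv.trans ?_
    simp only [mfld_simps]
    rw [fderivWithin_univ]
    rfl
  have h3 : DifferentiableAt ℂ (e ∘ (chartAt E x).symm) (chartAt E x x) := by
    have h4 := transition_complex h0 he
    exact (h4.contDiffAt (((chartAt E x).symm.trans e).open_source.mem_nhds
      (by simp [hx]))).differentiableAt (by simp)
  have h5 : fderiv ℝ (fun y => e ((chartAt E x).symm y)) (chartAt E x x)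
      = (fderiv ℂ (e ∘ (chartAt E x).symm) (chartAt E x x)).restrictScalars ℝ :=
    (h3.hasFDerivAt.restrictScalars ℝ).fderiv
  rw [h5, H595.comps, h2]
  rfl

variable [RiemannianBundle (fun x : M => TangentSpace 𝓘(ℝ, E) x)]

/-- the gradient of `f`, as a section of the complex tangent bundle -/
def gradZ (f : M → ℝ) (x : M) : TangentSpace 𝓘(ℂ, E) x :=
  (gradF f (chartAt E x) (chartAt E x x) : E)

variable [IsContMDiffRiemannianBundle 𝓘(ℝ, E) ∞ E (fun x : M => TangentSpace 𝓘(ℝ, E) x)]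

/-- the components of the gradient in a chart -/
theorem comps_gradZ (hK : IsKahler E M) (hf : ContMDiff 𝓘(ℝ, E) 𝓘(ℝ, ℝ) ∞ f)
    (he : e ∈ maximalAtlas 𝓘(ℂ, E) 1 M) {x : M} (hx : x ∈ e.source) :
    H595.comps (gradZ f) e x = gradF f e (e x) := by
  have h0 : chartAt E x ∈ maximalAtlas 𝓘(ℂ, E) 1 M := chart_mem_maximalAtlas x
  rw [comps_eq_fderiv he hx]
  exact (gradF_change hK hf h0 he (mem_chart_source E x) hx).symm

theorem comps_gradZ_symm (hK : IsKahler E M) (hf : ContMDiff 𝓘(ℝ, E) 𝓘(ℝ, ℝ) ∞ f)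
    (he : e ∈ maximalAtlas 𝓘(ℂ, E) 1 M) (hz : z ∈ e.target) :
    H595.comps (gradZ f) e (e.symm z) = gradF f e z := by
  rw [comps_gradZ hK hf he (e.map_target hz), e.right_inv hz]

/-- the gradient of a function with J-invariant Hessian is a holomorphic vector field -/
theorem isHolField_gradZ (hK : IsKahler E M) (hf : ContMDiff 𝓘(ℝ, E) 𝓘(ℝ, ℝ) ∞ f)
    (hJ : HessJ E f) : H595.IsHolField (gradZ (E := E) f) := fun _ he =>
  (differentiableOn_gradF hK hf hJ he).congr fun _ hz => comps_gradZ_symm hK hf he hz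

end Vale.Agent.P253.H348
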