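import Vale.Agent.P253.H348.LocMin

/-!
P253: a nonconstant Killing potential with a compact nonempty level set.
-/

open scoped Manifold ContDiff Topology Bundle ENNReal
open Set Metric Complex Filter Bundle IsManifold Manifold Module Vale.Agent.P253.Mfd

set_option maxSynthPendingDepth 3
set_option linter.unusedSectionVars false

noncomputable section

namespace Vale.Agent.P253.H348

variable {E : Type*} [NormedAddCommGroup E] [NormedSpace ℂ E] [FiniteDimensional ℂ E]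
  {M : Type*} [MetricSpace M] [ChartedSpace E M]

/-- four points around `x` on a complex line in a chart -/
theorem harm_lin {e : OpenPartialHomeomorph M E} {x : M} (hx : x ∈ e.source) (Y : E) :
    Harm e x Y (fun r k => e.symm (e x + r • (I ^ (k:ℕ) • Y))) := by
  have hev : ∀ᶠ r : ℝ in 𝓝[>] (0:ℝ), ∀ k : Fin 4, e x + r • (I ^ (k : ℕ) • Y) ∈ e.target := by
    apply eventually_all.2
    intro k
    have hc : Continuous (fun r : ℝ => e x + r • (I ^ (k:ℕ) • Y)) := by fun_prop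
    have h0 : Tendsto (fun r : ℝ => e x + r • (I ^ (k:ℕ) • Y)) (𝓝[>] (0:ℝ)) (𝓝 (e x)) := by
      have := (hc.tendsto 0).mono_left (nhdsWithin_le_nhds (s := Ioi (0:ℝ)))
      simpa using this
    exact h0.eventually (e.open_target.mem_nhds (e.map_source hx))
  refine ⟨?_, ?_⟩
  · filter_upwards [hev] with r hr k
    exact e.map_target (hr k)
  · refine isSmall_zero.congr ?_
    filter_upwards [hev] with r hr k
    rw [e.right_inv (hr k)]
    abel

variable [IsManifold 𝓘(ℂ, E) 1 M] [IsManifold 𝓘(ℝ, E) ∞ M]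
  [RiemannianBundle (fun x : M => TangentSpace 𝓘(ℝ, E) x)]
  [IsContMDiffRiemannianBundle 𝓘(ℝ, E) ∞ E (fun x : M => TangentSpace 𝓘(ℝ, E) x)]

/-- the sum of two distance functions with negative Levi bounds has no local minimum -/
theorem exists_sum_lt [Nontrivial E] {x q q' : M} {c : ℝ} (hc : 0 < c)
    (h1 : LeviBound (E := E) q x (-c)) (h2 : LeviBound (E := E) q' x (-c)) :
    ∃ y, dist y q + dist y q' < dist x q + dist x q' := by
  by_contra hcon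
  push Not at hcon
  obtain ⟨Y, hY⟩ := exists_ne (0 : E)
  have hx := mem_chart_source E x
  have he : chartAt E x ∈ maximalAtlas 𝓘(ℂ, E) 1 M := chart_mem_maximalAtlas x
  set e := chartAt E x with hed
  have hG : 0 < chartG e (e x) Y Y :=
    chartG_pos (mem_maximalAtlas_real he) (e.map_source hx) _ hY
  set G := chartG e (e x) Y Y with hGd
  have hH := harm_lin (E := E) hx Y
  have e1 := h1 e he hx Y _ hH (c * G / 2) (by positivity)
  have e2 := h2 e he hx Y _ hH (c * G / 2) (by positivity)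
  obtain ⟨r, ⟨hr1, hr2⟩, hr0⟩ := ((e1.and e2).and self_mem_nhdsWithin).exists
  have hr0' : 0 < r := hr0
  have h3 : ∑ k : Fin 4, (dist x q + dist x q') ≤
      ∑ k : Fin 4, dist (e.symm (e x + r • (I ^ (k:ℕ) • Y))) q +
        ∑ k : Fin 4, dist (e.symm (e x + r • (I ^ (k:ℕ) • Y))) q' := by
    rw [← Finset.sum_add_distrib]
    exact Finset.sum_le_sum fun k _ => hcon _
  simp only [Finset.sum_const, Finset.card_univ, Fintype.card_fin, nsmul_eq_mul] at h3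
  push_cast at h3
  rw [← hGd] at hr1 hr2
  have h4 : 0 < r ^ 2 * (c * G) := by positivity
  have h5 : r ^ 2 * (-c * G + c * G / 2) = -(r ^ 2 * (c * G)) / 2 := by ring
  rw [h5] at hr1 hr2
  linarith

variable [IsRiemannianManifold 𝓘(ℝ, E) M]

variable (E) in
include E in
/-- a compact set which separates two points contains a point of a minimal segment -/
theorem exists_crossing {K₁ K₂ : Set M} (hK₁ : IsClosed K₁) (hK₂ : IsClosed K₂)
    (hU : K₁ ∪ K₂ = univ) (hL : IsCompact (K₁ ∩ K₂)) {a b : M} (ha : a ∈ K₁) (hb : b ∈ K₂) :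
    ∃ x ∈ K₁ ∩ K₂, dist x a + dist x b ≤ dist a b := by
  have key : ∀ ε > 0, ∃ x ∈ K₁ ∩ K₂, dist x a + dist x b ≤ dist a b + ε := by
    intro ε hε
    have hlt : riemannianEDist 𝓘(ℝ, E) a b < ENNReal.ofReal (dist a b + ε) := by
      rw [← IsRiemannianManifold.out (I := 𝓘(ℝ, E)), edist_dist]
      rw [ENNReal.ofReal_lt_ofReal_iff (by positivity)]
      linarith
    obtain ⟨γ, hγ0, hγ1, hγ, hlen⟩ := exists_lt_of_riemannianEDist_lt hlt
    have hγc : ContinuousOn γ (Icc 0 1) := hγ.continuousOn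
    have hpre : IsPreconnected (γ '' Icc (0:ℝ) 1) := isPreconnected_Icc.image γ hγc
    obtain ⟨-, ⟨t, ht, rfl⟩, hts⟩ := isPreconnected_closed_iff.1 hpre K₁ K₂ hK₁ hK₂
      (by rw [hU]; exact subset_univ _)
      ⟨a, ⟨0, left_mem_Icc.2 zero_le_one, hγ0⟩, ha⟩ ⟨b, ⟨1, right_mem_Icc.2 zero_le_one, hγ1⟩, hb⟩
    refine ⟨γ t, hts, ?_⟩
    have h1 := riemannianEDist_le_pathELength (I := 𝓘(ℝ, E))
      (hγ.mono (Icc_subset_Icc le_rfl ht.2)) hγ0 rfl ht.1
    have h2 := riemannianEDist_le_pathELength (I := 𝓘(ℝ, E))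
      (hγ.mono (Icc_subset_Icc ht.1 le_rfl)) rfl hγ1 ht.2
    have h3 := (add_le_add h1 h2).trans_lt ((pathELength_add ht.1 ht.2).trans_lt hlen)
    rw [← IsRiemannianManifold.out (I := 𝓘(ℝ, E)), ← IsRiemannianManifold.out (I := 𝓘(ℝ, E)),
      edist_dist, edist_dist, ← ENNReal.ofReal_add dist_nonneg dist_nonneg,
      ENNReal.ofReal_lt_ofReal_iff (by positivity)] at h3
    rw [dist_comm a] at h3
    exact h3.le
  obtain ⟨x₁, hx₁, -⟩ := key 1 one_pos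
  obtain ⟨x, hx, hmin⟩ := hL.exists_isMinOn (f := fun x => dist x a + dist x b) ⟨x₁, hx₁⟩
    (by fun_prop)
  refine ⟨x, hx, le_of_forall_pos_le_add fun ε hε => ?_⟩
  obtain ⟨y, hy, hy'⟩ := key ε hε
  exact (hmin hy).trans hy'

variable (E) in
include E in
theorem nontrivial_of_ne [ConnectedSpace M] {a b : M} (hab : a ≠ b) : Nontrivial E := by
  by_contra hE
  rw [not_nontrivial_iff_subsingleton] at hE
  have h1 : IsClopen ({a} : Set M) := by
    refine ⟨isClosed_singleton, ?_⟩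
    have h2 : (chartAt E a).source = {a} := by
      refine Subset.antisymm (fun y hy => ?_) ?_
      · exact (chartAt E a).injOn hy (mem_chart_source E a) (Subsingleton.elim _ _)
      · rintro y rfl
        exact mem_chart_source E y
    rw [← h2]
    exact (chartAt E a).open_source
  rcases isClopen_iff.1 h1 with h2 | h2
  · exact singleton_ne_empty a h2
  · have h3 : b ∈ ({a} : Set M) := h2 ▸ mem_univ b
    exact hab (mem_singleton_iff.1 h3).symm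

/-- **One end**: two closed sets which cover `M`, with compact intersection, are not both
noncompact -/
theorem compact_side (hK : IsKahler E M) [ProperSpace M] [ConnectedSpace M]
    (hpos : ∀ x : M, PosBisectionalAt E x) {K₁ K₂ : Set M} (hK₁ : IsClosed K₁)
    (hK₂ : IsClosed K₂) (hU : K₁ ∪ K₂ = univ) (hL : IsCompact (K₁ ∩ K₂)) :
    IsCompact K₁ ∨ IsCompact K₂ := by
  by_contra hcon
  rw [not_or] at hcon
  obtain ⟨h1, h2⟩ := hcon
  have hnn : ∀ x : M, NonnegBisectionalAt E x := fun x => (hpos x).nonneg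
  obtain ⟨k, hk, L₀, hL₀, hlev⟩ := levi_strict_compact hK hnn hL fun x _ => hpos x
  obtain ⟨x₀⟩ : Nonempty M := inferInstance
  obtain ⟨R, hR⟩ := hL.isBounded.subset_closedBall x₀
  have hfar : ∀ S : Set M, IsClosed S → ¬ IsCompact S → ∃ a ∈ S, R + L₀ < dist a x₀ := by
    intro S hS hSc
    by_contra hcon
    push Not at hcon
    refine hSc ((isCompact_closedBall x₀ (R + L₀)).of_isClosed_subset hS fun a ha => ?_)
    exact hcon a ha
  obtain ⟨a, ha, haR⟩ := hfar _ hK₁ h1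
  obtain ⟨b, hb, hbR⟩ := hfar _ hK₂ h2
  obtain ⟨x, hx, hxm⟩ := exists_crossing E hK₁ hK₂ hU hL ha hb
  have hxR : dist x x₀ ≤ R := hR hx
  have hxa : L₀ ≤ dist x a := by
    have := dist_triangle a x x₀
    rw [dist_comm a x] at this
    linarith
  have hxb : L₀ ≤ dist x b := by
    have := dist_triangle b x x₀
    rw [dist_comm b x] at this
    linarith
  have hne : x ≠ a := by
    rintro rfl
    rw [dist_self] at hxa
    linarith
  have : Nontrivial E := nontrivial_of_ne E hne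
  obtain ⟨y, hy⟩ := exists_sum_lt (E := E) hk (hlev x hx a hxa) (hlev x hx b hxb)
  have h3 := dist_triangle a y b
  rw [dist_comm a y] at h3
  linarith

variable {h : M → ℝ} {ρ : ℝ → M → M} {x₀ : M}

/-- the flow of `-h` -/
theorem IsJGradFlow.rev (hρ : IsJGradFlow E h ρ) :
    IsJGradFlow E (fun x => -h x) (fun t => ρ (-t)) := by
  refine ⟨hρ.1.rev, fun e he z hz w => ?_⟩
  have h1 : deriv (fun t : ℝ => e (ρ (-t) (e.symm z))) 0 =
      -deriv (fun t : ℝ => e (ρ t (e.symm z))) 0 := by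
    have h2 := deriv_comp_neg (f := fun t : ℝ => e (ρ t (e.symm z))) (x := 0)
    rw [neg_zero] at h2
    exact h2
  rw [h1, ← chartG_apply, map_neg, neg_apply, chartG_apply, hρ.2 e he z hz w]
  have h3 : (fun y => -h (e.symm y)) = -(fun y => h (e.symm y)) := rfl
  rw [h3, fderiv_neg]
  simp

/-- a Killing potential which is `c` on the frontier of a compact set and less than `c`
somewhere in it -/
theorem main_lower_piece (hK : IsKahler E M) [CompleteSpace M] [NoncompactSpace M]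
    [ConnectedSpace M] (hpos : ∀ x : M, PosBisectionalAt E x)
    (hh : ContMDiff 𝓘(ℝ, E) 𝓘(ℝ, ℝ) ∞ h) (hρ : IsJGradFlow E h ρ) {c : ℝ} {K : Set M}
    (hKc : IsCompact K) (hfr : ∀ x ∈ K, h x ≠ c → K ∈ 𝓝 x) {q₀ : M} (hq₀ : q₀ ∈ K)
    (h0 : h q₀ < c) :
    ∃ (p : M) (b : Basis (Fin (finrank ℂ E)) ℂ E) (m : Fin (finrank ℂ E) → ℝ)
      (F : M ≃ₘ^1⟮𝓘(ℂ, E), 𝓘(ℂ, E)⟯ E), HessPosAt E h p ∧ HasWeights ρ p b m ∧
      (∀ x, mfderiv 𝓘(ℝ, E) 𝓘(ℝ, ℝ) h x = 0 ↔ x = p) ∧ IsLinearization ρ p F := by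
  obtain ⟨q, hq, hqm⟩ := hKc.exists_isMinOn ⟨q₀, hq₀⟩ hh.continuous.continuousOn
  have hqc : h q < c := lt_of_le_of_lt (hqm hq₀) h0
  have hloc : IsLocalMin h q := by
    filter_upwards [hfr q hq hqc.ne] with y hy
    exact hqm hy
  obtain ⟨⟨P, -, hPP, hcrit, hmin, -⟩, -, h3⟩ := main_final hK hpos hh hρ (x₀ := q)
    (Or.inl ⟨q, hloc⟩)
  have hCrit : ∀ x, mfderiv 𝓘(ℝ, E) 𝓘(ℝ, ℝ) h x = 0 ↔ ∀ y, h x ≤ h y := fun x =>
    (hcrit x).trans (hmin x)
  have hq' : mfderiv 𝓘(ℝ, E) 𝓘(ℝ, ℝ) h q = 0 :=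
    (hCrit q).2 fun y => bounded_of_localMin hK hpos hρ.1 (H22.isGradOf_flow hK hh hρ) hloc y
  have h4 : interior K ∩ {x : M | mfderiv 𝓘(ℝ, E) 𝓘(ℝ, ℝ) h x = 0} = K ∩ {x | h x ≤ h q} := by
    ext x
    refine ⟨fun hx => ⟨interior_subset hx.1, (hCrit x).1 hx.2 q⟩, fun hx => ?_⟩
    have hx2 : h x ≤ h q := hx.2
    exact ⟨mem_interior_iff_mem_nhds.2 (hfr x hx.1 (lt_of_le_of_lt hx2 hqc).ne),
      (hCrit x).2 fun y => hx2.trans ((hCrit q).1 hq' y)⟩
  refine h3 (interior K) isOpen_interior ⟨q, mem_interior_iff_mem_nhds.2 (hfr q hq hqc.ne), hq'⟩ ?_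
  rw [h4]
  exact hKc.inter_right (isClosed_le hh.continuous continuous_const)

/-- a Killing potential with a compact nonempty sublevel set -/
theorem main_sublevel (hK : IsKahler E M) [CompleteSpace M] [NoncompactSpace M]
    [ConnectedSpace M] (hpos : ∀ x : M, PosBisectionalAt E x)
    (hh : ContMDiff 𝓘(ℝ, E) 𝓘(ℝ, ℝ) ∞ h) (hρ : IsJGradFlow E h ρ) {c : ℝ}
    (hS : IsCompact {x | h x ≤ c}) (hne : {x | h x = c}.Nonempty) :
    ∃ (p : M) (b : Basis (Fin (finrank ℂ E)) ℂ E) (m : Fin (finrank ℂ E) → ℝ)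
      (F : M ≃ₘ^1⟮𝓘(ℂ, E), 𝓘(ℂ, E)⟯ E), HessPosAt E h p ∧ HasWeights ρ p b m ∧
      (∀ x, mfderiv 𝓘(ℝ, E) 𝓘(ℝ, ℝ) h x = 0 ↔ x = p) ∧ IsLinearization ρ p F := by
  obtain ⟨x₀, hx₀⟩ := hne
  have hx₀' : h x₀ ≤ c := le_of_eq hx₀
  obtain ⟨q, hq, hqm⟩ := hS.exists_isMinOn ⟨x₀, hx₀'⟩ hh.continuous.continuousOn
  have hqg : ∀ y, h q ≤ h y := by
    intro y
    rcases le_or_gt (h y) c with hy | hy
    · exact hqm hy
    · exact (show h q ≤ c from hq).trans hy.le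
  obtain ⟨⟨P, -, hPP, hcrit, hmin, -⟩, -, h3⟩ := main_final hK hpos hh hρ (x₀ := x₀)
    (Or.inl ⟨q, Filter.Eventually.of_forall hqg⟩)
  have hCrit : ∀ x, mfderiv 𝓘(ℝ, E) 𝓘(ℝ, ℝ) h x = 0 ↔ ∀ y, h x ≤ h y := fun x =>
    (hcrit x).trans (hmin x)
  refine h3 univ isOpen_univ ⟨q, mem_univ q, (hCrit q).2 hqg⟩ ?_
  have h4 : univ ∩ {x : M | mfderiv 𝓘(ℝ, E) 𝓘(ℝ, ℝ) h x = 0} = {x | h x ≤ h q} := by
    ext x
    rw [univ_inter]
    exact (hCrit x).trans ⟨fun hx => hx q, fun hx y => le_trans hx (hqg y)⟩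
  rw [h4]
  exact hS.of_isClosed_subset (isClosed_le hh.continuous continuous_const)
    fun x hx => le_trans (show h x ≤ h q from hx) hq

/-- the conclusion for `-h` in terms of `h` -/
theorem of_rev (h1 : ∃ (p : M) (b : Basis (Fin (finrank ℂ E)) ℂ E)
      (m : Fin (finrank ℂ E) → ℝ) (F : M ≃ₘ^1⟮𝓘(ℂ, E), 𝓘(ℂ, E)⟯ E),
      HessPosAt E (fun x => -h x) p ∧ HasWeights (fun t => ρ (-t)) p b m ∧
      (∀ x, mfderiv 𝓘(ℝ, E) 𝓘(ℝ, ℝ) (fun x => -h x) x = 0 ↔ x = p) ∧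
      IsLinearization (fun t => ρ (-t)) p F) :
    ∃ (s : ℝ) (p : M) (b : Basis (Fin (finrank ℂ E)) ℂ E) (m : Fin (finrank ℂ E) → ℝ)
      (F : M ≃ₘ^1⟮𝓘(ℂ, E), 𝓘(ℂ, E)⟯ E), (s = 1 ∨ s = -1) ∧ HessPosAt E (fun x => s * h x) p ∧
      HasWeights (fun t => ρ (s * t)) p b m ∧
      (∀ x, mfderiv 𝓘(ℝ, E) 𝓘(ℝ, ℝ) h x = 0 ↔ x = p) ∧ IsLinearization ρ p F := by
  obtain ⟨p, b, m, F, h2, h3, h4, h5⟩ := h1
  refine ⟨-1, p, b, m, F, Or.inr rfl, by simpa using h2, by simpa using h3, fun x => ?_,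
    ⟨h5.1, h5.2, fun t x => ?_⟩⟩
  · refine Iff.trans ?_ (h4 x)
    have h6 : mfderiv 𝓘(ℝ, E) 𝓘(ℝ, ℝ) (fun x => -h x) x = -mfderiv 𝓘(ℝ, E) 𝓘(ℝ, ℝ) h x :=
      mfderiv_neg
    refine ⟨fun h7 => ?_, fun h7 => ?_⟩
    · rw [h6, h7]
      exact neg_zero
    · exact neg_eq_zero.1 (h6.symm.trans h7)
  · have h8 : ∀ r : ℝ, r = t →
        F (ρ r x) = (mfderiv 𝓘(ℂ, E) 𝓘(ℂ, E) (ρ r) p : E → E) (F x) →
        F (ρ t x) = (mfderiv 𝓘(ℂ, E) 𝓘(ℂ, E) (ρ t) p : E → E) (F x) := by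
      rintro r rfl h9
      exact h9
    exact h8 _ (neg_neg t) (h5.3 (-t) x)

/-- the conclusion for `h` -/
theorem of_self (h1 : ∃ (p : M) (b : Basis (Fin (finrank ℂ E)) ℂ E)
      (m : Fin (finrank ℂ E) → ℝ) (F : M ≃ₘ^1⟮𝓘(ℂ, E), 𝓘(ℂ, E)⟯ E),
      HessPosAt E h p ∧ HasWeights ρ p b m ∧
      (∀ x, mfderiv 𝓘(ℝ, E) 𝓘(ℝ, ℝ) h x = 0 ↔ x = p) ∧ IsLinearization ρ p F) :
    ∃ (s : ℝ) (p : M) (b : Basis (Fin (finrank ℂ E)) ℂ E) (m : Fin (finrank ℂ E) → ℝ)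
      (F : M ≃ₘ^1⟮𝓘(ℂ, E), 𝓘(ℂ, E)⟯ E), (s = 1 ∨ s = -1) ∧ HessPosAt E (fun x => s * h x) p ∧
      HasWeights (fun t => ρ (s * t)) p b m ∧
      (∀ x, mfderiv 𝓘(ℝ, E) 𝓘(ℝ, ℝ) h x = 0 ↔ x = p) ∧ IsLinearization ρ p F := by
  obtain ⟨p, b, m, F, h2, h3, h4, h5⟩ := h1
  exact ⟨1, p, b, m, F, Or.inl rfl, by simpa using h2, by simpa using h3, h4, h5⟩

/-- a compact set on whose frontier `h` is constant -/
theorem main_compact_piece (hK : IsKahler E M) [CompleteSpace M] [NoncompactSpace M]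
    [ConnectedSpace M] (hpos : ∀ x : M, PosBisectionalAt E x)
    (hh : ContMDiff 𝓘(ℝ, E) 𝓘(ℝ, ℝ) ∞ h) (hρ : IsJGradFlow E h ρ) {c : ℝ} {K : Set M}
    (hKc : IsCompact K) (hfr : ∀ x ∈ K, h x ≠ c → K ∈ 𝓝 x) (hint : (interior K).Nonempty)
    (hnc : ∃ x y, h x ≠ h y) :
    ∃ (s : ℝ) (p : M) (b : Basis (Fin (finrank ℂ E)) ℂ E) (m : Fin (finrank ℂ E) → ℝ)
      (F : M ≃ₘ^1⟮𝓘(ℂ, E), 𝓘(ℂ, E)⟯ E), (s = 1 ∨ s = -1) ∧ HessPosAt E (fun x => s * h x) p ∧
      HasWeights (fun t => ρ (s * t)) p b m ∧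
      (∀ x, mfderiv 𝓘(ℝ, E) 𝓘(ℝ, ℝ) h x = 0 ↔ x = p) ∧ IsLinearization ρ p F := by
  by_cases hc : ∀ x ∈ K, h x = c
  · exfalso
    obtain ⟨u, hu⟩ := hint
    have huK : K ∈ 𝓝 u := mem_interior_iff_mem_nhds.1 hu
    have hev : ∀ᶠ x in 𝓝 u, h x = h u := by
      filter_upwards [huK] with x hx
      rw [hc x hx, hc u (interior_subset hu)]
    have hmin : IsLocalMin h u := hev.mono fun x hx => le_of_eq hx.symm
    have hmax : IsLocalMax h u := hev.mono fun x hx => le_of_eq hx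
    obtain ⟨x, y, hxy⟩ := hnc
    exact hxy ((main_final hK hpos hh hρ (x₀ := u) (Or.inl ⟨u, hmin⟩)).2.1 (Or.inl ⟨u, hmax⟩) x y)
  · push Not at hc
    obtain ⟨q, hq, hqc⟩ := hc
    rcases lt_or_gt_of_ne hqc with h1 | h1
    · exact of_self (main_lower_piece hK hpos hh hρ hKc hfr hq h1)
    · refine of_rev (main_lower_piece hK hpos hh.neg hρ.rev (c := -c) hKc (fun x hx hxc => ?_) hq
        (neg_lt_neg h1))
      exact hfr x hx fun h2 => hxc (by rw [h2])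

/-- **Compact sets on which `h` is constant.** A nonempty compact level set, or a compact set
`N` with `M \ N` disconnected on which the nonconstant potential `h` is constant. -/
theorem main_level (hK : IsKahler E M) [CompleteSpace M] [NoncompactSpace M]
    [ConnectedSpace M] (hpos : ∀ x : M, PosBisectionalAt E x)
    (hh : ContMDiff 𝓘(ℝ, E) 𝓘(ℝ, ℝ) ∞ h) (hρ : IsJGradFlow E h ρ) {c : ℝ} {N : Set M}
    (hN : IsCompact N) (hNc : ∀ x ∈ N, h x = c)
    (hsep : (N.Nonempty ∧ ∀ x, h x = c → x ∈ N) ∨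
      (¬ IsPreconnected Nᶜ ∧ ∃ x y, h x ≠ h y)) :
    ∃ (s : ℝ) (p : M) (b : Basis (Fin (finrank ℂ E)) ℂ E) (m : Fin (finrank ℂ E) → ℝ)
      (F : M ≃ₘ^1⟮𝓘(ℂ, E), 𝓘(ℂ, E)⟯ E), (s = 1 ∨ s = -1) ∧ HessPosAt E (fun x => s * h x) p ∧
      HasWeights (fun t => ρ (s * t)) p b m ∧
      (∀ x, mfderiv 𝓘(ℝ, E) 𝓘(ℝ, ℝ) h x = 0 ↔ x = p) ∧ IsLinearization ρ p F := by
  have hP : ProperSpace M := properSpace_riemannian E M
  rcases hsep with ⟨⟨x₁, hx₁⟩, hNl⟩ | ⟨hpre, hnc⟩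
  · have hne : {x | h x = c}.Nonempty := ⟨x₁, hNc x₁ hx₁⟩
    have hE : {x | h x ≤ c} ∩ {x | c ≤ h x} = N := by
      ext x
      refine ⟨fun hx => hNl x (le_antisymm hx.1 hx.2), fun hx => ?_⟩
      exact ⟨(hNc x hx).le, (hNc x hx).ge⟩
    have hU : {x | h x ≤ c} ∪ {x | c ≤ h x} = univ := by
      ext x
      exact ⟨fun _ => mem_univ x, fun _ => le_total (h x) c⟩
    rcases compact_side hK hpos (isClosed_le hh.continuous continuous_const)
      (isClosed_le continuous_const hh.continuous) hU (hE ▸ hN) with h1 | h1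
    · exact of_self (main_sublevel hK hpos hh hρ h1 hne)
    · have hne' : {x | -h x = -c}.Nonempty := by simpa using hne
      have h1' : IsCompact {x | -h x ≤ -c} := by simpa using h1
      exact of_rev (main_sublevel hK hpos hh.neg hρ.rev h1' hne')
  · rw [IsPreconnected] at hpre
    push Not at hpre
    obtain ⟨U, V, hUo, hVo, hUV, ⟨u, huN, hu⟩, ⟨v, hvN, hv⟩, hdis⟩ := hpre
    have hNo : IsOpen Nᶜ := hN.isClosed.isOpen_compl
    set U' := Nᶜ ∩ U with hU'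
    set V' := Nᶜ ∩ V with hV'
    have hUo' : IsOpen U' := hNo.inter hUo
    have hVo' : IsOpen V' := hNo.inter hVo
    have hd : ∀ x, x ∈ U' → x ∉ V' := fun x hx hx' => by
      have h1 : x ∈ Nᶜ ∩ (U ∩ V) := ⟨hx.1, hx.2, hx'.2⟩
      rw [hdis] at h1
      exact h1
    have hcov : ∀ x, x ∉ N → x ∈ U' ∨ x ∈ V' := fun x hx =>
      (hUV hx).imp (fun h1 => ⟨hx, h1⟩) fun h1 => ⟨hx, h1⟩
    have hE : V'ᶜ ∩ U'ᶜ = N := by
      ext x
      refine ⟨fun hx => ?_, fun hx => ⟨fun h1 => h1.1 hx, fun h1 => h1.1 hx⟩⟩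
      by_contra hxN
      rcases hcov x hxN with h1 | h1
      · exact hx.2 h1
      · exact hx.1 h1
    have hUn : V'ᶜ ∪ U'ᶜ = univ := by
      ext x
      refine ⟨fun _ => mem_univ x, fun _ => ?_⟩
      by_cases h1 : x ∈ V'
      · exact Or.inr fun h2 => hd x h2 h1
      · exact Or.inl h1
    rcases compact_side hK hpos hVo'.isClosed_compl hUo'.isClosed_compl hUn (hE ▸ hN) with h1 | h1
    · have hsub : U' ⊆ V'ᶜ := fun x hx => hd x hx
      refine main_compact_piece hK hpos hh hρ (c := c) h1 (fun x hx hxc => ?_)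
        ⟨u, interior_maximal hsub hUo' ⟨huN, hu⟩⟩ hnc
      have h2 : x ∈ U' := (hcov x fun h3 => hxc (hNc x h3)).resolve_right hx
      exact Filter.mem_of_superset (hUo'.mem_nhds h2) hsub
    · have hsub : V' ⊆ U'ᶜ := fun x hx hx' => hd x hx' hx
      refine main_compact_piece hK hpos hh hρ (c := c) h1 (fun x hx hxc => ?_)
        ⟨v, interior_maximal hsub hVo' ⟨hvN, hv⟩⟩ hnc
      have h2 : x ∈ V' := (hcov x fun h3 => hxc (hNc x h3)).resolve_left hx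
      exact Filter.mem_of_superset (hVo'.mem_nhds h2) hsub

end Vale.Agent.P253.H348
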