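import Vale.Agent.P253.H348.Level
import Vale.Agent.P253.H22.FMain
import Mathlib.Analysis.Calculus.DerivativeTest

/-!
P253: a Killing potential whose critical set is a curve, and a commuting flow of holomorphic
isometries which moves it.
-/

open scoped Manifold ContDiff Topology Bundle
open Set Metric Complex Filter Bundle IsManifold Manifold Module Vale.Agent.P253.Mfd
  Vale.Agent.P253.H577 Vale.Agent.P253.H22 Vale.Agent.P253.H202

set_option maxSynthPendingDepth 3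
set_option linter.unusedSectionVars false

noncomputable section

namespace Vale.Agent.P253.H348

variable {E : Type*} [NormedAddCommGroup E] [NormedSpace ℂ E] [FiniteDimensional ℂ E]

section algebra

variable {V : Type*} [NormedAddCommGroup V] [NormedSpace ℝ V]
  {G : E → E →L[ℝ] E →L[ℝ] ℝ} {U : Set E} {z : E} {L : E → V →L[ℝ] E}

theorem csmul_eq (c : ℂ) (x : E) : c • x = c.re • x + c.im • (I • x) := by
  conv_lhs => rw [← re_add_im c, add_smul, mul_smul]
  rfl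

/-- a positive semidefinite symmetric operator -/
theorem psd_zero {g : E →L[ℝ] E →L[ℝ] ℝ} (hg : ∀ a, a ≠ 0 → 0 < g a a) {A : E →L[ℝ] E}
    (hs : ∀ a b, g (A a) b = g (A b) a) (hnn : ∀ a, 0 ≤ g (A a) a) {a : E} (h0 : g (A a) a = 0) :
    A a = 0 := by
  by_contra hne
  set X := A a with hX
  have hx : 0 < g X X := hg X hne
  set x := g X X with hxd
  set y := g (A X) X with hyd
  have hy : 0 ≤ y := hnn X
  have key : ∀ t : ℝ, 0 ≤ -(2 * t * x) + t ^ 2 * y := by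
    intro t
    have h1 := hnn (a - t • X)
    have e1 : A (a - t • X) = X - t • A X := by rw [map_sub, map_smul]
    rw [e1] at h1
    simp only [map_sub, map_smul, sub_apply, smul_apply, smul_eq_mul] at h1
    have h2 : g (A X) a = x := by rw [hs X a]
    have h3 : g X a = 0 := h0
    rw [h2, h3, ← hxd, ← hyd] at h1
    nlinarith [h1]
  have h1 := key (x / (y + 1))
  have hy1 : 0 < y + 1 := by linarith
  have e1 : -(2 * (x / (y + 1)) * x) + (x / (y + 1)) ^ 2 * y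
      = x ^ 2 / (y + 1) ^ 2 * (-(y + 2)) := by
    field_simp
    ring
  rw [e1] at h1
  have h2 : 0 < x ^ 2 / (y + 1) ^ 2 * (y + 2) := by positivity
  linarith

theorem exists_comb (h : LocalKahler G U) (hL : CommFam G L U) (hz : z ∈ U) {κ ξ : V}
    (hκ : L z κ = 0) (hnn : ∀ a, 0 ≤ Sfun G (fun z => L z κ) z a)
    (hker : ∀ a, fderiv ℝ (fun z => L z κ) z a = 0 → ∃ c : ℂ, a = c • L z ξ)
    (hξ : L z ξ ≠ 0) :
    ∃ s c : ℝ, (s = 1 ∨ s = -1) ∧ 0 < c ∧
      ∀ a, 0 ≤ Sfun G (fun z => L z (c • κ + s • ξ)) z a := by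
  set W := L z ξ with hW
  set g := G z with hg
  have hpos : ∀ a, a ≠ 0 → 0 < g a a := h.pos z hz
  have hgs : ∀ a b, g a b = g b a := h.symm z hz
  have hgW : 0 < g W W := hpos _ hξ
  set A : E →L[ℝ] E := fderiv ℝ (fun z => L z κ) z with hA
  set N : E →L[ℝ] E := fderiv ℝ (fun z => L z ξ) z + chris G z (L z ξ) with hN
  have hAe : ∀ a, Nop G (fun z => L z κ) z a = A a := hL.Nop_vanish h hz hκ
  have hNe : ∀ a, Nop G (fun z => L z ξ) z a = N a := fun a => rfl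
  have hAI : ∀ a, A (I • a) = I • A a := by
    intro a
    rw [← hAe, ← hAe, Nop_I h (hL.holo κ) hz]
  have hNI : ∀ a, N (I • a) = I • N a := by
    intro a
    rw [← hNe, ← hNe, Nop_I h (hL.holo ξ) hz]
  have hAs : ∀ a b, g (A a) b = g (A b) a := by
    intro a b
    rw [← hAe, ← hAe]
    exact Nop_symm h (hL.holo κ) (hL.kill κ) hz a b
  have hNs : ∀ a b, g (N a) b = g (N b) a := by
    intro a b
    rw [← hNe, ← hNe]
    exact Nop_symm h (hL.holo ξ) (hL.kill ξ) hz a b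
  have hAW : A W = 0 := by
    rw [← hAe]
    exact hL.Nop_vanish_field h hz hκ ξ
  have hAIW : A (I • W) = 0 := by rw [hAI, hAW, smul_zero]
  have hANW : A (N W) = 0 := by
    rw [← hAe, ← hNe]
    exact hL.Nop_vanish_grad h hz hκ ξ
  obtain ⟨c₀, hc₀⟩ := hker _ hANW
  have horth : g (N W) (I • W) = 0 := hL.grad_orth h hz ξ ξ
  have hWI : g W (I • W) = 0 := by
    have h1 : g (I • W) (I • (I • W)) = g W (I • W) := h.herm z hz W (I • W)
    rw [smul_smul, I_mul_I, neg_one_smul, map_neg, hgs (I • W) W] at h1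
    linarith
  have hIW : g (I • W) (I • W) = g W W := h.herm z hz W W
  have him : c₀.im = 0 := by
    have h1 : g (c₀ • W) (I • W) = c₀.re * g W (I • W) + c₀.im * g (I • W) (I • W) := by
      rw [csmul_eq c₀ W]
      generalize I • W = W'
      simp only [map_add, map_smul, add_apply, smul_apply, smul_eq_mul]
    rw [hc₀, h1, hWI, hIW, mul_zero, zero_add] at horth
    exact (mul_eq_zero.1 horth).resolve_right hgW.ne'
  set q := c₀.re with hq
  have hNW : N W = q • W := by rw [hc₀, csmul_eq c₀ W, him, zero_smul, add_zero]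
  have hNIW : N (I • W) = q • (I • W) := by rw [hNI, hNW, smul_comm]
  obtain ⟨s, hs, hsq⟩ : ∃ s : ℝ, (s = 1 ∨ s = -1) ∧ 0 ≤ s * q := by
    rcases le_total 0 q with h1 | h1
    · exact ⟨1, Or.inl rfl, by linarith⟩
    · exact ⟨-1, Or.inr rfl, by linarith⟩
  -- the projection
  set P : E →L[ℝ] E := (g W W)⁻¹ • ((g.flip W).smulRight W + (g.flip (I • W)).smulRight (I • W))
    with hP
  have hPa : ∀ a, P a = (g W W)⁻¹ • (g a W • W + g a (I • W) • (I • W)) := fun a => rfl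
  have hPW : P W = W := by
    rw [hPa, hWI, zero_smul, add_zero, smul_smul, inv_mul_cancel₀ hgW.ne', one_smul]
  have hPIW : P (I • W) = I • W := by
    rw [hPa, hgs (I • W) W, hWI, hIW, zero_smul, zero_add, smul_smul, inv_mul_cancel₀ hgW.ne',
      one_smul]
  have hPc : ∀ c : ℂ, P (c • W) = c • W := by
    intro c
    rw [csmul_eq c W, map_add, map_smul, map_smul, hPW, hPIW]
  have hPform : ∀ a, ∃ x y : ℝ, P a = x • W + y • (I • W) := fun a =>
    ⟨(g W W)⁻¹ * g a W, (g W W)⁻¹ * g a (I • W), by rw [hPa, smul_add, smul_smul, smul_smul]⟩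
  have hPP : ∀ a, P (P a) = P a := by
    intro a
    obtain ⟨x, y, hxy⟩ := hPform a
    rw [hxy, map_add, map_smul, map_smul, hPW, hPIW]
  have hAP : ∀ a, A (P a) = 0 := by
    intro a
    obtain ⟨x, y, hxy⟩ := hPform a
    rw [hxy, map_add, map_smul, map_smul, hAW, hAIW, smul_zero, smul_zero, add_zero]
  have hNP : ∀ a, N (P a) = q • P a := by
    intro a
    obtain ⟨x, y, hxy⟩ := hPform a
    rw [hxy, map_add, map_smul, map_smul, hNW, hNIW, smul_add, smul_comm x q, smul_comm y q]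
  have hPs : ∀ a b, g (P a) b = g (P b) a := by
    intro a b
    rw [hPa, hPa]
    simp only [map_smul, map_add, smul_apply, add_apply, smul_eq_mul]
    rw [hgs a W, hgs b W, hgs a (I • W), hgs b (I • W)]
    ring
  have hAnn : ∀ a, 0 ≤ g (A a) a := by
    intro a
    rw [← hAe, ← hL.Sfun_eq h hz]
    exact hnn a
  have hgnn : ∀ a, 0 ≤ g a a := by
    intro a
    by_cases h0 : a = 0
    · rw [h0]; simp
    · exact (hpos a h0).le
  have hSpos : ∀ a, a ≠ 0 → 0 < g (A a) a + g (P a) (P a) := by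
    intro a ha
    by_contra hcon
    have h1 := hAnn a
    have h2 := hgnn (P a)
    have h3 : g (A a) a = 0 := by linarith
    have h4 : g (P a) (P a) = 0 := by linarith
    have h5 : P a = 0 := by
      by_contra h6
      exact absurd h4 (hpos _ h6).ne'
    obtain ⟨c, hc⟩ := hker a (psd_zero hpos hAs hAnn h3)
    apply ha
    rw [hc, ← hPc, ← hc, h5]
  obtain ⟨c₁, hc₁, hle⟩ := exists_const (q := fun a => g (A a) a + g (P a) (P a))
    (by fun_prop) (fun t a => by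
      simp only [map_smul, smul_apply, smul_eq_mul]
      ring) hSpos (-s • (g.comp N))
  refine ⟨s, c₁⁻¹, hs, inv_pos.2 hc₁, fun a => ?_⟩
  have hgoal : Sfun G (fun z => L z (c₁⁻¹ • κ + s • ξ)) z a =
      c₁⁻¹ * g (A a) a + s * g (N a) a := by
    rw [hL.Sfun_eq h hz, hL.Nop_eq h hz]
    have e1 : A a = fderiv ℝ L z a κ + chris G z (L z κ) a := by rw [← hAe, hL.Nop_eq h hz]
    have e2 : N a = fderiv ℝ L z a ξ + chris G z (L z ξ) a := by rw [← hNe, hL.Nop_eq h hz]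
    rw [e1, e2]
    simp only [map_add, map_smul, add_apply, smul_apply, smul_eq_mul]
    ring
  rw [hgoal]
  set b := a - P a with hb
  have hab : a = P a + b := by rw [hb]; abel
  have hPb : P b = 0 := by rw [hb, map_sub, hPP, sub_self]
  have e1 : g (A b) b = g (A a) a := by
    have h1 : A b = A a := by rw [hb, map_sub, hAP, sub_zero]
    rw [h1, hb, map_sub, hAs a (P a), hAP]
    simp
  have e2 : g (P a) b = 0 := by rw [hPs, hPb]; simp
  have e3 : g (N a) a = q * g (P a) (P a) + g (N b) b := by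
    have h1 : N a = q • P a + N b := by
      conv_lhs => rw [hab]
      rw [map_add, hNP]
    have h2 : g (N b) (P a) = 0 := by
      rw [hNs, hNP, map_smul, smul_apply, e2, smul_zero]
    calc g (N a) a = g (q • P a + N b) (P a + b) := by rw [← h1, ← hab]
      _ = q * g (P a) (P a) + g (N b) b := by
        simp only [map_add, map_smul, add_apply, smul_apply, smul_eq_mul]
        rw [e2, h2]
        ring
  have e4 := hle b
  have e5 : (-s • (g.comp N)) b b = -(s * g (N b) b) := by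
    simp
  rw [e5, hPb, e1] at e4
  simp only [map_zero, add_zero] at e4
  have h6 : 0 ≤ s * q * g (P a) (P a) := mul_nonneg hsq (hgnn _)
  have h7 : -(s * g (N b) b) ≤ c₁⁻¹ * g (A a) a := by
    rw [inv_mul_eq_div, le_div_iff₀ hc₁]
    linarith
  rw [e3]
  nlinarith [h6, h7]

end algebra

variable {M : Type*} [MetricSpace M] [ChartedSpace E M]
  [IsManifold 𝓘(ℂ, E) 1 M] [IsManifold 𝓘(ℝ, E) ∞ M]
  [RiemannianBundle (fun x : M => TangentSpace 𝓘(ℝ, E) x)]
  [IsContMDiffRiemannianBundle 𝓘(ℝ, E) ∞ E (fun x : M => TangentSpace 𝓘(ℝ, E) x)]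
  {ρ τ : ℝ → M → M} {h : M → ℝ} {e : OpenPartialHomeomorph M E}

/-- the form `S` is nonnegative at a local minimum of the potential -/
theorem sfun_nonneg_of_min (hρ : IsHolIsomFlow E ρ) (hgrad : IsGradOf (E := E) ρ h)
    (he : e ∈ maximalAtlas 𝓘(ℂ, E) 1 M) {x : M} (hx : x ∈ e.source)
    (hmin : ∀ᶠ y in 𝓝 x, h x ≤ h y) (hv0 : vF ρ e (e x) = 0) (a : E) :
    0 ≤ chartG e (e x) (fderiv ℝ (vF ρ e) (e x) a) a := by
  set z := e x with hz
  have hzt : z ∈ e.target := e.map_source hx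
  set φ : ℝ → ℝ := fun r => h (e.symm (z + r • a)) with hφ
  set ψ : ℝ → ℝ := fun r => chartG e (z + r • a) (vF ρ e (z + r • a)) a with hψ
  have hline : ∀ r : ℝ, HasDerivAt (fun r : ℝ => z + r • a) a r := fun r => by
    simpa using ((hasDerivAt_id r).smul_const a).const_add z
  have hz0 : z + (0:ℝ) • a = z := by simp
  have hev : ∀ᶠ r : ℝ in 𝓝 0, z + r • a ∈ e.target := by
    have h1 : ContinuousAt (fun r : ℝ => z + r • a) 0 := (hline 0).continuousAt
    have h2 : e.target ∈ 𝓝 (z + (0:ℝ) • a) := by rw [hz0]; exact e.open_target.mem_nhds hzt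
    exact h1 h2
  have hφd : ∀ᶠ r : ℝ in 𝓝 0, HasDerivAt φ (ψ r) r := by
    filter_upwards [hev] with r hr
    exact HasFDerivAt.comp_hasDerivAt (f := fun r : ℝ => z + r • a) r (hgrad e he _ hr) (hline r)
  have hψd : HasDerivAt ψ (chartG e z (fderiv ℝ (vF ρ e) z a) a) 0 := by
    have d1 : HasFDerivAt (chartG e) (fderiv ℝ (chartG e) z) (z + (0:ℝ) • a) := by
      rw [hz0]
      exact (((contDiffOn_chartG (mem_maximalAtlas_real he)).contDiffAt
        (e.open_target.mem_nhds hzt)).differentiableAt (by simp)).hasFDerivAt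
    have d2 : HasFDerivAt (vF ρ e) (fderiv ℝ (vF ρ e) z) (z + (0:ℝ) • a) := by
      rw [hz0]
      exact (((differentiableOn_vF hρ he).differentiableAt
        (e.open_target.mem_nhds hzt)).restrictScalars ℝ).hasFDerivAt
    have c1 : HasDerivAt (fun r : ℝ => chartG e (z + r • a)) (fderiv ℝ (chartG e) z a) 0 :=
      HasFDerivAt.comp_hasDerivAt (f := fun r : ℝ => z + r • a) 0 d1 (hline 0)
    have c2 : HasDerivAt (fun r : ℝ => vF ρ e (z + r • a)) (fderiv ℝ (vF ρ e) z a) 0 :=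
      HasFDerivAt.comp_hasDerivAt (f := fun r : ℝ => z + r • a) 0 d2 (hline 0)
    have c3 := (c1.clm_apply c2).clm_apply (hasDerivAt_const (0:ℝ) a)
    refine c3.congr_deriv ?_
    rw [hz0, hv0]
    simp
  have hmin' : ∀ᶠ r : ℝ in 𝓝 0, φ 0 ≤ φ r := by
    have h1 : ContinuousAt (fun r : ℝ => e.symm (z + r • a)) 0 := by
      refine ContinuousAt.comp (f := fun r : ℝ => z + r • a) ?_ (hline 0).continuousAt
      rw [hz0]
      exact e.continuousAt_symm hzt
    have h2 : e.symm (z + (0:ℝ) • a) = x := by rw [hz0, hz, e.left_inv hx]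
    rw [← h2] at hmin
    have h3 := h1.eventually hmin
    filter_upwards [h3] with r hr
    exact hr
  by_contra hneg
  push Not at hneg
  have hdd : deriv (deriv φ) 0 = chartG e z (fderiv ℝ (vF ρ e) z a) a := by
    have h1 : deriv φ =ᶠ[𝓝 0] ψ := by
      filter_upwards [hφd] with r hr using hr.deriv
    rw [h1.deriv_eq, hψd.deriv]
  have hd0 : deriv φ 0 = 0 := by
    rw [hφd.self_of_nhds.deriv, hψ]
    simp only [zero_smul, add_zero, hv0, map_zero, zero_apply]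
  have h4 : IsLocalMin (fun r => -φ r) 0 := by
    refine isLocalMin_of_deriv_deriv_pos ?_ ?_ ?_
    · have e1 : deriv (fun r => -φ r) = fun r => -deriv φ r := by
        funext r
        exact deriv.fun_neg
      rw [e1, deriv.fun_neg, hdd]
      linarith
    · rw [deriv.fun_neg, hd0, neg_zero]
    · exact hφd.self_of_nhds.continuousAt.neg
  have h5 : φ =ᶠ[𝓝 0] fun _ => φ 0 := by
    filter_upwards [hmin', h4] with r h6 h7
    have h8 : -φ 0 ≤ -φ r := h7
    linarith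
  have h6 : deriv (deriv φ) 0 = 0 := by
    have h7 : deriv φ =ᶠ[𝓝 0] fun _ => 0 := by
      have h8 := h5.deriv
      refine h8.trans ?_
      filter_upwards with r
      simp
    rw [h7.deriv_eq]
    simp
  rw [h6] at hdd
  linarith

theorem contMDiff_slice (hρ : IsHolIsomFlow E ρ) (t : ℝ) :
    ContMDiff 𝓘(ℝ, E) 𝓘(ℝ, E) ∞ (ρ t) :=
  hρ.smooth.comp ((contMDiff_const (c := t)).prodMk contMDiff_id)

/-- two commuting flows of holomorphic isometries generate an action of `ℝ × ℝ` -/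
theorem isHolIsomAction_pair (hρ : IsHolIsomFlow E ρ) (hτ : IsHolIsomFlow E τ)
    (hcomm : ∀ s t x, ρ s (τ t x) = τ t (ρ s x)) :
    IsHolIsomAction E (fun (c : ℝ × ℝ) (x : M) => ρ c.1 (τ c.2 x)) where
  zero x := by simp only [Prod.fst_zero, Prod.snd_zero, hρ.zero, hτ.zero]
  add s t x := by
    simp only [Prod.fst_add, Prod.snd_add]
    rw [hρ.add, hτ.add, hcomm t.1 s.2]
  smooth := by
    have h1 : ContMDiff (𝓘(ℝ, ℝ × ℝ).prod 𝓘(ℝ, E)) 𝓘(ℝ, ℝ) ∞
        (fun q : (ℝ × ℝ) × M => q.1.1) :=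
      (contDiff_fst (𝕜 := ℝ) (E := ℝ) (F := ℝ)).contMDiff.comp contMDiff_fst
    have h2 : ContMDiff (𝓘(ℝ, ℝ × ℝ).prod 𝓘(ℝ, E)) 𝓘(ℝ, ℝ) ∞
        (fun q : (ℝ × ℝ) × M => q.1.2) :=
      (contDiff_snd (𝕜 := ℝ) (E := ℝ) (F := ℝ)).contMDiff.comp contMDiff_fst
    have h3 : ContMDiff (𝓘(ℝ, ℝ × ℝ).prod 𝓘(ℝ, E)) 𝓘(ℝ, E) ∞
        (fun q : (ℝ × ℝ) × M => τ q.1.2 q.2) := hτ.smooth.comp (h2.prodMk contMDiff_snd)
    exact hρ.smooth.comp (h1.prodMk h3)
  holo t := (hρ.holo t.1).comp (hτ.holo t.2)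
  isom t x v w := by
    have e1 : mfderiv 𝓘(ℝ, E) 𝓘(ℝ, E) (fun y => ρ t.1 (τ t.2 y)) x =
        (mfderiv 𝓘(ℝ, E) 𝓘(ℝ, E) (ρ t.1) (τ t.2 x)).comp
          (mfderiv 𝓘(ℝ, E) 𝓘(ℝ, E) (τ t.2) x) :=
      mfderiv_comp x (((contMDiff_slice hρ t.1) _).mdifferentiableAt (by simp))
        (((contMDiff_slice hτ t.2) _).mdifferentiableAt (by simp))
    rw [e1]
    simp only [ContinuousLinearMap.comp_apply]
    rw [hρ.isom, hτ.isom]

variable [IsRiemannianManifold 𝓘(ℝ, E) M]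

/-- **A critical curve moved by a commuting flow.** -/
theorem main_line_action (hK : IsKahler E M) [CompleteSpace M] [NoncompactSpace M]
    [ConnectedSpace M] (hpos : ∀ x : M, PosBisectionalAt E x)
    {V : Type*} [NormedAddCommGroup V] [NormedSpace ℝ V] {R : V → M → M}
    (hR : IsHolIsomAction E R) {κ ξ : V} {x : M}
    (hκ : ∀ t, ln R κ t x = x) (hξ : ∃ t, ln R ξ t x ≠ x)
    (hnn : ∀ a, 0 ≤ chartG (chartAt E x) (chartAt E x x)
      (fderiv ℝ (vF (ln R κ) (chartAt E x)) (chartAt E x x) a) a)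
    (hline : ∀ v w : E, (∀ t, (mfderiv 𝓘(ℂ, E) 𝓘(ℂ, E) (ln R κ t) x : E → E) v = v) →
      (∀ t, (mfderiv 𝓘(ℂ, E) 𝓘(ℂ, E) (ln R κ t) x : E → E) w = w) → v ≠ 0 →
      ∃ c : ℂ, w = c • v) :
    ∃ s c : ℝ, (s = 1 ∨ s = -1) ∧ 0 < c ∧
      ∃ (p : M) (b : Basis (Fin (finrank ℂ E)) ℂ E) (m : Fin (finrank ℂ E) → ℝ)
        (F : M ≃ₘ^1⟮𝓘(ℂ, E), 𝓘(ℂ, E)⟯ E), HasWeights (ln R (c • κ + s • ξ)) p b m ∧
        IsLinearization (ln R (c • κ + s • ξ)) p F := by
  have he : chartAt E x ∈ maximalAtlas 𝓘(ℂ, E) 1 M := chart_mem_maximalAtlas x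
  set e := chartAt E x with hed
  have hx : x ∈ e.source := mem_chart_source E x
  have hz : e x ∈ e.target := e.map_source hx
  have hLK := localKahler_chartG hK he
  have hL := commFam_vL hR he
  have hev : ∀ η : V, (fun z => vL R e z η) =ᶠ[𝓝 (e x)] vF (ln R η) e := fun η => by
    filter_upwards [e.open_target.mem_nhds hz] with z hz using vL_apply hR he hz η
  have hκ0 : vL R e (e x) κ = 0 := (mem_kerAt hR he hx).1 (mem_kerAt_of_fixed hR hκ)
  have hξ0 : vL R e (e x) ξ ≠ 0 := by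
    intro h0
    obtain ⟨t, ht⟩ := hξ
    exact ht (fixed_of_mem_kerAt hR ((mem_kerAt hR he hx).2 h0) t)
  have hfix : ∀ a, fderiv ℝ (fun z => vL R e z κ) (e x) a = 0 →
      ∀ t, (mfderiv 𝓘(ℂ, E) 𝓘(ℂ, E) (ln R κ t) x : E → E) a = a := by
    intro a ha t
    rw [(hev κ).fderiv_eq] at ha
    rw [mfderiv_eq_TF (hR.line κ) hκ, TF_eigen (hR.line κ) he hx hκ (r := 0)
      (by rw [ha, zero_smul])]
    simp only [ofReal_zero, mul_zero, zero_mul, exp_zero]
    exact one_smul ℂ a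
  have hAW : fderiv ℝ (fun z => vL R e z κ) (e x) (vL R e (e x) ξ) = 0 := by
    rw [← hL.Nop_vanish hLK hz hκ0]
    exact hL.Nop_vanish_field hLK hz hκ0 ξ
  obtain ⟨s, c, hs, hc, hS⟩ := exists_comb hLK hL hz hκ0 (fun a => by
      rw [hL.Sfun_eq hLK hz, hL.Nop_vanish hLK hz hκ0, (hev κ).fderiv_eq]
      exact hnn a)
    (fun a ha => hline _ _ (hfix _ hAW) (hfix a ha) hξ0) hξ0
  refine ⟨s, c, hs, hc, ?_⟩
  have hmov : ∃ t, ln R (c • κ + s • ξ) t x ≠ x := by
    by_contra hcon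
    push Not at hcon
    have h1 := (mem_kerAt hR he hx).1 (mem_kerAt_of_fixed hR hcon)
    rw [map_add, map_smul, map_smul, hκ0, smul_zero, zero_add] at h1
    rcases smul_eq_zero.1 h1 with h2 | h2
    · rcases hs with h3 | h3 <;> rw [h3] at h2 <;> norm_num at h2
    · exact hξ0 h2
  have hSn : SNonnegAt E (ln R (c • κ + s • ξ)) x := by
    rw [sNonnegAt_iff hK (hR.line _)]
    refine botGE_of_chart (hR.line _) he hx fun a => ?_
    rw [zero_mul]
    have h1 := hS a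
    have h2 : Sfun (chartG e) (fun z => vL R e z (c • κ + s • ξ)) (e x) a =
        Sfun (chartG e) (vF (ln R (c • κ + s • ξ)) e) (e x) a := by
      rw [Sfun, Sfun, (hev (c • κ + s • ξ)).fderiv_eq, (hev (c • κ + s • ξ)).eq_of_nhds]
    rwa [h2] at h1
  obtain ⟨p, b, m, -, hw, hF⟩ := main_isom hK (fun x => (hpos x).nonneg) (hR.line (c • κ + s • ξ))
    (Or.inr (Or.inl ⟨x, hpos x, hmov, hSn⟩))
  obtain ⟨-, F, hF'⟩ := hF (Or.inl (hpos p))
  exact ⟨p, b, m, F, hw, hF'⟩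

/-- **A critical curve moved by a commuting flow.** -/
theorem main_line (hK : IsKahler E M) [CompleteSpace M] [NoncompactSpace M]
    [ConnectedSpace M] (hpos : ∀ x : M, PosBisectionalAt E x)
    (hh : ContMDiff 𝓘(ℝ, E) 𝓘(ℝ, ℝ) ∞ h) (hρ : IsJGradFlow E h ρ) {x : M}
    (hmin : IsLocalMin h x) (hτ : IsHolIsomFlow E τ)
    (hcomm : ∀ s t x, ρ s (τ t x) = τ t (ρ s x)) (hmov : ∃ t, τ t x ≠ x)
    (hline : ∀ v w : E, (∀ t, (mfderiv 𝓘(ℂ, E) 𝓘(ℂ, E) (ρ t) x : E → E) v = v) →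
      (∀ t, (mfderiv 𝓘(ℂ, E) 𝓘(ℂ, E) (ρ t) x : E → E) w = w) → v ≠ 0 →
      ∃ c : ℂ, w = c • v) :
    ∃ s c : ℝ, (s = 1 ∨ s = -1) ∧ 0 < c ∧
      ∃ (p : M) (b : Basis (Fin (finrank ℂ E)) ℂ E) (m : Fin (finrank ℂ E) → ℝ)
        (F : M ≃ₘ^1⟮𝓘(ℂ, E), 𝓘(ℂ, E)⟯ E),
        HasWeights (fun t x => ρ (c * t) (τ (s * t) x)) p b m ∧
        IsLinearization (fun t x => ρ (c * t) (τ (s * t) x)) p F := by
  have hR := isHolIsomAction_pair hρ.1 hτ hcomm
  have hgrad := isGradOf_flow hK hh hρ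
  have hfix : ∀ t, ρ t x = x := fixed_of_min hρ.1 hgrad hmin
  have e1 : ln (fun (c : ℝ × ℝ) (x : M) => ρ c.1 (τ c.2 x)) (1, 0) = ρ := by
    funext t y
    simp [ln, hτ.zero]
  have e2 : ln (fun (c : ℝ × ℝ) (x : M) => ρ c.1 (τ c.2 x)) (0, 1) = τ := by
    funext t y
    simp [ln, hρ.1.zero]
  have hx := mem_chart_source E x
  have he : chartAt E x ∈ maximalAtlas 𝓘(ℂ, E) 1 M := chart_mem_maximalAtlas x
  have hv0 : vF ρ (chartAt E x) (chartAt E x x) = 0 :=
    (nW_eq_zero hρ.1 he hx).1 (nW_fixed hρ.1 hfix)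
  obtain ⟨s, c, hs, hc, p, b, m, F, h1, h2⟩ := main_line_action hK hpos hR (κ := ((1:ℝ), (0:ℝ)))
    (ξ := ((0:ℝ), (1:ℝ))) (x := x) (by rw [e1]; exact hfix) (by rw [e2]; exact hmov)
    (fun a => by rw [e1]; exact sfun_nonneg_of_min hρ.1 hgrad he hx hmin hv0 a)
    (fun v w => by rw [e1]; exact hline v w)
  have e3 : ln (fun (c : ℝ × ℝ) (x : M) => ρ c.1 (τ c.2 x))
      (c • ((1:ℝ), (0:ℝ)) + s • ((0:ℝ), (1:ℝ))) = fun t x => ρ (c * t) (τ (s * t) x) := by
    funext t y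
    simp [ln, mul_comm]
  rw [e3] at h1 h2
  exact ⟨s, c, hs, hc, p, b, m, F, h1, h2⟩

variable {x₀ : M}

/-- the same, at a critical point of a potential with a local minimum or a sublinear lower bound -/
theorem main_line_crit (hK : IsKahler E M) [CompleteSpace M] [NoncompactSpace M]
    [ConnectedSpace M] (hpos : ∀ x : M, PosBisectionalAt E x)
    (hh : ContMDiff 𝓘(ℝ, E) 𝓘(ℝ, ℝ) ∞ h) (hρ : IsJGradFlow E h ρ)
    (hlow : (∃ p, IsLocalMin h p) ∨ ∀ ε > 0, ∃ C, ∀ x, -(ε * dist x₀ x) - C ≤ h x)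
    (hτ : IsHolIsomFlow E τ) (hcomm : ∀ s t x, ρ s (τ t x) = τ t (ρ s x)) {x : M}
    (hx : mfderiv 𝓘(ℝ, E) 𝓘(ℝ, ℝ) h x = 0) (hmov : ∃ t, τ t x ≠ x)
    (hline : ∀ v w : E, (∀ t, (mfderiv 𝓘(ℂ, E) 𝓘(ℂ, E) (ρ t) x : E → E) v = v) →
      (∀ t, (mfderiv 𝓘(ℂ, E) 𝓘(ℂ, E) (ρ t) x : E → E) w = w) → v ≠ 0 →
      ∃ c : ℂ, w = c • v) :
    ∃ s c : ℝ, (s = 1 ∨ s = -1) ∧ 0 < c ∧
      ∃ (p : M) (b : Basis (Fin (finrank ℂ E)) ℂ E) (m : Fin (finrank ℂ E) → ℝ)
        (F : M ≃ₘ^1⟮𝓘(ℂ, E), 𝓘(ℂ, E)⟯ E),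
        HasWeights (fun t x => ρ (c * t) (τ (s * t) x)) p b m ∧
        IsLinearization (fun t x => ρ (c * t) (τ (s * t) x)) p F := by
  obtain ⟨⟨P, -, -, hcrit, hmin, -⟩, -, -⟩ := main_final hK hpos hh hρ (x₀ := x₀) hlow
  have h1 : ∀ y, h x ≤ h y := (hmin x).1 ((hcrit x).1 hx)
  exact main_line hK hpos hh hρ (Filter.Eventually.of_forall h1) hτ hcomm hmov hline

end Vale.Agent.P253.H348
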