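import Vale.Agent.P253.H348.Tube

/-!
P253: a Killing potential with a local minimum (positive bisectional curvature): all backward
orbits converge.
-/

open scoped Manifold ContDiff Topology Bundle
open Set Metric Complex Filter Bundle IsManifold Manifold Module Vale.Agent.P253.Mfd
  Vale.Agent.P253.H577 Vale.Agent.P253.H22 Vale.Agent.P253.H202

set_option maxSynthPendingDepth 3
set_option linter.unusedSectionVars false

noncomputable section

namespace Vale.Agent.P253.H348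

variable {E : Type*} [NormedAddCommGroup E] [NormedSpace ℂ E] [FiniteDimensional ℂ E]
  {M : Type*} [MetricSpace M] [ChartedSpace E M]
  [IsManifold 𝓘(ℂ, E) 1 M] [IsManifold 𝓘(ℝ, E) ∞ M]
  [RiemannianBundle (fun x : M => TangentSpace 𝓘(ℝ, E) x)]
  [IsContMDiffRiemannianBundle 𝓘(ℝ, E) ∞ E (fun x : M => TangentSpace 𝓘(ℝ, E) x)]
  [IsRiemannianManifold 𝓘(ℝ, E) M]
  {ρ Φ : ℝ → M → M} {e e' : OpenPartialHomeomorph M E} {γ : ℝ → M} {h : M → ℝ} {x₀ : M}
  {ι : Type*} [Fintype ι] {φ : E ≃L[ℂ] (ι → ℂ)} {m : ι → ℝ}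

/-- a backward orbit along which the potential is bounded below converges -/
theorem lim_back_of_lower (hK : IsKahler E M) (hnn : ∀ x : M, NonnegBisectionalAt E x)
    (hρ : IsHolIsomFlow E ρ) [CompleteSpace M] (hgrad : IsGradOf (E := E) ρ h)
    (hγ : IsMIntegralCurve (I := 𝓘(ℝ, E)) γ (W ρ)) {c : ℝ} (hc : ∀ t, t ≤ 0 → c ≤ h (γ t)) :
    ∃ p, (∀ t, ρ t p = p) ∧ Tendsto γ atBot (𝓝 p) := by
  have hσ : IsHolIsomFlow E (fun t => ρ (-t)) := hρ.rev
  have hγ' := rev_curve (E := E) hγ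
  have hg' := IsGradOf.rev (E := E) hgrad
  have hcase : (∃ C s, 0 < s ∧ ∀ t, 0 ≤ t →
        nW (E := E) (fun t => ρ (-t)) (γ (-t)) ≤ C * Real.exp (-s * t)) ∨
      (∃ b > 0, ∀ t, 0 ≤ t → b ≤ nW (E := E) (fun t => ρ (-t)) (γ (-t))) := by
    rcases (nW_nonneg (E := E) hσ (γ (-0))).eq_or_lt with h0 | h0
    · left
      refine ⟨0, 1, one_pos, fun t ht => ?_⟩
      obtain ⟨Λ, -, hΛ⟩ := exists_TopLE (E := E) hσ hK (γ (-0))
      have h1 := speed_bound hK hnn hσ (hγ'.isMIntegralCurveOn (Ioo (-1) (t + 1))) ht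
        ⟨by norm_num, by linarith⟩ ⟨by linarith, by linarith⟩ hΛ
      rw [← h0, mul_zero] at h1
      rw [zero_mul]
      exact h1
    · exact speed_dichotomy hK hnn hσ hγ' h0
  rcases hcase with ⟨C, s, hs, hdec⟩ | ⟨b, hb, hlow⟩
  · obtain ⟨p, hfix, hp, -⟩ := exists_lim_of_decay hσ hγ' hs hdec
    refine ⟨p, fun t => ?_, ?_⟩
    · have h1 := hfix (-t)
      rwa [neg_neg] at h1
    · have h1 := hp.comp tendsto_neg_atBot_atTop
      refine h1.congr fun t => ?_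
      simp
  · exfalso
    have key : ∀ t : ℝ, 0 ≤ t → b * t ≤ h (γ (-0)) - c := by
      intro t ht
      have h6 := drop_time hσ hg' hγ' hlow ht
      have h7 := hc (-t) (by linarith)
      linarith only [h6, h7]
    have h1 := key ((|h (γ (-0)) - c| + 1) / b) (by positivity)
    rw [mul_div_cancel₀ _ hb.ne'] at h1
    linarith [le_abs_self (h (γ (-0)) - c)]

/-- the flow in a linearizing chart, on a closed interval -/
theorem local_seg (hρ : IsHolIsomFlow E ρ) (hF : IsFlow E ρ Φ)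
    {e₀ : OpenPartialHomeomorph M E} (he₀ : e₀ ∈ maximalAtlas 𝓘(ℂ, E) 1 M) {δ : ℝ}
    (htgt : e₀.target = {z | ‖φ z‖ < δ})
    (hequiv : ∀ θ : ℝ, ∀ x ∈ e₀.source, ρ θ x ∈ e₀.source ∧ e₀ (ρ θ x) = LE φ m (θ * I) (e₀ x))
    {y : M} (hy : y ∈ e₀.source) {a b : ℝ} (ha : a ≤ 0) (hb : 0 ≤ b)
    (hz : ∀ s : ℝ, a ≤ s → s ≤ b → ‖φ (LE φ m (s : ℂ) (e₀ y))‖ < δ) :
    ∀ s : ℝ, a ≤ s → s ≤ b → Φ s y = e₀.symm (LE φ m (s : ℂ) (e₀ y)) := by
  intro s has hsb
  set z := e₀ y with hzd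
  have hc : Continuous (fun s : ℝ => LE φ m (s : ℂ) z) :=
    continuous_LE.comp (continuous_ofReal.prodMk continuous_const)
  have hopen : IsOpen {s : ℝ | LE φ m (s : ℂ) z ∈ e₀.target} := e₀.open_target.preimage hc
  have hmem : ∀ s ∈ Icc a b, LE φ m (s : ℂ) z ∈ e₀.target := by
    intro s hs
    rw [htgt]
    exact hz s hs.1 hs.2
  obtain ⟨ε₁, hε₁, h1⟩ := Metric.isOpen_iff.1 hopen b (hmem b ⟨ha.trans hb, le_rfl⟩)
  obtain ⟨ε₂, hε₂, h2⟩ := Metric.isOpen_iff.1 hopen a (hmem a ⟨le_rfl, ha.trans hb⟩)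
  have h3 := flow_chart hρ hF he₀ hequiv (z := z) (a := a - ε₂) (b := b + ε₁)
    ⟨by linarith, by linarith⟩ (fun s hs => by
      by_cases hs0 : b < s
      · refine h1 ?_
        rw [mem_ball, Real.dist_eq, abs_of_pos (by linarith)]
        linarith [hs.2]
      · by_cases hsT : s < a
        · refine h2 ?_
          rw [mem_ball, Real.dist_eq, abs_of_neg (by linarith)]
          linarith [hs.1]
        · exact hmem s ⟨not_lt.1 hsT, not_lt.1 hs0⟩) s ⟨by linarith, by linarith⟩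
  rwa [hzd, e₀.left_inv hy] at h3

/-- near a fixed point with nonnegative weights all backward orbits converge to fixed points with
the same value of the potential -/
theorem near_of_nonneg (hρ : IsHolIsomFlow E ρ) (hgrad : IsGradOf (E := E) ρ h)
    (hF : IsFlow E ρ Φ) {p : M} (hfix : ∀ t, ρ t p = p)
    {b : Basis (Fin (finrank ℂ E)) ℂ E} {m : Fin (finrank ℂ E) → ℝ}
    (hw : ∀ (t : ℝ) j, mfderiv 𝓘(ℂ, E) 𝓘(ℂ, E) (ρ t) p (b j) = exp (t * m j * I) • b j)
    (hm : ∀ j, 0 ≤ m j) :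
    ∀ᶠ y in 𝓝 p, ∃ q, (∀ t, ρ t q = q) ∧ h q = h p ∧ Tendsto (fun t => Φ t y) atBot (𝓝 q) := by
  set φ : E ≃L[ℂ] (Fin (finrank ℂ E) → ℂ) := b.equivFun.toContinuousLinearEquiv with hφ
  have hw' := Vale.Agent.P253.U165.weights_LE hw
  obtain ⟨e₀, he₀, δ, hδ, hpe, hep, htgt, hequiv⟩ := exists_linearizing_chart hρ hfix φ m hw'
  have hsy0 : e₀.symm 0 = p := by rw [← hep, e₀.left_inv hpe]
  filter_upwards [e₀.open_source.mem_nhds hpe] with y hy
  have hzt : e₀ y ∈ e₀.target := e₀.map_source hy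
  have hzn : ‖φ (e₀ y)‖ < δ := by rw [htgt] at hzt; exact hzt
  have hback : ∀ t : ℝ, t ≤ 0 → Φ t y = e₀.symm (LE φ m (t : ℂ) (e₀ y)) := fun t ht =>
    local_seg hρ hF he₀ htgt hequiv hy ht le_rfl
      (fun s _ hs => (norm_LE_back hm hs _).trans_lt hzn) t le_rfl ht
  set w : E := zeroProjL φ m (e₀ y) with hwd
  have hwtgt : ∀ r : ℝ, |r| ≤ 1 → r • w ∈ e₀.target := by
    intro r hr
    rw [htgt]
    have h1 : ‖φ (r • w)‖ = |r| * ‖φ w‖ := by
      rw [← Complex.coe_smul, map_smul, norm_smul, norm_real, Real.norm_eq_abs]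
    change ‖φ (r • w)‖ < δ
    rw [h1]
    calc |r| * ‖φ w‖ ≤ 1 * ‖φ w‖ := mul_le_mul_of_nonneg_right hr (norm_nonneg _)
      _ = ‖φ w‖ := one_mul _
      _ ≤ ‖φ (e₀ y)‖ := norm_zeroProjL_le _
      _ < δ := hzn
  have hwt1 : w ∈ e₀.target := by
    have := hwtgt 1 (by simp)
    rwa [one_smul] at this
  have hAE : ∀ r : ℝ, AE φ m (r • w) = 0 := by
    intro r
    apply ext_coord (φ := φ)
    intro j
    rw [AE_coord, ← Complex.coe_smul, map_smul, Pi.smul_apply, hwd, zeroProjL_coord, map_zero]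
    split_ifs with hj
    · rw [hj]; simp
    · simp
  have hder : ∀ r ∈ Icc (0:ℝ) 1, HasDerivAt (fun r : ℝ => h (e₀.symm (r • w))) 0 r := by
    intro r hr
    have h1 := hgrad e₀ he₀ (r • w) (hwtgt r (by rw [abs_of_nonneg hr.1]; exact hr.2))
    rw [vF_linear hρ hequiv (hwtgt r (by rw [abs_of_nonneg hr.1]; exact hr.2)), hAE,
      map_zero] at h1
    have h2 : HasDerivAt (fun r : ℝ => r • w) w r := by
      simpa using (hasDerivAt_id r).smul_const w
    exact HasFDerivAt.comp_hasDerivAt (f := fun r : ℝ => r • w) r h1 h2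
  have h1 := constant_of_has_deriv_right_zero (a := (0:ℝ)) (b := 1)
    (f := fun r : ℝ => h (e₀.symm (r • w)))
    (fun s hs => (hder s hs).continuousAt.continuousWithinAt)
    (fun s hs => (hder s (Ico_subset_Icc_self hs)).hasDerivWithinAt) 1
    (right_mem_Icc.2 zero_le_one)
  simp only [one_smul, zero_smul] at h1
  refine ⟨e₀.symm w, ?_, by rw [h1, hsy0], ?_⟩
  · refine fixed_of_zero hρ he₀ (e₀.map_target hwt1) ?_
    rw [e₀.right_inv hwt1, vF_linear hρ hequiv hwt1]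
    have := hAE 1
    rwa [one_smul] at this
  · refine ((e₀.continuousAt_symm hwt1).tendsto.comp
      (tendsto_LE_zeroProjL hm (e₀ y))).congr' ?_
    filter_upwards [eventually_le_atBot 0] with t ht
    simp only [Function.comp_apply]
    rw [hback t ht]

/-- the weights at a local minimum are nonnegative -/
theorem weights_nonneg_of_localMin (hρ : IsHolIsomFlow E ρ) (hgrad : IsGradOf (E := E) ρ h)
    {p : M} (hmin : ∀ᶠ y in 𝓝 p, h p ≤ h y) {b : Basis (Fin (finrank ℂ E)) ℂ E}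
    {m : Fin (finrank ℂ E) → ℝ}
    (hw : ∀ (t : ℝ) j, mfderiv 𝓘(ℂ, E) 𝓘(ℂ, E) (ρ t) p (b j) = exp (t * m j * I) • b j)
    (j : Fin (finrank ℂ E)) : 0 ≤ m j := by
  by_contra hneg
  push Not at hneg
  have hfix : ∀ t, ρ t p = p := fixed_of_min hρ hgrad hmin
  set φ : E ≃L[ℂ] (Fin (finrank ℂ E) → ℂ) := b.equivFun.toContinuousLinearEquiv with hφ
  have hw' := Vale.Agent.P253.U165.weights_LE hw
  obtain ⟨e₀, he₀, δ, hδ, hpe, hep, htgt, hequiv⟩ := exists_linearizing_chart hρ hfix φ m hw'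
  have her₀ := mem_maximalAtlas_real he₀
  have hvlin : ∀ z ∈ e₀.target, vF ρ e₀ z = AE φ m z := fun z hz => vF_linear hρ hequiv hz
  have hφa : φ (b j) = Pi.single j 1 := by
    rw [hφ]
    change b.equivFun (b j) = Pi.single j 1
    funext i
    rw [Basis.equivFun_self, Pi.single_apply]
    simp only [eq_comm]
  have hane : b j ≠ 0 := b.ne_zero j
  have h0t : (0 : E) ∈ e₀.target := by rw [← hep]; exact e₀.map_source hpe
  have hsy0 : e₀.symm 0 = p := by rw [← hep, e₀.left_inv hpe]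
  have hAE : ∀ w : ℂ, AE φ m (w • b j) = (w * m j) • b j := by
    intro w
    apply ext_coord (φ := φ)
    intro i
    rw [AE_coord, map_smul, map_smul, hφa]
    simp only [Pi.smul_apply, smul_eq_mul, Pi.single_apply]
    split_ifs with hij
    · rw [hij]; ring
    · simp
  have hsmall : ∀ᶠ w : ℂ in 𝓝 0, w • b j ∈ e₀.target ∧ h p ≤ h (e₀.symm (w • b j)) := by
    have h1 : ContinuousAt (fun w : ℂ => w • b j) 0 := by fun_prop
    have h2 : Tendsto (fun w : ℂ => w • b j) (𝓝 0) (𝓝 0) := by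
      have := h1.tendsto
      simpa using this
    have h3 : Tendsto e₀.symm (𝓝 0) (𝓝 p) := by
      have := (e₀.continuousAt_symm h0t).tendsto
      rwa [hsy0] at this
    exact (h2.eventually (e₀.open_target.mem_nhds h0t)).and ((h3.comp h2).eventually hmin)
  obtain ⟨r, hr, hball⟩ := Metric.eventually_nhds_iff_ball.1 hsmall
  set w : ℂ := ((r / 2 : ℝ) : ℂ) with hwdef
  have hwb : w ∈ ball (0:ℂ) r := by
    rw [mem_ball_zero_iff, hwdef, norm_real, Real.norm_of_nonneg (by linarith)]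
    linarith
  have hsw : ∀ s ∈ Icc (0:ℝ) 1, (s : ℂ) * w ∈ ball (0:ℂ) r := by
    intro s hs
    rw [mem_ball_zero_iff] at hwb ⊢
    rw [norm_mul, norm_real, Real.norm_of_nonneg hs.1]
    nlinarith [hs.2, norm_nonneg w]
  have hder : ∀ s ∈ Icc (0:ℝ) 1,
      HasDerivAt (fun s : ℝ => h (e₀.symm (((s : ℂ) * w) • b j)))
        (chartG e₀ (((s : ℂ) * w) • b j) (((s : ℂ) * w * m j) • b j) (w • b j)) s := by
    intro s hs
    have h1 := hgrad e₀ he₀ _ (hball _ (hsw s hs)).1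
    rw [hvlin _ (hball _ (hsw s hs)).1, hAE] at h1
    have h2 : HasDerivAt (fun s : ℝ => ((s : ℂ) * w) • b j) (w • b j) s := by
      have h3 : HasDerivAt (fun s : ℝ => (s : ℂ) * w) w s := by
        simpa using ((hasDerivAt_id s).ofReal_comp).mul_const w
      exact h3.smul_const (b j)
    exact HasFDerivAt.comp_hasDerivAt (f := fun s : ℝ => ((s : ℂ) * w) • b j) s h1 h2
  have hanti : StrictAntiOn (fun s : ℝ => h (e₀.symm (((s : ℂ) * w) • b j))) (Icc (0:ℝ) 1) := by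
    apply strictAntiOn_of_deriv_neg (convex_Icc 0 1)
    · exact fun s hs => (hder s hs).continuousAt.continuousWithinAt
    · intro s hs
      rw [interior_Icc] at hs
      have hs' : s ∈ Icc (0:ℝ) 1 := Ioo_subset_Icc_self hs
      rw [(hder s hs').deriv]
      have h1 : ((s : ℂ) * w * m j) • b j = (s * m j) • (w • b j) := by
        rw [← Complex.coe_smul, smul_smul]
        congr 1
        push_cast
        ring
      have h4 := map_smul (chartG e₀ (((s : ℂ) * w) • b j)) (s * m j) (w • b j)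
      rw [h1, h4, smul_apply, smul_eq_mul]
      have h2 : w • b j ≠ 0 := by
        apply smul_ne_zero _ hane
        rw [hwdef]
        exact_mod_cast (by linarith : (r / 2 : ℝ) ≠ 0)
      have h3 := chartG_pos her₀ (hball _ (hsw s hs')).1 _ h2
      exact mul_neg_of_neg_of_pos (mul_neg_of_pos_of_neg hs.1 hneg) h3
  have h1 := hanti (left_mem_Icc.2 zero_le_one) (right_mem_Icc.2 zero_le_one) one_pos
  simp only [ofReal_one, one_mul, ofReal_zero, zero_mul, zero_smul] at h1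
  rw [hsy0] at h1
  exact absurd (hball w hwb).2 (not_le.2 h1)

/-- the part of the negative weights -/
def negPart (φ : E ≃L[ℂ] (ι → ℂ)) (m : ι → ℝ) (z : E) : ι → ℂ := fun i => if m i < 0 then φ z i else 0

theorem continuous_negPart : Continuous (negPart φ m) := by
  refine continuous_pi fun i => ?_
  by_cases hi : m i < 0
  · simp only [negPart, if_pos hi]
    exact (continuous_apply i).comp φ.continuous
  · simp only [negPart, if_neg hi]
    exact continuous_const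

theorem norm_negPart_le (z : E) : ‖negPart φ m z‖ ≤ ‖φ z‖ := by
  rw [pi_norm_le_iff_of_nonneg (norm_nonneg _)]
  intro i
  simp only [negPart]
  split_ifs
  · exact norm_le_pi_norm (φ z) i
  · rw [norm_zero]; exact norm_nonneg _

/-- running backwards until the negative part has a given size -/
theorem exists_exit {r : ℝ} {z : E} (hz : ‖φ z‖ < r) {j : ι} (hj : m j < 0) (hzj : φ z j ≠ 0) :
    ∃ t : ℝ, 0 ≤ t ∧ ‖negPart φ m (LE φ m ((-t : ℝ) : ℂ) z)‖ = r ∧
      (∀ s : ℝ, -t ≤ s → s ≤ 0 → ‖φ (LE φ m (s : ℂ) z)‖ ≤ r) ∧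
      ∀ i, 0 ≤ m i → ‖φ (LE φ m ((-t : ℝ) : ℂ) z) i‖ ≤ ‖φ z‖ := by
  have hr : 0 < r := (norm_nonneg _).trans_lt hz
  have hzj' : 0 < ‖φ z j‖ := norm_pos_iff.2 hzj
  set g : ℝ → ℝ := fun t => ‖negPart φ m (LE φ m ((-t : ℝ) : ℂ) z)‖ with hg
  have hgc : Continuous g := by
    have h1 : Continuous (fun t : ℝ => LE φ m ((-t : ℝ) : ℂ) z) :=
      continuous_LE.comp ((continuous_ofReal.comp continuous_neg).prodMk continuous_const)
    exact (continuous_negPart.comp h1).norm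
  have hcoord : ∀ (s : ℝ) i, ‖φ (LE φ m (s : ℂ) z) i‖ = Real.exp (s * m i) * ‖φ z i‖ := by
    intro s i
    rw [LE_coord, norm_mul, norm_exp_mul]
  have hg0 : g 0 < r := by
    simp only [hg, neg_zero, ofReal_zero, LE_zero]
    exact (norm_negPart_le z).trans_lt hz
  set T : ℝ := r / ‖φ z j‖ / (-m j) with hT
  have hT0 : 0 ≤ T := by
    have : 0 < -m j := by linarith
    positivity
  have hgT : r ≤ g T := by
    have h1 : ‖φ (LE φ m ((-T : ℝ) : ℂ) z) j‖ ≤ g T := by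
      have h2 := norm_le_pi_norm (negPart φ m (LE φ m ((-T : ℝ) : ℂ) z)) j
      simp only [negPart, if_pos hj] at h2
      exact h2
    rw [hcoord] at h1
    have h3 : -T * m j = r / ‖φ z j‖ := by
      rw [hT]
      have : -m j ≠ 0 := by linarith
      rw [neg_mul, ← mul_neg, div_mul_cancel₀ _ this]
    rw [h3] at h1
    have h4 := Real.add_one_le_exp (r / ‖φ z j‖)
    have h5 : r / ‖φ z j‖ * ‖φ z j‖ = r := div_mul_cancel₀ _ hzj'.ne'
    nlinarith
  obtain ⟨t, ⟨ht0, -⟩, htr⟩ := intermediate_value_Icc hT0 hgc.continuousOn ⟨hg0.le, hgT⟩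
  refine ⟨t, ht0, htr, fun s hs1 hs2 => ?_, fun i hi => ?_⟩
  · rw [pi_norm_le_iff_of_nonneg hr.le]
    intro i
    rw [hcoord]
    by_cases hi : m i < 0
    · have h1 : ‖φ (LE φ m ((-t : ℝ) : ℂ) z) i‖ ≤ g t := by
        have h2 := norm_le_pi_norm (negPart φ m (LE φ m ((-t : ℝ) : ℂ) z)) i
        simp only [negPart, if_pos hi] at h2
        exact h2
      rw [hcoord, htr] at h1
      refine le_trans (mul_le_mul_of_nonneg_right (Real.exp_le_exp.2 ?_) (norm_nonneg _)) h1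
      nlinarith
    · push Not at hi
      have h1 : Real.exp (s * m i) ≤ 1 := by
        rw [Real.exp_le_one_iff]
        exact mul_nonpos_of_nonpos_of_nonneg hs2 hi
      have h2 := norm_le_pi_norm (φ z) i
      calc Real.exp (s * m i) * ‖φ z i‖ ≤ 1 * ‖φ z i‖ :=
            mul_le_mul_of_nonneg_right h1 (norm_nonneg _)
        _ ≤ r := by linarith
  · rw [hcoord]
    have h1 : Real.exp (-t * m i) ≤ 1 := by
      rw [Real.exp_le_one_iff]
      exact mul_nonpos_of_nonpos_of_nonneg (by linarith) hi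
    have h2 := norm_le_pi_norm (φ z) i
    calc Real.exp (-t * m i) * ‖φ z i‖ ≤ 1 * ‖φ z i‖ :=
          mul_le_mul_of_nonneg_right h1 (norm_nonneg _)
      _ ≤ ‖φ z‖ := by linarith

/-- a vector without part in the nonnegative weights is contracted -/
theorem norm_LE_fwd {w : E} (hw : ∀ i, 0 ≤ m i → φ w i = 0) {s : ℝ} (hs : 0 ≤ s) :
    ‖φ (LE φ m (s : ℂ) w)‖ ≤ ‖φ w‖ := by
  rw [pi_norm_le_iff_of_nonneg (norm_nonneg _)]
  intro i
  rw [LE_coord, norm_mul, norm_exp_mul]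
  by_cases hi : m i < 0
  · have h1 : Real.exp (s * m i) ≤ 1 := by
      rw [Real.exp_le_one_iff]
      exact mul_nonpos_of_nonneg_of_nonpos hs hi.le
    have h2 := norm_le_pi_norm (φ w) i
    calc Real.exp (s * m i) * ‖φ w i‖ ≤ 1 * ‖φ w i‖ :=
          mul_le_mul_of_nonneg_right h1 (norm_nonneg _)
      _ ≤ ‖φ w‖ := by linarith
  · rw [hw i (not_lt.1 hi), norm_zero, mul_zero]
    exact norm_nonneg _

theorem tendsto_LE_fwd {w : E} (hw : ∀ i, 0 ≤ m i → φ w i = 0) :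
    Tendsto (fun t : ℝ => LE φ m (t : ℂ) w) atTop (𝓝 0) := by
  have h1 : ∀ t : ℝ, LE φ m (t : ℂ) w = φ.symm fun j => exp ((t : ℂ) * m j) * φ w j := by
    intro t
    apply ext_coord (φ := φ)
    intro j
    rw [LE_coord, φ.apply_symm_apply]
  have h0 : (0 : E) = φ.symm fun _ => 0 := by
    have : (fun _ => 0 : ι → ℂ) = 0 := rfl
    rw [this, map_zero]
  rw [h0]
  simp only [h1]
  refine (φ.symm.continuous.tendsto _).comp (tendsto_pi_nhds.2 fun j => ?_)
  by_cases hj : m j < 0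
  · have h2 : Tendsto (fun t : ℝ => exp ((t : ℂ) * m j)) atTop (𝓝 0) := by
      rw [tendsto_zero_iff_norm_tendsto_zero]
      simp only [norm_exp_mul]
      exact Real.tendsto_exp_atBot.comp (tendsto_id.atTop_mul_const_of_neg hj)
    have h3 := h2.mul_const (φ w j)
    rwa [zero_mul] at h3
  · rw [hw j (not_lt.1 hj)]
    simp only [mul_zero]
    exact tendsto_const_nhds

/-- **no negative weights in the closure** of an invariant open set whose points (and boundary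
points) have convergent backward orbits -/
theorem weights_nonneg_of_closure (hK : IsKahler E M) [CompleteSpace M] [NoncompactSpace M]
    (hnn : ∀ x : M, NonnegBisectionalAt E x) (hpos : ∀ x : M, PosBisectionalAt E x)
    (hρ : IsHolIsomFlow E ρ) (hF : IsFlow E ρ Φ) {Ω : Set M} (hΩo : IsOpen Ω)
    (hΩinv : ∀ T x, x ∈ Ω → Φ T x ∈ Ω)
    (hcl : ∀ x ∈ closure Ω, ∃ q, (∀ t, ρ t q = q) ∧ Tendsto (fun t => Φ t x) atBot (𝓝 q))
    {p : M} (hfix : ∀ t, ρ t p = p) (hp : p ∈ closure Ω)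
    {b : Basis (Fin (finrank ℂ E)) ℂ E} {m : Fin (finrank ℂ E) → ℝ}
    (hw : ∀ (t : ℝ) j, mfderiv 𝓘(ℂ, E) 𝓘(ℂ, E) (ρ t) p (b j) = exp (t * m j * I) • b j)
    (j : Fin (finrank ℂ E)) : 0 ≤ m j := by
  by_contra hneg
  push Not at hneg
  set φ : E ≃L[ℂ] (Fin (finrank ℂ E) → ℂ) := b.equivFun.toContinuousLinearEquiv with hφ
  have hw' := Vale.Agent.P253.U165.weights_LE hw
  obtain ⟨e₀, he₀, δ, hδ, hpe, hep, htgt, hequiv⟩ := exists_linearizing_chart hρ hfix φ m hw'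
  have her₀ := mem_maximalAtlas_real he₀
  have hφa : φ (b j) = Pi.single j 1 := by
    rw [hφ]
    change b.equivFun (b j) = Pi.single j 1
    funext i
    rw [Basis.equivFun_self, Pi.single_apply]
    simp only [eq_comm]
  have h0t : (0 : E) ∈ e₀.target := by rw [← hep]; exact e₀.map_source hpe
  have hsy0 : e₀.symm 0 = p := by rw [← hep, e₀.left_inv hpe]
  -- points of `Ω` near `p` with nonzero `j`-th coordinate
  have claim1 : ∀ r > 0, ∃ z ∈ e₀.target, e₀.symm z ∈ Ω ∧ ‖φ z‖ < r ∧ φ z j ≠ 0 := by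
    intro r hr
    have hnb : ∀ᶠ y in 𝓝 p, y ∈ e₀.source ∧ ‖φ (e₀ y)‖ < r := by
      refine Filter.Eventually.and (e₀.open_source.mem_nhds hpe) ?_
      have h1 : Tendsto (fun y => ‖φ (e₀ y)‖) (𝓝 p) (𝓝 ‖φ (e₀ p)‖) :=
        (φ.continuous.norm.tendsto _).comp (e₀.continuousAt hpe).tendsto
      rw [hep, map_zero, norm_zero] at h1
      exact h1.eventually (gt_mem_nhds hr)
    obtain ⟨y, ⟨hye, hyr⟩, hyΩ⟩ := mem_closure_iff_nhds.1 hp _ hnb
    have hz₀ : e₀ y ∈ e₀.target := e₀.map_source hye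
    have hG : ∀ᶠ z in 𝓝 (e₀ y), z ∈ e₀.target ∧ e₀.symm z ∈ Ω ∧ ‖φ z‖ < r := by
      refine Filter.Eventually.and (e₀.open_target.mem_nhds hz₀) (Filter.Eventually.and ?_ ?_)
      · have h1 := (e₀.continuousAt_symm hz₀).tendsto
        rw [e₀.left_inv hye] at h1
        exact h1.eventually (hΩo.mem_nhds hyΩ)
      · exact (φ.continuous.norm.tendsto _).eventually (gt_mem_nhds hyr)
    by_cases h0 : φ (e₀ y) j = 0
    · have h1 : Tendsto (fun s : ℂ => e₀ y + s • b j) (𝓝 0) (𝓝 (e₀ y)) := by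
        have h2 : ContinuousAt (fun s : ℂ => e₀ y + s • b j) 0 := by fun_prop
        have := h2.tendsto
        simpa using this
      obtain ⟨s, ⟨hs1, hs2, hs3⟩, hs0⟩ := (((h1.eventually hG).filter_mono
        nhdsWithin_le_nhds).and (self_mem_nhdsWithin (a := (0:ℂ)) (s := {0}ᶜ))).exists
      refine ⟨_, hs1, hs2, hs3, ?_⟩
      rw [map_add, map_smul, hφa, Pi.add_apply, h0, zero_add, Pi.smul_apply, Pi.single_eq_same,
        smul_eq_mul, mul_one]
      exact hs0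
    · obtain ⟨h1, h2, h3⟩ := hG.self_of_nhds
      exact ⟨_, h1, h2, h3, h0⟩
  -- run backwards
  have claim2 : ∀ k : ℕ, ∃ w, ‖φ w‖ ≤ δ / 2 ∧ ‖negPart φ m w‖ = δ / 2 ∧
      (∀ i, 0 ≤ m i → ‖φ w i‖ ≤ 1 / ((k:ℝ) + 1)) ∧ e₀.symm w ∈ Ω := by
    intro k
    have hk : (0:ℝ) < 1 / ((k:ℝ) + 1) := by positivity
    obtain ⟨z, hzt, hzΩ, hzr, hzj⟩ := claim1 (min (δ / 2) (1 / ((k:ℝ) + 1)))
      (lt_min (by linarith) hk)
    obtain ⟨t, ht0, ht1, ht2, ht3⟩ := exists_exit (φ := φ) (m := m)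
      (hzr.trans_le (min_le_left _ _)) hneg hzj
    refine ⟨_, ht2 (-t) le_rfl (by linarith), ht1, fun i hi => (ht3 i hi).trans
      (hzr.le.trans (min_le_right _ _)), ?_⟩
    have hzs : e₀.symm z ∈ e₀.source := e₀.map_target hzt
    have h1 := local_seg hρ hF he₀ htgt hequiv hzs (a := -t) (b := 0) (by linarith) le_rfl
      (fun s hs1 hs2 => by
        rw [e₀.right_inv hzt]
        exact (ht2 s hs1 hs2).trans_lt (by linarith)) (-t) le_rfl (by linarith)
    rw [e₀.right_inv hzt] at h1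
    rw [← h1]
    exact hΩinv _ _ hzΩ
  choose w hwn hwneg hwpos hwΩ using claim2
  obtain ⟨w₀, hw₀, ψ, hψ, hlim⟩ := (isCompact_coordBall φ (δ / 2)).tendsto_subseq
    (fun k => (hwn k : w k ∈ {z : E | ‖φ z‖ ≤ δ / 2}))
  have hw₀n : ‖φ w₀‖ ≤ δ / 2 := hw₀
  have hw₀t : w₀ ∈ e₀.target := by
    rw [htgt]
    exact hw₀n.trans_lt (by linarith)
  have hw₀neg : ‖negPart φ m w₀‖ = δ / 2 := by
    have h1 : Tendsto (fun k => ‖negPart φ m (w (ψ k))‖) atTop (𝓝 ‖negPart φ m w₀‖) :=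
      (continuous_negPart.norm.tendsto _).comp hlim
    refine tendsto_nhds_unique h1 ?_
    simp only [hwneg]
    exact tendsto_const_nhds
  have hw₀pos : ∀ i, 0 ≤ m i → φ w₀ i = 0 := by
    intro i hi
    have h1 : Tendsto (fun k => ‖φ (w (ψ k)) i‖) atTop (𝓝 ‖φ w₀ i‖) := by
      have h2 : Continuous (fun z : E => ‖φ z i‖) :=
        ((continuous_apply i).comp φ.continuous).norm
      exact (h2.tendsto _).comp hlim
    have h2 : Tendsto (fun k : ℕ => 1 / ((ψ k : ℝ) + 1)) atTop (𝓝 0) :=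
      tendsto_one_div_add_atTop_nhds_zero_nat.comp hψ.tendsto_atTop
    have h3 := le_of_tendsto_of_tendsto h1 h2 (Eventually.of_forall fun k => hwpos (ψ k) i hi)
    exact norm_le_zero_iff.1 h3
  set x : M := e₀.symm w₀ with hx
  have hxs : x ∈ e₀.source := e₀.map_target hw₀t
  have hxcl : x ∈ closure Ω := by
    refine mem_closure_of_tendsto (((e₀.continuousAt_symm hw₀t).tendsto).comp hlim)
      (Eventually.of_forall fun k => hwΩ (ψ k))
  obtain ⟨q, -, hq⟩ := hcl x hxcl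
  have hex : e₀ x = w₀ := by rw [hx, e₀.right_inv hw₀t]
  have hfwd : Tendsto (fun t => Φ t x) atTop (𝓝 p) := by
    have h2 := (e₀.continuousAt_symm h0t).tendsto.comp (tendsto_LE_fwd (φ := φ) hw₀pos)
    rw [hsy0] at h2
    refine h2.congr' ?_
    filter_upwards [eventually_ge_atTop 0] with t ht
    simp only [Function.comp_apply]
    have h3 := local_seg hρ hF he₀ htgt hequiv hxs (a := 0) (b := t) le_rfl ht
      (fun s hs1 _ => by
        rw [hex]
        exact (norm_LE_fwd hw₀pos hs1).trans_lt (hw₀n.trans_lt (by linarith))) t ht le_rfl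
    rw [h3, hex]
  have hbd := bounded_of_tendsto (hF.curve x).continuous hfwd hq
  refine no_bounded_orbit hK hnn hpos hρ hfix (hF.curve x) ?_ hbd
  rw [hF.zero]
  intro h0
  have h1 := nW_eq hρ (chart_mem_maximalAtlas x) (mem_chart_source E x)
  rw [h0, map_zero] at h1
  have h2 := nW_eq hρ he₀ hxs
  have h3 : vF ρ e₀ (e₀ x) ≠ 0 := by
    rw [hex, vF_linear hρ hequiv hw₀t]
    intro h4
    have h5 : negPart φ m w₀ = 0 := by
      funext i
      simp only [negPart]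
      split_ifs with hi
      · have h6 := congrArg (fun w => φ w i) h4
        simp only [AE_coord, map_zero, Pi.zero_apply] at h6
        rcases mul_eq_zero.1 h6 with h7 | h7
        · exact absurd (ofReal_eq_zero.1 h7) hi.ne
        · exact h7
      · rfl
    rw [h5, norm_zero] at hw₀neg
    linarith
  have h4 := chartG_pos her₀ (e₀.map_source hxs) _ h3
  rw [← h2, h1] at h4
  exact lt_irrefl _ h4

/-- **a local minimum of the potential**: all backward orbits converge -/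
theorem backConv_of_localMin (hK : IsKahler E M) [CompleteSpace M] [NoncompactSpace M]
    [ConnectedSpace M] (hnn : ∀ x : M, NonnegBisectionalAt E x)
    (hpos : ∀ x : M, PosBisectionalAt E x) (hρ : IsHolIsomFlow E ρ)
    (hgrad : IsGradOf (E := E) ρ h) (hF : IsFlow E ρ Φ) {p : M}
    (hmin : ∀ᶠ y in 𝓝 p, h p ≤ h y) : BackConv ρ Φ := by
  have hfix : ∀ t, ρ t p = p := fixed_of_min hρ hgrad hmin
  have hhc := continuous_of_grad hgrad
  have hΦc : ∀ T, Continuous (Φ T) := fun T => (hF.smooth hρ T).continuous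
  set A : Set M := {x | ∃ q, (∀ t, ρ t q = q) ∧ h q = h p ∧
    Tendsto (fun t => Φ t x) atBot (𝓝 q)} with hA
  have hAinv : ∀ T x, x ∈ A → Φ T x ∈ A := by
    rintro T x ⟨q, hq1, hq2, hq3⟩
    refine ⟨q, hq1, hq2, ?_⟩
    have h1 : Tendsto (fun t : ℝ => Φ (t + T) x) atBot (𝓝 q) :=
      hq3.comp (tendsto_atBot_add_const_right atBot T tendsto_id)
    refine h1.congr fun t => ?_
    rw [hF.add]
  have hcancel : ∀ T x, Φ T (Φ (-T) x) = x := fun T x => by
    rw [← hF.add, add_neg_cancel, hF.zero]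
  have hcancel' : ∀ T x, Φ (-T) (Φ T x) = x := fun T x => by
    rw [← hF.add, neg_add_cancel, hF.zero]
  set Ω : Set M := interior A with hΩ
  have hΩinv : ∀ T x, x ∈ Ω → Φ T x ∈ Ω := by
    intro T x hx
    refine mem_interior.2 ⟨Φ (-T) ⁻¹' Ω, fun y hy => ?_, isOpen_interior.preimage (hΦc _), ?_⟩
    · have h1 := hAinv T _ (interior_subset hy)
      rwa [hcancel] at h1
    · change Φ (-T) (Φ T x) ∈ Ω
      rwa [hcancel']
  have hge : ∀ x ∈ closure Ω, h p ≤ h x := by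
    have h1 : closure Ω ⊆ {x | h p ≤ h x} := by
      refine closure_minimal (fun x hx => ?_) (isClosed_le continuous_const hhc)
      obtain ⟨q, -, hq2, hq3⟩ := interior_subset hx
      have h2 := pot_le hρ hgrad hF hq3
      rw [hq2] at h2
      exact h2
    exact fun x hx => h1 hx
  have hclinv : ∀ T x, x ∈ closure Ω → Φ T x ∈ closure Ω := fun T x hx =>
    map_mem_closure (hΦc T) hx fun y hy => hΩinv T y hy
  have hcl : ∀ x ∈ closure Ω, ∃ q, (∀ t, ρ t q = q) ∧ Tendsto (fun t => Φ t x) atBot (𝓝 q) :=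
    fun x hx => lim_back_of_lower hK hnn hρ hgrad (hF.curve x) (c := h p)
      fun t _ => hge _ (hclinv t x hx)
  -- the point `p`
  have hpΩ : p ∈ Ω := by
    obtain ⟨b, m, hw⟩ := exists_real_weights hK hρ hfix
    have h1 := near_of_nonneg hρ hgrad hF hfix hw
      (weights_nonneg_of_localMin hρ hgrad hmin hw)
    exact mem_interior_iff_mem_nhds.2 h1
  -- `Ω` is closed
  have hclosed : closure Ω ⊆ Ω := by
    intro x hx
    obtain ⟨q, hqfix, hq⟩ := hcl x hx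
    have hqcl : q ∈ closure Ω := isClosed_closure.mem_of_tendsto hq
      (Eventually.of_forall fun t => hclinv t x hx)
    obtain ⟨b, m, hw⟩ := exists_real_weights hK hρ hqfix
    have h1 := near_of_nonneg hρ hgrad hF hqfix hw
      (weights_nonneg_of_closure hK hnn hpos hρ hF isOpen_interior hΩinv hcl hqfix hqcl hw)
    obtain ⟨y, hyU, hyΩ⟩ := mem_closure_iff_nhds.1 hqcl _ h1
    obtain ⟨q₁, -, hq₁, hlim₁⟩ := hyU
    obtain ⟨q₂, -, hq₂, hlim₂⟩ := interior_subset hyΩ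
    have h2 : h q = h p := by
      rw [← hq₁, tendsto_nhds_unique hlim₁ hlim₂, hq₂]
    have h3 : q ∈ Ω := by
      refine mem_interior_iff_mem_nhds.2 ?_
      filter_upwards [h1] with y hy
      obtain ⟨q', h4, h5, h6⟩ := hy
      exact ⟨q', h4, h5.trans h2, h6⟩
    obtain ⟨T, hT⟩ := (hq.eventually (isOpen_interior.mem_nhds h3)).exists
    have h4 := hΩinv (-T) _ hT
    rwa [hcancel'] at h4
  have huniv : Ω = univ := IsClopen.eq_univ
    ⟨closure_subset_iff_isClosed.1 hclosed, isOpen_interior⟩ ⟨p, hpΩ⟩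
  intro x
  have hx : x ∈ Ω := by rw [huniv]; exact mem_univ x
  obtain ⟨q, hq1, -, hq3⟩ := interior_subset hx
  exact ⟨q, hq1, hq3⟩

/-- **a local minimum is a global minimum** -/
theorem bounded_of_localMin (hK : IsKahler E M) [CompleteSpace M] [NoncompactSpace M]
    [ConnectedSpace M] (hpos : ∀ x : M, PosBisectionalAt E x) (hρ : IsHolIsomFlow E ρ)
    (hgrad : IsGradOf (E := E) ρ h) {p : M} (hmin : ∀ᶠ y in 𝓝 p, h p ≤ h y) :
    ∀ x, h p ≤ h x := by
  have hnn : ∀ x : M, NonnegBisectionalAt E x := fun x => (hpos x).nonneg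
  obtain ⟨Φ, hΦ0, hΦadd, hΦ, -⟩ := exists_flow hK hnn hρ
  have hF : IsFlow E ρ Φ := ⟨hΦ0, hΦadd, hΦ⟩
  obtain ⟨p₀, hp₀, hpi⟩ := exists_min hK hnn hpos hρ hgrad hF
    (backConv_of_localMin hK hnn hpos hρ hgrad hF hmin)
  intro x
  rw [(hpi p).1 (fixed_of_min hρ hgrad hmin)]
  exact hp₀ x

/-- a lower bound follows from the hypothesis of the hand-in -/
theorem lower_of_or (hK : IsKahler E M) [CompleteSpace M] [NoncompactSpace M]
    [ConnectedSpace M] (hpos : ∀ x : M, PosBisectionalAt E x) (hρ : IsHolIsomFlow E ρ)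
    (hgrad : IsGradOf (E := E) ρ h)
    (hlow : (∃ p, IsLocalMin h p) ∨ ∀ ε > 0, ∃ C, ∀ x, -(ε * dist x₀ x) - C ≤ h x) :
    ∀ ε > 0, ∃ C, ∀ x, -(ε * dist x₀ x) - C ≤ h x := by
  rcases hlow with ⟨p, hp⟩ | hlow
  · intro ε hε
    refine ⟨-h p, fun x => ?_⟩
    have h1 := bounded_of_localMin hK hpos hρ hgrad hp x
    have h2 : 0 ≤ ε * dist x₀ x := by positivity
    linarith
  · exact hlow

/-- the final statement -/
theorem main_final (hK : IsKahler E M) [CompleteSpace M] [NoncompactSpace M]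
    [ConnectedSpace M] (hpos : ∀ x : M, PosBisectionalAt E x)
    (hh : ContMDiff 𝓘(ℝ, E) 𝓘(ℝ, ℝ) ∞ h) (hρ : IsJGradFlow E h ρ)
    (hlow : (∃ p, IsLocalMin h p) ∨ ∀ ε > 0, ∃ C, ∀ x, -(ε * dist x₀ x) - C ≤ h x) :
    (∃ P : M → M, MDifferentiable 𝓘(ℂ, E) 𝓘(ℂ, E) P ∧ (∀ x, P (P x) = P x) ∧
      (∀ x, mfderiv 𝓘(ℝ, E) 𝓘(ℝ, ℝ) h x = 0 ↔ P x = x) ∧ (∀ x, P x = x ↔ ∀ y, h x ≤ h y) ∧
      (∀ x, ∃ γ : ℝ → M, γ 0 = x ∧ IsDescent E h γ) ∧
      (∀ γ : ℝ → M, IsDescent E h γ → ∃ C s, 0 < s ∧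
        ∀ t, 0 ≤ t → dist (γ t) (P (γ 0)) ≤ C * Real.exp (-(s * t))) ∧
      ∀ q, P q = q → ∃ e ∈ maximalAtlas 𝓘(ℂ, E) 1 M, q ∈ e.source ∧ e q = 0 ∧
        (∀ (θ : ℝ), ∀ x ∈ e.source, ρ θ x ∈ e.source ∧
          e (ρ θ x) = (mfderiv 𝓘(ℂ, E) 𝓘(ℂ, E) (ρ θ) q : E → E) (e x)) ∧
        ∃ Q : E →L[ℂ] E, (∀ z, Q (Q z) = Q z) ∧
          (∀ z, Q z = z ↔ ∀ θ : ℝ, (mfderiv 𝓘(ℂ, E) 𝓘(ℂ, E) (ρ θ) q : E → E) z = z) ∧
          (∀ x, x ∈ e.source ↔ P x ∈ e.source) ∧ (∀ z, z ∈ e.target ↔ Q z ∈ e.target) ∧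
          ∀ x ∈ e.source, e (P x) = Q (e x)) ∧
    (((∃ p, IsLocalMax h p) ∨ ∀ ε > 0, ∃ C, ∀ x, h x ≤ ε * dist x₀ x + C) → ∀ x y, h x = h y) ∧
    ∀ O : Set M, IsOpen O → (O ∩ {x : M | mfderiv 𝓘(ℝ, E) 𝓘(ℝ, ℝ) h x = 0}).Nonempty →
      IsCompact (O ∩ {x : M | mfderiv 𝓘(ℝ, E) 𝓘(ℝ, ℝ) h x = 0}) →
      ∃ (p : M) (b : Basis (Fin (finrank ℂ E)) ℂ E) (m : Fin (finrank ℂ E) → ℝ)
        (F : M ≃ₘ^1⟮𝓘(ℂ, E), 𝓘(ℂ, E)⟯ E), HessPosAt E h p ∧ HasWeights ρ p b m ∧
        (∀ x, mfderiv 𝓘(ℝ, E) 𝓘(ℝ, ℝ) h x = 0 ↔ x = p) ∧ IsLinearization ρ p F := by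
  have hgrad := isGradOf_flow hK hh hρ
  have hsub := lower_of_or hK hpos hρ.1 hgrad hlow
  obtain ⟨h2, h3⟩ := main_bbp hK hpos hh hρ hsub
  refine ⟨main_tube hK hpos hh hρ hsub, ?_, h3⟩
  rintro (⟨p, hp⟩ | hsup)
  · refine h2 fun ε hε => ⟨h p, fun x => ?_⟩
    have h4 : ∀ᶠ y in 𝓝 p, (fun x => -h x) p ≤ (fun x => -h x) y := by
      filter_upwards [hp] with y hy
      exact neg_le_neg hy
    have h5 := bounded_of_localMin hK hpos hρ.1.rev (IsGradOf.rev hgrad) h4 x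
    have h6 : 0 ≤ ε * dist x₀ x := by positivity
    linarith
  · exact h2 hsup

end Vale.Agent.P253.H348
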