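import Vale.Agent.P253.H22.Flow
import Vale.Agent.P253.H348.GradZ

/-!
P253: the one-parameter group of holomorphic isometries generated by a real function with
J-invariant Hessian on a complete Kaehler manifold.
-/

open scoped Manifold ContDiff Topology Bundle
open Set Metric Complex Filter Bundle IsManifold Manifold Module
  Vale.Agent.P253.Mfd Vale.Agent.P253.H577 Vale.Agent.P253.H595 Vale.Agent.P253.H22

set_option maxSynthPendingDepth 3
set_option linter.unusedSectionVars false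

noncomputable section

namespace Vale.Agent.P253.H348

variable {E : Type*} [NormedAddCommGroup E] [NormedSpace ℂ E] [FiniteDimensional ℂ E]
  {M : Type*} [MetricSpace M] [ChartedSpace E M]
  [IsManifold 𝓘(ℂ, E) 1 M] [IsManifold 𝓘(ℝ, E) ∞ M]
  [RiemannianBundle (fun x : M => TangentSpace 𝓘(ℝ, E) x)]
  [IsContMDiffRiemannianBundle 𝓘(ℝ, E) ∞ E (fun x : M => TangentSpace 𝓘(ℝ, E) x)]
  {h : M → ℝ} {e e' : OpenPartialHomeomorph M E} {z : E} {Γ : E → E → E} {lam : ℝ}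

/-- `J` times the gradient of `h` -/
def XZ (h : M → ℝ) (x : M) : TangentSpace 𝓘(ℂ, E) x := I • gradZ h x

omit [IsContMDiffRiemannianBundle 𝓘(ℝ, E) ∞ E (fun x : M => TangentSpace 𝓘(ℝ, E) x)] in
theorem comps_XZ (x : M) : comps (E := E) (XZ h) e x = I • comps (E := E) (gradZ h) e x := by
  let T : E →L[ℂ] E := mfderiv 𝓘(ℂ, E) 𝓘(ℂ, E) e x
  exact T.map_smul I (gradZ h x : E)

theorem comps_XZ_symm (hK : IsKahler E M) (hh : ContMDiff 𝓘(ℝ, E) 𝓘(ℝ, ℝ) ∞ h)
    (he : e ∈ maximalAtlas 𝓘(ℂ, E) 1 M) (hz : z ∈ e.target) :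
    comps (E := E) (XZ h) e (e.symm z) = I • gradF h e z := by
  rw [comps_XZ, comps_gradZ_symm hK hh he hz]

/-- (P1) -/
theorem isHolField_XZ (hK : IsKahler E M) (hh : ContMDiff 𝓘(ℝ, E) 𝓘(ℝ, ℝ) ∞ h)
    (hJ : HessJ E h) : IsHolField (XZ (E := E) h) := fun _ he =>
  ((differentiableOn_gradF hK hh hJ he).const_smul I).congr fun _ hz =>
    comps_XZ_symm hK hh he hz

/-- (P1) -/
theorem isKillingField_XZ (hK : IsKahler E M) (hh : ContMDiff 𝓘(ℝ, E) 𝓘(ℝ, ℝ) ∞ h)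
    (hJ : HessJ E h) : IsKillingField (XZ (E := E) h) := by
  intro e he z hz a
  have hev : (fun y : E => comps (E := E) (XZ h) e (e.symm y)) =ᶠ[𝓝 z]
      fun y : E => I • gradF h e y := by
    filter_upwards [e.open_target.mem_nhds hz] with y hy using comps_XZ_symm hK hh he hy
  have hd : DifferentiableAt ℝ (gradF h e) z :=
    ((contDiffOn_real_gradF hK hh he).contDiffAt (e.open_target.mem_nhds hz)).differentiableAt
      (by simp)
  have hd2 : fderiv ℝ (fun y : E => I • gradF h e y) z a = I • fderiv ℝ (gradF h e) z a := by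
    have h1 : HasFDerivAt (fun y : E => I • gradF h e y) (I • fderiv ℝ (gradF h e) z) z :=
      hd.hasFDerivAt.const_smul I
    rw [h1.fderiv]
    rfl
  have h2 := killing_gradF hK hh hJ he z hz a
  simp only [Sfun]
  rw [hev.fderiv_eq, hd2, comps_XZ_symm hK hh he hz, h2, zero_div]

section flow

variable [IsRiemannianManifold 𝓘(ℝ, E) M]

/-- the flow of `J` times the gradient of `h` -/
def potFlow (h : M → ℝ) : ℝ → M → M := fl (XZ (E := E) h)

/-- (P2) -/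
theorem isHolIsomFlow_potFlow (hK : IsKahler E M) [CompleteSpace M]
    (hh : ContMDiff 𝓘(ℝ, E) 𝓘(ℝ, ℝ) ∞ h) (hJ : HessJ E h) :
    IsHolIsomFlow E (potFlow (E := E) h) :=
  (fl_isom hK (isHolField_XZ hK hh hJ) (isKillingField_XZ hK hh hJ)).1

/-- (P2) -/
theorem vF_potFlow (hK : IsKahler E M) [CompleteSpace M]
    (hh : ContMDiff 𝓘(ℝ, E) 𝓘(ℝ, ℝ) ∞ h) (hJ : HessJ E h)
    (he : e ∈ maximalAtlas 𝓘(ℂ, E) 1 M) (hz : z ∈ e.target) :
    vF (potFlow (E := E) h) e z = gradF h e z := by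
  have h1 := (fl_isom hK (isHolField_XZ hK hh hJ) (isKillingField_XZ hK hh hJ)).2 e he z hz
  have h2 : I • vF (potFlow (E := E) h) e z = I • gradF h e z := by
    rw [I_smul_vF]
    exact h1.trans (comps_XZ_symm hK hh he hz)
  have h3 := congrArg (fun w : E => (-I) • w) h2
  simpa [smul_smul] using h3

/-- (P3) -/
theorem Sfun_potFlow (hK : IsKahler E M) [CompleteSpace M]
    (hh : ContMDiff 𝓘(ℝ, E) 𝓘(ℝ, ℝ) ∞ h) (hJ : HessJ E h)
    (he : e ∈ maximalAtlas 𝓘(ℂ, E) 1 M) (hz : z ∈ e.target) (hΓ : IsChristoffel e z Γ) (a : E) :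
    Sfun (chartG e) (vF (potFlow (E := E) h) e) z a = HessAt e z Γ h a := by
  rw [← Sfun_gradF hK hh he hz hΓ]
  have hev : vF (potFlow (E := E) h) e =ᶠ[𝓝 z] gradF h e := by
    filter_upwards [e.open_target.mem_nhds hz] with y hy using vF_potFlow hK hh hJ he hy
  simp only [Sfun]
  rw [hev.fderiv_eq, vF_potFlow hK hh hJ he hz]

/-- (P4) -/
theorem botGE_potFlow (hK : IsKahler E M) [CompleteSpace M]
    (hh : ContMDiff 𝓘(ℝ, E) 𝓘(ℝ, ℝ) ∞ h) (hJ : HessJ E h)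
    (he : e ∈ maximalAtlas 𝓘(ℂ, E) 1 M) {x : M} (hx : x ∈ e.source)
    (hΓ : IsChristoffel e (e x) Γ) {c : ℝ}
    (hc : ∀ a, c * chartG e (e x) a a ≤ HessAt e (e x) Γ h a) :
    BotGE (E := E) (potFlow (E := E) h) c x := by
  have hρ := isHolIsomFlow_potFlow hK hh hJ
  rw [← topLE_rev]
  refine TopLE.of_chart hρ.rev he hx fun a => ?_
  rw [Sfun_rev, Sfun_potFlow hK hh hJ he (e.map_source hx) hΓ]
  linarith only [hc a]

/-- (P4) positive definite Hessian at one point, seen in one chart -/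
theorem exists_botGE (hK : IsKahler E M) [CompleteSpace M]
    (hh : ContMDiff 𝓘(ℝ, E) 𝓘(ℝ, ℝ) ∞ h) (hJ : HessJ E h)
    (he : e ∈ maximalAtlas 𝓘(ℂ, E) 1 M) {x : M} (hx : x ∈ e.source)
    (hΓ : IsChristoffel e (e x) Γ) (hpos : ∀ a, a ≠ 0 → 0 < HessAt e (e x) Γ h a) :
    ∃ c > 0, BotGE (E := E) (potFlow (E := E) h) c x := by
  obtain ⟨c, hc, hb⟩ := exists_lower_of_pos hh he (e.map_source hx) hΓ hpos
  exact ⟨c, hc, botGE_potFlow hK hh hJ he hx hΓ hb⟩

/-- (P4) nonnegative Hessian -/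
theorem nonneg_potFlow (hK : IsKahler E M) [CompleteSpace M]
    (hh : ContMDiff 𝓘(ℝ, E) 𝓘(ℝ, ℝ) ∞ h) (hJ : HessJ E h)
    (hnn : ∀ e ∈ maximalAtlas 𝓘(ℂ, E) 1 M, ∀ z ∈ e.target, ∀ Γ, IsChristoffel e z Γ →
      ∀ a, 0 ≤ HessAt e z Γ h a) :
    ∀ e ∈ maximalAtlas 𝓘(ℂ, E) 1 M, ∀ z ∈ e.target, ∀ a,
      0 ≤ Sfun (chartG e) (vF (potFlow (E := E) h) e) z a := by
  intro e he z hz a
  obtain ⟨Γ, hΓ⟩ := exists_christoffel hK he hz
  rw [Sfun_potFlow hK hh hJ he hz hΓ]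
  exact hnn e he z hz Γ hΓ a

/-- (P4) steady solitons of nonnegative bisectional curvature -/
theorem nonneg_steady (hK : IsKahler E M) [CompleteSpace M] {f : M → ℝ}
    (hs : IsGradSoliton E f lam) (hlam : lam ≤ 0) (hnn : ∀ x : M, NonnegBisectionalAt E x) :
    ∀ e ∈ maximalAtlas 𝓘(ℂ, E) 1 M, ∀ z ∈ e.target, ∀ a,
      0 ≤ Sfun (chartG e) (vF (potFlow (E := E) (fun x => -f x)) e) z a := by
  refine nonneg_potFlow hK (contMDiff_neg_fun hs.smooth) (hs.hessJ hK).neg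
    fun e he z hz Γ hΓ a => ?_
  have h1 := hs.hess_ge hK he hz (hnn _) hΓ a
  have h2 : 0 ≤ chartG e z a a := by
    by_cases h0 : a = 0
    · simp [h0]
    · exact (chartG_pos (mem_maximalAtlas_real he) hz a h0).le
  nlinarith only [h1, h2, hlam]

end flow

end Vale.Agent.P253.H348
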