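import Vale.Agent.P253.H348.Line
import Vale.Agent.P253.H348.Dim

/-!
P253: the action of a commuting family of flows on the critical set of a Killing potential.
-/

open scoped Manifold ContDiff Topology Bundle
open Set Metric Complex Filter Bundle IsManifold Manifold Module Vale.Agent.P253.Mfd
  Vale.Agent.P253.H577 Vale.Agent.P253.H22 Vale.Agent.P253.H202

set_option maxSynthPendingDepth 3
set_option linter.unusedSectionVars false

noncomputable section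

namespace Vale.Agent.P253.H348

variable {E : Type*} [NormedAddCommGroup E] [NormedSpace ℂ E] [FiniteDimensional ℂ E]
  {M : Type*} [MetricSpace M] [ChartedSpace E M]
  [IsManifold 𝓘(ℂ, E) 1 M] [IsManifold 𝓘(ℝ, E) ∞ M]
  [RiemannianBundle (fun x : M => TangentSpace 𝓘(ℝ, E) x)]
  [IsContMDiffRiemannianBundle 𝓘(ℝ, E) ∞ E (fun x : M => TangentSpace 𝓘(ℝ, E) x)]
  [IsRiemannianManifold 𝓘(ℝ, E) M]
  {σ τ ρ Φ : ℝ → M → M} {h : M → ℝ} {e : OpenPartialHomeomorph M E} {γ : ℝ → M}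

/-- the field as a field in charts -/
theorem chartField_W (hτ : IsHolIsomFlow E τ) :
    ChartField (M := M) (WE (E := E) τ) (fun e => vF τ e) where
  smooth _ he := (contDiffOn_of_differentiableOn_complex (OpenPartialHomeomorph.open_target _)
    (differentiableOn_vF hτ he)).restrict_scalars ℝ
  rel _ he _ hx := dsymm_vF hτ he hx

/-- integral curves stay in the fixed point set of a commuting flow -/
theorem stay_fixed_W (hσ : IsHolIsomFlow E σ) (hτ : IsHolIsomFlow E τ)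
    (hcomm : ∀ s t x, σ s (τ t x) = τ t (σ s x))
    (hγ : IsMIntegralCurve (I := 𝓘(ℝ, E)) γ (W (E := E) τ)) {θ : ℝ} (h0 : σ θ (γ 0) = γ 0)
    (t : ℝ) : σ θ (γ t) = γ t := by
  have h1 := (chartField_W hτ).comp_flow hσ θ
    (fun e he e' he' z hz => vF_push hσ hτ hcomm he he' hz) hγ
  have h2 := isMIntegralCurve_Ioo_eq_of_contMDiff_boundaryless (t₀ := 0) (contMDiff_W hτ) h1 hγ h0
  exact congrFun h2 t

/-- backward convergence near a fixed point with nonnegative weights -/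
theorem conv_of_nonneg (hρ : IsHolIsomFlow E ρ) (hF : IsFlow E ρ Φ) {p : M}
    (hfix : ∀ t, ρ t p = p) {b : Basis (Fin (finrank ℂ E)) ℂ E} {m : Fin (finrank ℂ E) → ℝ}
    (hw : ∀ (t : ℝ) j, mfderiv 𝓘(ℂ, E) 𝓘(ℂ, E) (ρ t) p (b j) = exp (t * m j * I) • b j)
    (hm : ∀ j, 0 ≤ m j) :
    ∀ᶠ y in 𝓝 p, ∃ q, Tendsto (fun t => Φ t y) atBot (𝓝 q) := by
  set φ : E ≃L[ℂ] (Fin (finrank ℂ E) → ℂ) := b.equivFun.toContinuousLinearEquiv with hφ
  have hw' := Vale.Agent.P253.U165.weights_LE hw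
  obtain ⟨e₀, he₀, δ, hδ, hpe, hep, htgt, hequiv⟩ := exists_linearizing_chart hρ hfix φ m hw'
  filter_upwards [e₀.open_source.mem_nhds hpe] with y hy
  have hzt : e₀ y ∈ e₀.target := e₀.map_source hy
  have hzn : ‖φ (e₀ y)‖ < δ := by rw [htgt] at hzt; exact hzt
  have hback : ∀ t : ℝ, t ≤ 0 → Φ t y = e₀.symm (LE φ m (t : ℂ) (e₀ y)) := fun t ht =>
    local_seg hρ hF he₀ htgt hequiv hy ht le_rfl
      (fun s _ hs => (norm_LE_back hm hs _).trans_lt hzn) t le_rfl ht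
  set w : E := zeroProjL φ m (e₀ y) with hwd
  have hwt1 : w ∈ e₀.target := by
    rw [htgt]
    exact (norm_zeroProjL_le _).trans_lt hzn
  refine ⟨e₀.symm w, ?_⟩
  refine ((e₀.continuousAt_symm hwt1).tendsto.comp (tendsto_LE_zeroProjL hm (e₀ y))).congr' ?_
  filter_upwards [eventually_le_atBot 0] with t ht
  simp only [Function.comp_apply]
  rw [hback t ht]

/-- a curve with limits at both ends is bounded -/
theorem bounded_of_limits (hγ : Continuous γ) {q q' : M} (h1 : Tendsto γ atBot (𝓝 q))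
    (h2 : Tendsto γ atTop (𝓝 q')) : Bornology.IsBounded (range γ) := by
  obtain ⟨a, ha⟩ := eventually_atBot.1 (h1.eventually (ball_mem_nhds q one_pos))
  obtain ⟨b, hb⟩ := eventually_atTop.1 (h2.eventually (ball_mem_nhds q' one_pos))
  have h3 : Bornology.IsBounded (γ '' Icc a b) := (isCompact_Icc.image hγ).isBounded
  refine ((isBounded_ball (x := q) (r := 1)).union ((isBounded_ball (x := q') (r := 1)).union
    h3)).subset ?_
  rintro _ ⟨t, rfl⟩
  rcases le_total t a with h4 | h4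
  · exact Or.inl (ha t h4)
  · rcases le_total b t with h5 | h5
    · exact Or.inr (Or.inl (hb t h5))
    · exact Or.inr (Or.inr ⟨t, ⟨h4, h5⟩, rfl⟩)

variable {V : Type*} [NormedAddCommGroup V] [NormedSpace ℝ V] {R : V → M → M} {κ₀ κ : V}

/-- the field of `s κ₀ + κ` at a zero of the field of `κ₀` -/
theorem WE_add (hR : IsHolIsomAction E R) {x : M} (h0 : ∀ t, ln R κ₀ t x = x) (s : ℝ) (κ : V) :
    WE (E := E) (ln R (s • κ₀ + κ)) x = WE (E := E) (ln R κ) x := by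
  have he : chartAt E x ∈ maximalAtlas 𝓘(ℂ, E) 1 M := chart_mem_maximalAtlas x
  have hx := mem_chart_source E x
  have hz := (chartAt E x).map_source hx
  rw [WE, WE, ← vL_apply hR he hz, ← vL_apply hR he hz, map_add, map_smul,
    (mem_kerAt hR he hx).1 (mem_kerAt_of_fixed hR h0), smul_zero, zero_add]

theorem curve_congr {γ : ℝ → M} (hγ : IsMIntegralCurve (I := 𝓘(ℝ, E)) γ (W (E := E) τ))
    (h : ∀ t, WE (E := E) σ (γ t) = WE (E := E) τ (γ t)) :
    IsMIntegralCurve (I := 𝓘(ℝ, E)) γ (W (E := E) σ) := by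
  intro t
  have h1 := hγ t
  have h2 : W (E := E) σ (γ t) = W (E := E) τ (γ t) := h t
  rw [h2]
  exact h1

/-- **Rigidity on the critical set, local form.** -/
theorem rigid_local (hK : IsKahler E M) [CompleteSpace M] [NoncompactSpace M]
    [ConnectedSpace M] (hpos : ∀ x : M, PosBisectionalAt E x) (hR : IsHolIsomAction E R)
    (hgrad : IsGradOf (E := E) (ln R κ₀) h) {y : M} (hmin : ∀ᶠ z in 𝓝 y, h y ≤ h z)
    (hκ : ∀ t, ln R κ t y = y)
    (hT : ∀ a, fderiv ℝ (fun z => vL R (chartAt E y) z κ₀) (chartAt E y y) a = 0 →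
      fderiv ℝ (fun z => vL R (chartAt E y) z κ) (chartAt E y y) a = 0) :
    ∀ᶠ z in 𝓝 y, (∀ t, ln R κ₀ t z = z) → ∀ t, ln R κ t z = z := by
  have hnn : ∀ x : M, NonnegBisectionalAt E x := fun x => (hpos x).nonneg
  have hκ₀ : ∀ t, ln R κ₀ t y = y := fixed_of_min (hR.line κ₀) hgrad hmin
  have he : chartAt E y ∈ maximalAtlas 𝓘(ℂ, E) 1 M := chart_mem_maximalAtlas y
  set e := chartAt E y with hed
  have hx : y ∈ e.source := mem_chart_source E y
  have hz : e y ∈ e.target := e.map_source hx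
  have hLK := localKahler_chartG hK he
  have hL := commFam_vL hR he
  have hmem : ∀ η : kerAt E R y, vL R e (e y) (η : V) = 0 := fun η => (mem_kerAt hR he hx).1 η.2
  obtain ⟨b, r, hr⟩ := exists_joint_basis (hermForm_of_local hLK hz)
    (fun η : kerAt E R y => linPart (vL R e) (e y) (η : V))
    (fun η a b => hL.linPart_symm hLK hz (hmem η) a b)
    (fun η η' => hL.linPart_comm hLK hz (hmem η) (hmem η'))
  set k₀ : kerAt E R y := ⟨κ₀, mem_kerAt_of_fixed hR hκ₀⟩ with hk₀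
  set k₁ : kerAt E R y := ⟨κ, mem_kerAt_of_fixed hR hκ⟩ with hk₁
  have hev : ∀ η : V, (fun z => vL R e z η) =ᶠ[𝓝 (e y)] vF (ln R η) e := fun η => by
    filter_upwards [e.open_target.mem_nhds hz] with z hz using vL_apply hR he hz η
  have hr0 : ∀ j, fderiv ℝ (fun z => vL R e z κ₀) (e y) (b j) = r j k₀ • b j := fun j => by
    rw [← linPart_apply hLK hL hz]
    exact hr j k₀
  have hr1 : ∀ j, fderiv ℝ (fun z => vL R e z κ) (e y) (b j) = r j k₁ • b j := fun j => by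
    rw [← linPart_apply hLK hL hz]
    exact hr j k₁
  have hwt : ∀ (η : V) (c : Fin (finrank ℂ E) → ℝ), (∀ t, ln R η t y = y) →
      (∀ j, fderiv ℝ (fun z => vL R e z η) (e y) (b j) = c j • b j) →
      ∀ (t : ℝ) j, mfderiv 𝓘(ℂ, E) 𝓘(ℂ, E) (ln R η t) y (b j) = exp (t * c j * I) • b j := by
    intro η c hfix hc t j
    have h1 := mfderiv_eq_TF (hR.line η) hfix t (b j)
    rw [TF_eigen (hR.line η) he hx hfix (r := c j) (by rw [← (hev η).fderiv_eq]; exact hc j)] at h1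
    exact h1
  have hα : ∀ j, 0 ≤ r j k₀ := fun j =>
    weights_nonneg_of_localMin (hR.line κ₀) hgrad hmin (hwt κ₀ (fun j => r j k₀) hκ₀ hr0) j
  have hβ : ∀ j, r j k₀ = 0 → r j k₁ = 0 := by
    intro j hj
    have h1 := hT (b j) (by rw [hr0, hj, zero_smul])
    rw [hr1] at h1
    exact (smul_eq_zero.1 h1).resolve_right (b.ne_zero j)
  set s : ℝ := ∑ j, |r j k₁| / r j k₀ with hs
  have hsj : ∀ j, |r j k₁| ≤ s * r j k₀ := by
    intro j
    rcases (hα j).eq_or_lt with h1 | h1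
    · rw [hβ j h1.symm, ← h1]; simp
    · have h2 : |r j k₁| / r j k₀ ≤ s := by
        rw [hs]
        exact Finset.single_le_sum (f := fun j => |r j k₁| / r j k₀)
          (fun i _ => div_nonneg (abs_nonneg _) (hα i)) (Finset.mem_univ j)
      rwa [div_le_iff₀ h1] at h2
  -- the two perturbed flows
  have key : ∀ ε : ℝ, |ε| = 1 → ∃ Ψ : ℝ → M → M, IsFlow E (ln R (s • κ₀ + ε • κ)) Ψ ∧
      ∀ᶠ z in 𝓝 y, ∃ q, Tendsto (fun t => Ψ t z) atBot (𝓝 q) := by
    intro ε hε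
    obtain ⟨Ψ, hΨ0, hΨadd, hΨ, -⟩ := exists_flow hK hnn (hR.line (s • κ₀ + ε • κ))
    have hF : IsFlow E (ln R (s • κ₀ + ε • κ)) Ψ := ⟨hΨ0, hΨadd, hΨ⟩
    have hmk : s • κ₀ + ε • κ ∈ kerAt E R y :=
      Submodule.add_mem _ (Submodule.smul_mem _ _ k₀.2) (Submodule.smul_mem _ _ k₁.2)
    have hfix := fixed_of_mem_kerAt hR hmk
    refine ⟨Ψ, hF, conv_of_nonneg (hR.line _) hF hfix
      (hwt _ (fun j => s * r j k₀ + ε * r j k₁) hfix fun j => ?_) fun j => ?_⟩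
    · have h1 := hr0 j
      have h2 := hr1 j
      rw [hL.fderiv_apply hLK hz] at h1 h2 ⊢
      rw [map_add, map_smul, map_smul, h1, h2, smul_smul, smul_smul, ← add_smul]
    · have h1 := hsj j
      have h2 : |ε * r j k₁| = |r j k₁| := by rw [abs_mul, hε, one_mul]
      have h3 := neg_abs_le (ε * r j k₁)
      rw [h2] at h3
      linarith
  obtain ⟨Ψ, hΨ, hΨc⟩ := key 1 (by simp)
  obtain ⟨Ψ', hΨ', hΨc'⟩ := key (-1) (by simp)
  obtain ⟨Φ, hΦ0, hΦadd, hΦ, -⟩ := exists_flow hK hnn (hR.line κ)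
  filter_upwards [hΨc, hΨc'] with z ⟨q, hq⟩ ⟨q', hq'⟩ hz0 t
  by_contra hne
  have hγ := hΦ z
  have hstay : ∀ t θ, ln R κ₀ θ (Φ t z) = Φ t z := fun t θ =>
    stay_fixed_W (hR.line κ₀) (hR.line κ) (fun s t x => hR.comm _ _ x) hγ
      (by simp only [hΦ0]; exact hz0 θ) t
  have h1 : IsMIntegralCurve (I := 𝓘(ℝ, E)) (fun t => Φ t z)
      (W (E := E) (ln R (s • κ₀ + (1:ℝ) • κ))) :=
    curve_congr hγ fun t => by rw [one_smul]; exact WE_add hR (hstay t) s κ
  have h2 : IsMIntegralCurve (I := 𝓘(ℝ, E)) (fun t => Φ (-t) z)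
      (W (E := E) (ln R (s • κ₀ + (-1:ℝ) • κ))) := by
    have h3 := rev_curve (E := E) hγ
    have h4 : (fun t : ℝ => ln R κ (-t)) = ln R ((-1:ℝ) • κ) := by
      funext t x
      simp [ln]
    rw [h4] at h3
    exact curve_congr h3 fun t => WE_add hR (hstay (-t)) s _
  have e1 : (fun t => Φ t z) = fun t => Ψ t z :=
    isMIntegralCurve_Ioo_eq_of_contMDiff_boundaryless (t₀ := 0) (contMDiff_W (hR.line _)) h1
      (hΨ.curve z) (by simp [hΦ0, hΨ.zero])
  have e2 : (fun t => Φ (-t) z) = fun t => Ψ' t z :=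
    isMIntegralCurve_Ioo_eq_of_contMDiff_boundaryless (t₀ := 0) (contMDiff_W (hR.line _)) h2
      (hΨ'.curve z) (by simp [hΦ0, hΨ'.zero])
  have l1 : Tendsto (fun t => Φ t z) atBot (𝓝 q) := by rw [e1]; exact hq
  have l2 : Tendsto (fun t => Φ t z) atTop (𝓝 q') := by
    have l3 : Tendsto (fun t => Φ (-t) z) atBot (𝓝 q') := by rw [e2]; exact hq'
    have l4 := l3.comp tendsto_neg_atTop_atBot
    refine l4.congr fun t => ?_
    simp only [Function.comp_apply, neg_neg]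
  refine no_bounded_orbit hK hnn hpos (hR.line κ) hκ hγ (fun h0 => hne ?_)
    (bounded_of_limits hγ.continuous l1 l2)
  have h5 : vF (ln R κ) (chartAt E z) (chartAt E z z) = 0 := by
    have h6 := h0
    simp only [hΦ0] at h6
    exact h6
  exact fixed_of_zero (hR.line κ) (chart_mem_maximalAtlas z) (mem_chart_source E z) h5 t

/-- a linearizing chart at a fixed point: the fixed point set is a linear subspace -/
theorem exists_fix_chart (hK : IsKahler E M) (hρ : IsHolIsomFlow E ρ) {p : M}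
    (hfix : ∀ t, ρ t p = p) :
    ∃ e₀ ∈ maximalAtlas 𝓘(ℂ, E) 1 M, p ∈ e₀.source ∧ Convex ℝ e₀.target ∧
      ∃ L : ℝ → E →L[ℂ] E, ∀ θ : ℝ, ∀ x ∈ e₀.source, ρ θ x ∈ e₀.source ∧
        e₀ (ρ θ x) = L θ (e₀ x) := by
  obtain ⟨b, m, hw⟩ := exists_real_weights hK hρ hfix
  set φ : E ≃L[ℂ] (Fin (finrank ℂ E) → ℂ) := b.equivFun.toContinuousLinearEquiv with hφ
  have hw' := Vale.Agent.P253.U165.weights_LE hw
  obtain ⟨e₀, he₀, δ, hδ, hpe, hep, htgt, hequiv⟩ := exists_linearizing_chart hρ hfix φ m hw'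
  refine ⟨e₀, he₀, hpe, ?_, fun θ => mfderiv 𝓘(ℂ, E) 𝓘(ℂ, E) (ρ θ) p, fun θ x hx =>
    ⟨(hequiv θ x hx).1, (hequiv θ x hx).2.trans (hw' θ _).symm⟩⟩
  rw [htgt]
  have h1 : {z : E | ‖φ z‖ < δ} = ((φ : E →L[ℂ] (Fin (finrank ℂ E) → ℂ)).restrictScalars ℝ :
      E →ₗ[ℝ] (Fin (finrank ℂ E) → ℂ)) ⁻¹' (ball 0 δ) := by
    ext z
    simp
  rw [h1]
  exact (convex_ball _ _).linear_preimage _

/-- fixed points in a linearizing chart -/
theorem fixed_iff_L {e₀ : OpenPartialHomeomorph M E} {L : ℝ → E →L[ℂ] E}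
    (hequiv : ∀ θ : ℝ, ∀ x ∈ e₀.source, ρ θ x ∈ e₀.source ∧ e₀ (ρ θ x) = L θ (e₀ x)) {x : M}
    (hx : x ∈ e₀.source) : (∀ t, ρ t x = x) ↔ ∀ θ, L θ (e₀ x) = e₀ x := by
  constructor
  · intro h1 θ
    rw [← (hequiv θ x hx).2, h1]
  · intro h1 θ
    exact e₀.injOn (hequiv θ x hx).1 hx (by rw [(hequiv θ x hx).2, h1])

/-- **Rigidity on the critical set, global form.** -/
theorem rigid_global (hK : IsKahler E M) (hR : IsHolIsomAction E R)
    (hconn : IsPreconnected {x : M | ∀ t, ln R κ₀ t x = x}) {y : M}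
    (hy : ∀ t, ln R κ₀ t y = y)
    (hloc : ∀ᶠ z in 𝓝 y, (∀ t, ln R κ₀ t z = z) → ∀ t, ln R κ t z = z) {x : M}
    (hx : ∀ t, ln R κ₀ t x = x) : ∀ t, ln R κ t x = x := by
  set C : Set M := {x : M | ∀ t, ln R κ₀ t x = x} with hC
  have hPC : PreconnectedSpace C := isPreconnected_iff_preconnectedSpace.1 hconn
  set A : Set C := {z : C | ∀ᶠ w : C in 𝓝 z, ∀ t, ln R κ t (w : M) = w} with hA
  have hAo : IsOpen A :=
    isOpen_setOfPred_eventually_nhds (p := fun w : C => ∀ t, ln R κ t (w : M) = w)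
  have hAc : IsClosed A := by
    refine isClosed_of_closure_subset fun z hz => ?_
    obtain ⟨e₀, he₀, hze, hconv, L, hequiv⟩ := exists_fix_chart hK (hR.line κ₀) z.2
    set U₁ : Set C := {w | (w : M) ∈ e₀.source} with hU₁
    have hU₁o : IsOpen U₁ := e₀.open_source.preimage continuous_subtype_val
    obtain ⟨z₁, hz₁U, hz₁A⟩ := mem_closure_iff.1 hz U₁ hU₁o hze
    refine Filter.mem_of_superset (hU₁o.mem_nhds hze) fun w hw => ?_
    have hL := commFam_vL hR he₀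
    -- the field vanishes at `e₀ w`
    have hw' : (w : M) ∈ e₀.source := hw
    set w₁ := e₀ (z₁ : M) with hw₁
    set w₂ := e₀ (w : M) with hw₂
    have hT₁ : ∀ θ, L θ w₁ = w₁ := (fixed_iff_L hequiv hz₁U).1 z₁.2
    have hT₂ : ∀ θ, L θ w₂ = w₂ := (fixed_iff_L hequiv hw').1 w.2
    obtain ⟨N, hN, hNA⟩ := mem_nhds_subtype C z₁ {w : C | ∀ t, ln R κ t (w : M) = w} |>.1 hz₁A
    set g : ℂ → E := fun s => vL R e₀ (w₁ + s • (w₂ - w₁)) κ with hg
    set Ω : Set ℂ := {s : ℂ | w₁ + s • (w₂ - w₁) ∈ e₀.target} with hΩ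
    have hΩo : IsOpen Ω := line_isOpen e₀.open_target w₁ (w₂ - w₁)
    have hgd : DifferentiableOn ℂ g Ω := line_diffOn (hL.holo κ) w₁ (w₂ - w₁)
    have hΩc : Convex ℝ Ω := by
      intro s₁ hs₁ s₂ hs₂ a b ha hb hab
      have h1 := hconv hs₁ hs₂ ha hb hab
      have h2 : a • (w₁ + s₁ • (w₂ - w₁)) + b • (w₁ + s₂ • (w₂ - w₁)) =
          w₁ + (a • s₁ + b • s₂) • (w₂ - w₁) := by
        rw [add_smul, smul_assoc, smul_assoc]
        generalize s₁ • (w₂ - w₁) = p₁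
        generalize s₂ • (w₂ - w₁) = p₂
        calc a • (w₁ + p₁) + b • (w₁ + p₂) = (a + b) • w₁ + (a • p₁ + b • p₂) := by module
          _ = _ := by rw [hab, one_smul]
      rw [h2] at h1
      exact h1
    have h0 : (0 : ℂ) ∈ Ω := by
      simp only [hΩ, mem_ofPred_eq, zero_smul, add_zero]
      exact e₀.map_source hz₁U
    have h1 : (1 : ℂ) ∈ Ω := by
      simp only [hΩ, mem_ofPred_eq, one_smul, add_sub_cancel]
      exact e₀.map_source hw'
    have hev : g =ᶠ[𝓝 0] 0 := by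
      have c1 : ContinuousAt (fun s : ℂ => e₀.symm (w₁ + s • (w₂ - w₁))) 0 := by
        refine ContinuousAt.comp (f := fun s : ℂ => w₁ + s • (w₂ - w₁)) ?_ (by fun_prop)
        refine e₀.continuousAt_symm ?_
        simpa using e₀.map_source hz₁U
      have c2 : e₀.symm (w₁ + (0:ℂ) • (w₂ - w₁)) = (z₁ : M) := by
        rw [zero_smul, add_zero, hw₁, e₀.left_inv hz₁U]
      have c3 : ∀ᶠ s : ℂ in 𝓝 0, e₀.symm (w₁ + s • (w₂ - w₁)) ∈ N := by
        refine c1.eventually ?_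
        have c3 : N ∈ 𝓝 (e₀.symm (w₁ + (0:ℂ) • (w₂ - w₁))) := by rw [c2]; exact hN
        exact c3
      filter_upwards [c3, hΩo.mem_nhds h0] with s hs1 hs2
      have hs2' : w₁ + s • (w₂ - w₁) ∈ e₀.target := hs2
      have hsrc := e₀.map_target hs2'
      have hfix : ∀ t, ln R κ₀ t (e₀.symm (w₁ + s • (w₂ - w₁))) =
          e₀.symm (w₁ + s • (w₂ - w₁)) := by
        rw [fixed_iff_L hequiv hsrc]
        intro θ
        rw [e₀.right_inv hs2', map_add, map_smul, map_sub, hT₁, hT₂]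
      have h3 := hNA (show (⟨_, hfix⟩ : C) ∈ Subtype.val ⁻¹' N from hs1)
      have h4 := (mem_kerAt hR he₀ hsrc).1 (mem_kerAt_of_fixed hR h3)
      rw [e₀.right_inv hs2'] at h4
      exact h4
    have h5 := (hgd.analyticOnNhd hΩo).eqOn_zero_of_preconnected_of_eventuallyEq_zero
      hΩc.isPreconnected h0 hev h1
    have h6 : vL R e₀ (e₀ (w : M)) κ = 0 := by
      simpa [hg] using h5
    exact fun t => fixed_of_mem_kerAt hR ((mem_kerAt hR he₀ hw').2 h6) t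
  have hAn : A.Nonempty := by
    refine ⟨⟨y, hy⟩, ?_⟩
    have h1 : ContinuousAt (Subtype.val : C → M) ⟨y, hy⟩ := continuous_subtype_val.continuousAt
    have h2 := h1.eventually hloc
    filter_upwards [h2] with w hw
    exact hw w.2
  have hu : A = univ := IsClopen.eq_univ ⟨hAc, hAo⟩ hAn
  have hxA : (⟨x, hx⟩ : C) ∈ A := hu ▸ mem_univ _
  exact hxA.self_of_nhds

section fixv

variable (E) in
/-- the vectors fixed by all `d(ρ t)_x` -/
def FixV (ρ : ℝ → M → M) (x : M) : Submodule ℂ E where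
  carrier := {v | ∀ t, (mfderiv 𝓘(ℂ, E) 𝓘(ℂ, E) (ρ t) x : E → E) v = v}
  add_mem' {a b} ha hb t := by
    let L : E →L[ℂ] E := mfderiv 𝓘(ℂ, E) 𝓘(ℂ, E) (ρ t) x
    have h1 : L (a + b) = L a + L b := L.map_add a b
    have h2 : L a = a := ha t
    have h3 : L b = b := hb t
    exact h1.trans (by rw [h2, h3])
  zero_mem' t := by
    let L : E →L[ℂ] E := mfderiv 𝓘(ℂ, E) 𝓘(ℂ, E) (ρ t) x
    exact L.map_zero
  smul_mem' c a ha t := by
    let L : E →L[ℂ] E := mfderiv 𝓘(ℂ, E) 𝓘(ℂ, E) (ρ t) x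
    have h1 : L (c • a) = c • L a := L.map_smul c a
    have h2 : L a = a := ha t
    exact h1.trans (by rw [h2])

theorem mem_FixV {x : M} {v : E} :
    v ∈ FixV E ρ x ↔ ∀ t, (mfderiv 𝓘(ℂ, E) 𝓘(ℂ, E) (ρ t) x : E → E) v = v := Iff.rfl

/-- the fixed vectors in a linearizing chart -/
theorem fixV_chart (hρ : IsHolIsomFlow E ρ) {e₀ : OpenPartialHomeomorph M E}
    (he₀ : e₀ ∈ maximalAtlas 𝓘(ℂ, E) 1 M) {L : ℝ → E →L[ℂ] E}
    (hequiv : ∀ θ : ℝ, ∀ x ∈ e₀.source, ρ θ x ∈ e₀.source ∧ e₀ (ρ θ x) = L θ (e₀ x)) {x : M}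
    (hx : x ∈ e₀.source) (hfix : ∀ t, ρ t x = x) :
    ∃ D : E ≃ₗ[ℂ] E, ∀ v, v ∈ FixV E ρ x ↔ ∀ θ, L θ (D v) = D v := by
  have hmd : e₀.MDifferentiable 𝓘(ℂ, E) 𝓘(ℂ, E) :=
    ⟨(contMDiffOn_of_mem_maximalAtlas he₀).mdifferentiableOn (by simp),
      (contMDiffOn_symm_of_mem_maximalAtlas he₀).mdifferentiableOn (by simp)⟩
  let D : E ≃L[ℂ] E := hmd.mfderiv hx
  have hD : HasMFDerivAt 𝓘(ℂ, E) 𝓘(ℂ, E) e₀ x (D : E →L[ℂ] E) :=
    (hmd.mdifferentiableAt hx).hasMFDerivAt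
  have key : ∀ θ v, D ((mfderiv 𝓘(ℂ, E) 𝓘(ℂ, E) (ρ θ) x : E → E) v) = L θ (D v) := by
    intro θ v
    let A : E →L[ℂ] E := mfderiv 𝓘(ℂ, E) 𝓘(ℂ, E) (ρ θ) x
    have hA : HasMFDerivAt 𝓘(ℂ, E) 𝓘(ℂ, E) (ρ θ) x A := (hρ.holo θ x).hasMFDerivAt
    have h1 : HasMFDerivAt 𝓘(ℂ, E) 𝓘(ℂ, E) e₀ (ρ θ x) (D : E →L[ℂ] E) := by
      rw [hfix θ]
      exact hD
    have h2 : HasMFDerivAt 𝓘(ℂ, E) 𝓘(ℂ, E) (e₀ ∘ ρ θ) x ((D : E →L[ℂ] E).comp A) :=
      HasMFDerivAt.comp x h1 hA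
    have h3 : HasMFDerivAt 𝓘(ℂ, E) 𝓘(ℂ, E) (L θ) (e₀ x) (L θ) :=
      (L θ).hasFDerivAt.hasMFDerivAt
    have h4 : HasMFDerivAt 𝓘(ℂ, E) 𝓘(ℂ, E) (L θ ∘ e₀) x ((L θ).comp (D : E →L[ℂ] E)) :=
      HasMFDerivAt.comp x h3 hD
    have h5 : (e₀ ∘ ρ θ) =ᶠ[𝓝 x] (L θ ∘ e₀) := by
      filter_upwards [e₀.open_source.mem_nhds hx] with y hy
      exact (hequiv θ y hy).2
    have h6 := hasMFDerivAt_unique h2 (h4.congr_of_eventuallyEq h5)
    exact congrArg (fun T : E →L[ℂ] E => T v) h6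
  refine ⟨D.toLinearEquiv, fun v => forall_congr' fun θ => ?_⟩
  have h1 := key θ v
  constructor
  · intro h2
    rw [h2] at h1
    exact h1.symm
  · intro h2
    have h3 : L θ (D v) = D v := h2
    rw [h3] at h1
    exact D.injective h1

/-- the dimension of the space of the fixed vectors is constant on the fixed point set -/
theorem finrank_fixV (hK : IsKahler E M) (hρ : IsHolIsomFlow E ρ)
    (hconn : IsPreconnected {x : M | ∀ t, ρ t x = x}) {x y : M} (hx : ∀ t, ρ t x = x)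
    (hy : ∀ t, ρ t y = y) : finrank ℂ (FixV E ρ x) = finrank ℂ (FixV E ρ y) := by
  set C : Set M := {x : M | ∀ t, ρ t x = x} with hC
  have hPC : PreconnectedSpace C := isPreconnected_iff_preconnectedSpace.1 hconn
  have hlc : IsLocallyConstant (fun z : C => finrank ℂ (FixV E ρ (z : M))) := by
    rw [IsLocallyConstant.iff_eventually_eq]
    intro z
    obtain ⟨e₀, he₀, hze, -, L, hequiv⟩ := exists_fix_chart hK hρ z.2
    have hU₁o : IsOpen {w : C | (w : M) ∈ e₀.source} :=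
      e₀.open_source.preimage continuous_subtype_val
    filter_upwards [hU₁o.mem_nhds hze] with w hw
    obtain ⟨D, hD⟩ := fixV_chart hρ he₀ hequiv hw w.2
    obtain ⟨D', hD'⟩ := fixV_chart hρ he₀ hequiv hze z.2
    have h1 : (FixV E ρ (w : M)).map D.toLinearMap = (FixV E ρ (z : M)).map D'.toLinearMap := by
      ext v
      constructor
      · rintro ⟨a, ha, rfl⟩
        refine ⟨D'.symm (D a), (hD' _).2 fun θ => ?_, by simp⟩
        have h2 := (hD a).1 ha θ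
        simpa using h2
      · rintro ⟨a, ha, rfl⟩
        refine ⟨D.symm (D' a), (hD _).2 fun θ => ?_, by simp⟩
        have h2 := (hD' a).1 ha θ
        simpa using h2
    rw [← LinearEquiv.finrank_map_eq D (FixV E ρ (w : M)),
      ← LinearEquiv.finrank_map_eq D' (FixV E ρ (z : M))]
    exact congrArg (fun S : Submodule ℂ E => finrank ℂ S) h1
  exact hlc.apply_eq_of_preconnectedSpace (⟨x, hx⟩ : C) ⟨y, hy⟩

end fixv

section chartD

theorem mdiff_chart {e : OpenPartialHomeomorph M E} (he : e ∈ maximalAtlas 𝓘(ℂ, E) 1 M) :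
    e.MDifferentiable 𝓘(ℂ, E) 𝓘(ℂ, E) :=
  ⟨(contMDiffOn_of_mem_maximalAtlas he).mdifferentiableOn (by simp),
    (contMDiffOn_symm_of_mem_maximalAtlas he).mdifferentiableOn (by simp)⟩

/-- the complex differential of a chart -/
def chartD {e : OpenPartialHomeomorph M E} (he : e ∈ maximalAtlas 𝓘(ℂ, E) 1 M) {x : M}
    (hx : x ∈ e.source) : E ≃L[ℂ] E := (mdiff_chart he).mfderiv hx

end chartD

end Vale.Agent.P253.H348
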