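import Vale.Agent.P253.H348.Tor

/-!
P253: the complexity inequality on the critical set of a Killing potential, and joint fixed points.
-/

open scoped Manifold ContDiff Topology Bundle
open Set Metric Complex Filter Bundle IsManifold Manifold Module Vale.Agent.P253.Mfd
  Vale.Agent.P253.H577 Vale.Agent.P253.H22 Vale.Agent.P253.H202

set_option maxSynthPendingDepth 3
set_option linter.unusedSectionVars false

noncomputable section

namespace Vale.Agent.P253.H348

variable {E : Type*} [NormedAddCommGroup E] [NormedSpace ℂ E] [FiniteDimensional ℂ E]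
  {M : Type*} [MetricSpace M] [ChartedSpace E M]
  [IsManifold 𝓘(ℂ, E) 1 M] [IsManifold 𝓘(ℝ, E) ∞ M]
  [RiemannianBundle (fun x : M => TangentSpace 𝓘(ℝ, E) x)]
  [IsContMDiffRiemannianBundle 𝓘(ℝ, E) ∞ E (fun x : M => TangentSpace 𝓘(ℝ, E) x)]
  [IsRiemannianManifold 𝓘(ℝ, E) M]
  {σ τ ρ Φ : ℝ → M → M} {h : M → ℝ} {e : OpenPartialHomeomorph M E} {γ : ℝ → M}

/-- the fixed vectors in an arbitrary chart -/
theorem mem_FixV_iff (hρ : IsHolIsomFlow E ρ) (he : e ∈ maximalAtlas 𝓘(ℂ, E) 1 M) {x : M}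
    (hx : x ∈ e.source) (hfix : ∀ t, ρ t x = x) (v : E) :
    v ∈ FixV E ρ x ↔ fderiv ℝ (vF ρ e) (e x) (chartD he hx v) = 0 := by
  set D := chartD he hx with hDd
  have hD : HasMFDerivAt 𝓘(ℂ, E) 𝓘(ℂ, E) e x (D : E →L[ℂ] E) :=
    ((mdiff_chart he).mdifferentiableAt hx).hasMFDerivAt
  have key : ∀ θ v, D ((mfderiv 𝓘(ℂ, E) 𝓘(ℂ, E) (ρ θ) x : E → E) v) = TF ρ e (e x) θ (D v) := by
    intro θ v
    let A : E →L[ℂ] E := mfderiv 𝓘(ℂ, E) 𝓘(ℂ, E) (ρ θ) x
    have hA : HasMFDerivAt 𝓘(ℂ, E) 𝓘(ℂ, E) (ρ θ) x A := (hρ.holo θ x).hasMFDerivAt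
    have h1 : HasMFDerivAt 𝓘(ℂ, E) 𝓘(ℂ, E) e (ρ θ x) (D : E →L[ℂ] E) := by
      rw [hfix θ]
      exact hD
    have h2 : HasMFDerivAt 𝓘(ℂ, E) 𝓘(ℂ, E) (e ∘ ρ θ) x ((D : E →L[ℂ] E).comp A) :=
      HasMFDerivAt.comp x h1 hA
    let T : E →L[ℂ] E := TF ρ e (e x) θ
    let H : E → E := fun w => HF ρ e e (θ, w)
    have h3' : HasFDerivAt H T (e x) :=
      (HΩ_slice_holo hρ he he (mem_HΩ_fixed hρ he hx hfix θ)).hasFDerivAt
    have h3 : HasMFDerivAt 𝓘(ℂ, E) 𝓘(ℂ, E) H (e x) T := h3'.hasMFDerivAt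
    have h4 : HasMFDerivAt 𝓘(ℂ, E) 𝓘(ℂ, E) (H ∘ e) x (T.comp (D : E →L[ℂ] E)) :=
      HasMFDerivAt.comp x h3 hD
    have h5 : (e ∘ ρ θ) =ᶠ[𝓝 x] (H ∘ e) := by
      filter_upwards [e.open_source.mem_nhds hx] with y hy
      simp only [H, Function.comp_apply, HF]
      rw [e.left_inv hy]
    have h6 := hasMFDerivAt_unique h2 (h4.congr_of_eventuallyEq h5)
    exact congrArg (fun T : E →L[ℂ] E => T v) h6
  rw [mem_FixV]
  constructor
  · intro h1
    have h2 : ∀ t, TF ρ e (e x) t (D v) = D v := fun t =>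
      (key t v).symm.trans (congrArg D (h1 t))
    have h3 := hasDerivAt_TF hρ he hx hfix 0 (D v)
    have h4 : HasDerivAt (fun s => TF ρ e (e x) s (D v)) 0 0 :=
      (hasDerivAt_const (0:ℝ) (D v)).congr_of_eventuallyEq (Eventually.of_forall h2)
    have h5 := h3.unique h4
    rw [TF_zero hρ he hx hfix] at h5
    have h6 := fderiv_vF hρ he (e.map_source hx) (D v)
    rw [h5] at h6
    have h7 := congrArg (fun y => I • y) h6
    simpa [smul_smul] using h7
  · intro h1 t
    apply D.injective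
    refine (key t v).trans ?_
    rw [TF_eigen hρ he hx hfix (r := 0) (by rw [h1, zero_smul])]
    simp


variable {V : Type*} [NormedAddCommGroup V] [NormedSpace ℝ V] {R : V → M → M} {κ₀ κ : V}

/-- **The complexity inequality on the critical set.** -/
theorem complexity [FiniteDimensional ℝ V] (hK : IsKahler E M) [CompleteSpace M]
    [NoncompactSpace M] [ConnectedSpace M] (hpos : ∀ x : M, PosBisectionalAt E x)
    (hR : IsHolIsomAction E R) (hgrad : IsGradOf (E := E) (ln R κ₀) h)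
    (hconn : IsPreconnected {x : M | ∀ t, ln R κ₀ t x = x})
    (hmin : ∀ y, (∀ t, ln R κ₀ t y = y) → ∀ᶠ z in 𝓝 y, h y ≤ h z) {x₁ : M}
    (hx₁ : ∀ t, ln R κ₀ t x₁ = x₁)
    (hspan : ∀ v ∈ FixV E (ln R κ₀) x₁,
      v ∈ Submodule.span ℂ (range (vL R (chartAt E x₁) (chartAt E x₁ x₁)))) {y : M}
    (hy : ∀ t, ln R κ₀ t y = y) (he : e ∈ maximalAtlas 𝓘(ℂ, E) 1 M) (hye : y ∈ e.source)
    (W : Submodule ℂ E) (hW : ∀ x ∈ W, ∀ κ, vL R e (e y) κ = 0 →
      linPart (vL R e) (e y) κ x = 0) :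
    finrank ℂ W + finrank ℝ (LinearMap.ker (vL R e (e y) : V →ₗ[ℝ] E)) ≤ finrank ℝ V := by
  have hz : e y ∈ e.target := e.map_source hye
  have hLK := localKahler_chartG hK he
  have hL := commFam_vL hR he
  set K : Submodule ℝ V := LinearMap.ker (vL R e (e y) : V →ₗ[ℝ] E) with hKd
  have hKm : ∀ η : K, vL R e (e y) (η : V) = 0 := fun η => η.2
  obtain ⟨b, r, hr⟩ := exists_joint_basis (hermForm_of_local hLK hz)
    (fun η : K => linPart (vL R e) (e y) (η : V))
    (fun η a b => hL.linPart_symm hLK hz (hKm η) a b)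
    (fun η η' => hL.linPart_comm hLK hz (hKm η) (hKm η'))
  set k₀ : K := ⟨κ₀, (mem_kerAt hR he hye).1 (mem_kerAt_of_fixed hR hy)⟩ with hk₀
  have hev : ∀ (e : OpenPartialHomeomorph M E), e ∈ maximalAtlas 𝓘(ℂ, E) 1 M → y ∈ e.source →
      ∀ η : V, (fun z => vL R e z η) =ᶠ[𝓝 (e y)] vF (ln R η) e := fun e he hye η => by
    filter_upwards [e.open_target.mem_nhds (e.map_source hye)] with z hz using vL_apply hR he hz η
  have hFix : ∀ (e : OpenPartialHomeomorph M E) (he : e ∈ maximalAtlas 𝓘(ℂ, E) 1 M)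
      (hye : y ∈ e.source) (η : V), (∀ t, ln R η t y = y) → ∀ v : E,
      v ∈ FixV E (ln R η) y ↔ fderiv ℝ (fun z => vL R e z η) (e y) (chartD he hye v) = 0 := by
    intro e he hye η hη v
    rw [mem_FixV_iff (hR.line η) he hye hη v, (hev e he hye η).fderiv_eq]
  have hrig : ∀ η : K, (∀ x, linPart (vL R e) (e y) (k₀ : V) x = 0 →
      linPart (vL R e) (e y) (η : V) x = 0) → η ∈ (kerAt E R x₁).comap K.subtype := by
    intro η hη
    have hηy : ∀ t, ln R (η : V) t y = y := fun t =>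
      fixed_of_mem_kerAt hR ((mem_kerAt hR he hye).2 (hKm η)) t
    have h1 : ∀ v ∈ FixV E (ln R κ₀) y, v ∈ FixV E (ln R (η : V)) y := by
      intro v hv
      rw [hFix e he hye κ₀ hy v] at hv
      rw [hFix e he hye η hηy v]
      have h2 := hη (chartD he hye v) (by rw [linPart_apply hLK hL hz]; exact hv)
      rw [linPart_apply hLK hL hz] at h2
      exact h2
    have he' : chartAt E y ∈ maximalAtlas 𝓘(ℂ, E) 1 M := chart_mem_maximalAtlas y
    have hye' := mem_chart_source E y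
    have hloc := rigid_local (κ := (η : V)) hK hpos hR hgrad (hmin y hy) hηy (fun a ha => by
      have h3 := h1 ((chartD he' hye').symm a)
      rw [hFix _ he' hye' κ₀ hy, hFix _ he' hye' η hηy, ContinuousLinearEquiv.apply_symm_apply]
        at h3
      exact h3 ha)
    have h4 := rigid_global hK hR hconn hy hloc hx₁
    exact mem_kerAt_of_fixed hR h4
  have h1 := finrank_ker_le_rel (fun η : K => linPart (vL R e) (e y) (η : V)) (fun η η' x => by
      simp only [Submodule.coe_add]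
      rw [linPart_apply hLK hL hz, linPart_apply hLK hL hz, linPart_apply hLK hL hz,
        hL.fderiv_apply hLK hz, hL.fderiv_apply hLK hz, hL.fderiv_apply hLK hz, map_add])
    (fun s η x => by
      simp only [Submodule.coe_smul]
      rw [linPart_apply hLK hL hz, linPart_apply hLK hL hz,
        hL.fderiv_apply hLK hz, hL.fderiv_apply hLK hz, map_smul])
    k₀ ((kerAt E R x₁).comap K.subtype) hrig W (fun x hx η => hW x hx η (hKm η)) b r hr
  have h2 : finrank ℝ ((kerAt E R x₁).comap K.subtype) ≤ finrank ℝ (kerAt E R x₁) := by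
    have h3 := LinearMap.finrank_le_finrank_of_injective
      (f := (K.subtype.restrict (p := (kerAt E R x₁).comap K.subtype) (q := kerAt E R x₁)
        (fun x hx => hx))) (fun a b hab => by
        apply Subtype.ext
        apply Subtype.ext
        exact congrArg (fun u : kerAt E R x₁ => (u : V)) hab)
    exact h3
  have h3 : finrank ℂ (LinearMap.ker (linPart (vL R e) (e y) (k₀ : V))) ≤
      finrank ℂ (FixV E (ln R κ₀) y) := by
    rw [← LinearEquiv.finrank_map_eq (chartD he hye).toLinearEquiv (FixV E (ln R κ₀) y)]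
    refine Submodule.finrank_mono fun x hx => ?_
    refine ⟨(chartD he hye).symm x, ?_, by simp⟩
    rw [LinearMap.mem_ker, linPart_apply hLK hL hz] at hx
    have h4 := (hFix e he hye κ₀ hy ((chartD he hye).symm x)).2 (by
      rw [ContinuousLinearEquiv.apply_symm_apply]; exact hx)
    exact h4
  have h4 := finrank_fixV hK (hR.line κ₀) hconn hy hx₁
  have h5 : finrank ℂ (FixV E (ln R κ₀) x₁) ≤
      finrank ℂ (Submodule.span ℂ (range (vL R (chartAt E x₁) (chartAt E x₁ x₁)))) :=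
    Submodule.finrank_mono hspan
  have h6 := finrank_span_le (vL R (chartAt E x₁) (chartAt E x₁ x₁))
  have h7 : kerAt E R x₁ = LinearMap.ker (vL R (chartAt E x₁) (chartAt E x₁ x₁) : V →ₗ[ℝ] E) := rfl
  rw [← h7] at h6
  have h8 : finrank ℂ (LinearMap.ker ((fun η : K => linPart (vL R e) (e y) (η : V)) k₀)) =
    finrank ℂ (LinearMap.ker (linPart (vL R e) (e y) (k₀ : V))) := rfl
  omega

end Vale.Agent.P253.H348
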