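import Vale.Agent.P253.H348.Tor3

/-!
P253: an isotropic orbit of a commuting family of flows spanning the critical set of a Killing
potential.
-/

open scoped Manifold ContDiff Topology Bundle
open Set Metric Complex Filter Bundle IsManifold Manifold Module Vale.Agent.P253.Mfd
  Vale.Agent.P253.H577 Vale.Agent.P253.H22 Vale.Agent.P253.H202

set_option maxSynthPendingDepth 3
set_option linter.unusedSectionVars false

noncomputable section

namespace Vale.Agent.P253.H348

variable {E : Type*} [NormedAddCommGroup E] [NormedSpace ℂ E] [FiniteDimensional ℂ E]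
  {M : Type*} [MetricSpace M] [ChartedSpace E M]
  [IsManifold 𝓘(ℂ, E) 1 M] [IsManifold 𝓘(ℝ, E) ∞ M]
  [RiemannianBundle (fun x : M => TangentSpace 𝓘(ℝ, E) x)]
  [IsContMDiffRiemannianBundle 𝓘(ℝ, E) ∞ E (fun x : M => TangentSpace 𝓘(ℝ, E) x)]
  [IsRiemannianManifold 𝓘(ℝ, E) M]
  {ρ : ℝ → M → M} {h : M → ℝ} {e : OpenPartialHomeomorph M E}
  {V : Type*} [NormedAddCommGroup V] [NormedSpace ℝ V] {R : V → M → M} {κ₀ : V}

/-- **Positive weights.** -/
theorem exists_pos_weights [FiniteDimensional ℝ V] (hK : IsKahler E M) [CompleteSpace M]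
    [NoncompactSpace M] [ConnectedSpace M] (hpos : ∀ x : M, PosBisectionalAt E x)
    (hR : IsHolIsomAction E R) (hgrad : IsGradOf (E := E) (ln R κ₀) h)
    (hconn : IsPreconnected {x : M | ∀ t, ln R κ₀ t x = x})
    (hmin : ∀ y, (∀ t, ln R κ₀ t y = y) → ∀ᶠ z in 𝓝 y, h y ≤ h z) {x₁ : M}
    (hx₁ : ∀ t, ln R κ₀ t x₁ = x₁)
    (hspan : ∀ v ∈ FixV E (ln R κ₀) x₁,
      v ∈ Submodule.span ℂ (range (vL R (chartAt E x₁) (chartAt E x₁ x₁)))) {p : M}
    (hp : kerAt E R p = ⊤) :
    ∃ (ξ : V) (b : Basis (Fin (finrank ℂ E)) ℂ E) (m : Fin (finrank ℂ E) → ℝ),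
      HasWeights (ln R ξ) p b m := by
  classical
  have he : chartAt E p ∈ maximalAtlas 𝓘(ℂ, E) 1 M := chart_mem_maximalAtlas p
  have hx : p ∈ (chartAt E p).source := mem_chart_source E p
  have hz : chartAt E p p ∈ (chartAt E p).target := mem_chart_target E p
  have hLK := localKahler_chartG hK he
  have hL := commFam_vL hR he
  have hmem : ∀ κ, κ ∈ kerAt E R p := fun κ => by rw [hp]; exact Submodule.mem_top
  have hzero : ∀ κ, vL R (chartAt E p) (chartAt E p p) κ = 0 := fun κ =>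
    (mem_kerAt hR he hx).1 (hmem κ)
  have hfix : ∀ ξ t, ln R ξ t p = p := fun ξ t => fixed_of_mem_kerAt hR (hmem ξ) t
  obtain ⟨b, r, hr⟩ := hL.exists_weights hLK hz hzero
  have hbne : ∀ j, b j ≠ 0 := fun j => b.ne_zero j
  have hadd : ∀ j κ κ', r j (κ + κ') = r j κ + r j κ' := by
    intro j κ κ'
    have h1 : (r j (κ + κ')) • b j = (r j κ + r j κ') • b j := by
      rw [add_smul, ← hr, ← hr, ← hr, hL.fderiv_apply hLK hz, hL.fderiv_apply hLK hz,
        hL.fderiv_apply hLK hz, map_add]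
    exact smul_left_injective ℝ (hbne j) h1
  have hsmul : ∀ j (s : ℝ) κ, r j (s • κ) = s • r j κ := by
    intro j s κ
    have h1 : (r j (s • κ)) • b j = (s • r j κ) • b j := by
      rw [smul_eq_mul, mul_smul, ← hr, ← hr, hL.fderiv_apply hLK hz, hL.fderiv_apply hLK hz,
        map_smul]
    exact smul_left_injective ℝ (hbne j) h1
  have hev : ∀ η : V, (fun z => vL R (chartAt E p) z η) =ᶠ[𝓝 (chartAt E p p)]
      vF (ln R η) (chartAt E p) := fun η => by
    filter_upwards [(chartAt E p).open_target.mem_nhds hz] with z hz using vL_apply hR he hz η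
  have hwt : ∀ (η : V) (t : ℝ) j, mfderiv 𝓘(ℂ, E) 𝓘(ℂ, E) (ln R η t) p (b j) =
      exp (t * r j η * I) • b j := by
    intro η t j
    have h1 := mfderiv_eq_TF (hR.line η) (hfix η) t (b j)
    rw [TF_eigen (hR.line η) he hx (hfix η) (r := r j η)
      (by rw [← (hev η).fderiv_eq]; exact hr j η)] at h1
    exact h1
  have hα : ∀ j, 0 ≤ r j κ₀ := fun j =>
    weights_nonneg_of_localMin (hR.line κ₀) hgrad (hmin p (hfix κ₀)) (hwt κ₀) j
  set J₀ : Finset (Fin (finrank ℂ E)) := Finset.univ.filter (fun j => r j κ₀ = 0) with hJ₀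
  -- the weights on `J₀` are independent
  let Φ : V →ₗ[ℝ] (J₀ → ℝ) :=
    { toFun := fun κ j => r j κ
      map_add' := fun κ κ' => by funext j; exact hadd j κ κ'
      map_smul' := fun s κ => by funext j; exact hsmul j s κ }
  have hΦ : ∀ κ (j : J₀), Φ κ j = r j κ := fun _ _ => rfl
  have hcoef : ∀ κ x, fderiv ℝ (fun z => vL R (chartAt E p) z κ) (chartAt E p p) x =
      ∑ i, b.coord i x • (r i κ • b i) := by
    intro κ x
    rw [← linPart_apply hLK hL hz]
    conv_lhs => rw [← b.sum_repr x, map_sum]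
    refine Finset.sum_congr rfl fun i _ => ?_
    rw [map_smul, linPart_apply hLK hL hz, hr]
    rfl
  have hker : LinearMap.ker Φ ≤ kerAt E R x₁ := by
    intro κ hκ
    have h3 : ∀ j, r j κ₀ = 0 → r j κ = 0 := by
      intro j hj
      have hj' : j ∈ J₀ := by rw [hJ₀, Finset.mem_filter]; exact ⟨Finset.mem_univ j, hj⟩
      exact congrFun (LinearMap.mem_ker.1 hκ) ⟨j, hj'⟩
    have hloc := rigid_local (κ := κ) hK hpos hR hgrad (hmin p (hfix κ₀)) (hfix κ) (fun a ha => by
      have h4 : ∀ j, r j κ₀ ≠ 0 → b.coord j a = 0 := by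
        intro j hj
        rw [hcoef] at ha
        have h6 := congrArg (b.coord j) ha
        rw [map_sum, map_zero, Finset.sum_eq_single j] at h6
        · rw [map_smul] at h6
          have h7 : b.coord j (r j κ₀ • b j) = r j κ₀ := by
            have : r j κ₀ • b j = ((r j κ₀ : ℂ)) • b j := rfl
            rw [this, map_smul]
            simp
          rw [h7, smul_eq_mul] at h6
          rcases mul_eq_zero.1 h6 with h8 | h8
          · exact h8
          · exact absurd (by exact_mod_cast h8) hj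
        · intro i _ hij
          rw [map_smul]
          have : r i κ₀ • b i = ((r i κ₀ : ℂ)) • b i := rfl
          rw [this, map_smul]
          simp [hij]
        · simp
      rw [hcoef]
      refine Finset.sum_eq_zero fun i _ => ?_
      by_cases hi : r i κ₀ = 0
      · rw [h3 i hi, zero_smul, smul_zero]
      · rw [h4 i hi, zero_smul])
    exact mem_kerAt_of_fixed hR (rigid_global hK hR hconn (hfix κ₀) hloc hx₁)
  have hcard : J₀.card ≤ finrank ℂ (FixV E (ln R κ₀) p) := by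
    let v : J₀ → FixV E (ln R κ₀) p := fun j => ⟨(chartD he hx).symm (b j), by
      rw [mem_FixV_iff (hR.line κ₀) he hx (hfix κ₀), ContinuousLinearEquiv.apply_symm_apply,
        ← (hev κ₀).fderiv_eq, hr, (Finset.mem_filter.1 j.2).2, zero_smul]⟩
    have hli : LinearIndependent ℂ v := by
      have h4 : LinearIndependent ℂ (fun j : J₀ => b (j : Fin _)) :=
        b.linearIndependent.comp _ Subtype.val_injective
      have h5 := h4.map' (((chartD he hx).symm : E →L[ℂ] E) : E →ₗ[ℂ] E)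
        (LinearMap.ker_eq_bot.2 (chartD he hx).symm.injective)
      exact LinearIndependent.of_comp (FixV E (ln R κ₀) p).subtype h5
    have h4 := hli.fintype_card_le_finrank
    simpa using h4
  have h4 := finrank_fixV hK (hR.line κ₀) hconn (hfix κ₀) hx₁
  have h5 : finrank ℂ (FixV E (ln R κ₀) x₁) ≤
      finrank ℂ (Submodule.span ℂ (range (vL R (chartAt E x₁) (chartAt E x₁ x₁)))) :=
    Submodule.finrank_mono hspan
  have h6 := finrank_span_le (vL R (chartAt E x₁) (chartAt E x₁ x₁))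
  have h7 : kerAt E R x₁ = LinearMap.ker (vL R (chartAt E x₁) (chartAt E x₁ x₁) : V →ₗ[ℝ] E) := rfl
  rw [← h7] at h6
  have h8 := Submodule.finrank_mono hker
  have h9 := LinearMap.finrank_range_add_finrank_ker Φ
  have hsurj : LinearMap.range Φ = ⊤ := by
    apply Submodule.eq_top_of_finrank_eq
    have h10 := Submodule.finrank_le (LinearMap.range Φ)
    have h11 : finrank ℝ (J₀ → ℝ) = J₀.card := by simp
    omega
  obtain ⟨ξ, hξ⟩ := LinearMap.range_eq_top.1 hsurj (fun _ => 1)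
  have hξ1 : ∀ j, r j κ₀ = 0 → r j ξ = 1 := by
    intro j hj
    have hj' : j ∈ J₀ := by rw [hJ₀, Finset.mem_filter]; exact ⟨Finset.mem_univ j, hj⟩
    have h12 := congrFun hξ ⟨j, hj'⟩
    exact h12
  set s : ℝ := ∑ j, (1 + |r j ξ|) / r j κ₀ with hs
  refine ⟨s • κ₀ + ξ, b, fun j => r j (s • κ₀ + ξ), hfix _, fun j => ?_, hwt _⟩
  change 0 < r j (s • κ₀ + ξ)
  rw [hadd, hsmul, smul_eq_mul]
  rcases (hα j).eq_or_lt with h1 | h1
  · rw [← h1, hξ1 j h1.symm]; norm_num
  · have h2 : (1 + |r j ξ|) / r j κ₀ ≤ s := by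
      rw [hs]
      exact Finset.single_le_sum (f := fun j => (1 + |r j ξ|) / r j κ₀)
        (fun i _ => div_nonneg (by positivity) (hα i)) (Finset.mem_univ j)
    rw [div_le_iff₀ h1] at h2
    have h3 := neg_abs_le (r j ξ)
    linarith

variable {x₀ : M}

/-- **An isotropic orbit spanning the critical set.** -/
theorem main_orbit [FiniteDimensional ℝ V] (hK : IsKahler E M) [CompleteSpace M]
    [NoncompactSpace M] [ConnectedSpace M] (hpos : ∀ x : M, PosBisectionalAt E x)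
    (hR : IsHolIsomAction E R) (hh : ContMDiff 𝓘(ℝ, E) 𝓘(ℝ, ℝ) ∞ h)
    (hρ : IsJGradFlow E h (ln R κ₀))
    (hlow : (∃ p, IsLocalMin h p) ∨ ∀ ε > 0, ∃ C, ∀ x, -(ε * dist x₀ x) - C ≤ h x) {x₁ : M}
    (hx₁ : mfderiv 𝓘(ℝ, E) 𝓘(ℝ, ℝ) h x₁ = 0) (hiso : IsIsotropicOrbit E R x₁)
    (hspan : ∀ v : E, (∀ t, (mfderiv 𝓘(ℂ, E) 𝓘(ℂ, E) (ln R κ₀ t) x₁ : E → E) v = v) →
      v ∈ Submodule.span ℂ (range fun ξ : V => velocity E R ξ x₁)) :
    ∃ (ξ : V) (p : M) (b : Basis (Fin (finrank ℂ E)) ℂ E) (m : Fin (finrank ℂ E) → ℝ)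
      (F : M ≃ₘ^1⟮𝓘(ℂ, E), 𝓘(ℂ, E)⟯ E), (∀ η, R η p = p) ∧
        mfderiv 𝓘(ℝ, E) 𝓘(ℝ, ℝ) h p = 0 ∧ HasWeights (fun t => R (t • ξ)) p b m ∧
        IsLinearization (fun t => R (t • ξ)) p F := by
  have hgrad := isGradOf_flow hK hh hρ
  obtain ⟨⟨P, hPd, hPP, hcrit, hminP, -⟩, -, -⟩ := main_final hK hpos hh hρ (x₀ := x₀) hlow
  have hfixP : ∀ x, (∀ t, ln R κ₀ t x = x) ↔ P x = x := fun x => by
    rw [← hcrit x]
    exact hρ.fixed_iff hK hh x
  have hconn : IsPreconnected {x : M | ∀ t, ln R κ₀ t x = x} := by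
    have h1 : {x : M | ∀ t, ln R κ₀ t x = x} = range P := by
      ext x
      constructor
      · intro hx
        exact ⟨x, (hfixP x).1 hx⟩
      · rintro ⟨y, rfl⟩
        exact (hfixP _).2 (hPP y)
    rw [h1]
    exact isPreconnected_range hPd.continuous
  have hmin : ∀ y, (∀ t, ln R κ₀ t y = y) → ∀ᶠ z in 𝓝 y, h y ≤ h z := fun y hy =>
    Filter.Eventually.of_forall ((hminP y).1 ((hfixP y).1 hy))
  have hx₁' : ∀ t, ln R κ₀ t x₁ = x₁ := (hfixP x₁).2 ((hcrit x₁).1 hx₁)
  have hspan' : ∀ v ∈ FixV E (ln R κ₀) x₁,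
      v ∈ Submodule.span ℂ (range (vL R (chartAt E x₁) (chartAt E x₁ x₁))) := by
    intro v hv
    have h1 := hspan v hv
    refine (Submodule.span_le (p := Submodule.span ℂ
      (range (vL R (chartAt E x₁) (chartAt E x₁ x₁))))).2 ?_ h1
    rintro _ ⟨ξ, rfl⟩
    change velocity E R ξ x₁ ∈ Submodule.span ℂ (range (vL R (chartAt E x₁) (chartAt E x₁ x₁)))
    rw [velocity_eq hR, WE, ← vL_apply hR (chart_mem_maximalAtlas x₁) (mem_chart_target E x₁)]
    exact Submodule.smul_mem _ _ (Submodule.subset_span ⟨ξ, rfl⟩)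
  have hiso' : ∀ (x : M) (ξ η : V), isoM E R ξ η x = 0 := fun x ξ η => by
    rw [isoM_const hK hR ξ η x x₁]
    exact (isotropic_iff hR x₁).1 hiso ξ η
  obtain ⟨p, hpC, hp⟩ := exists_fixed_rel hK
    (fun e he x hx a ha => Rc_pos_of_holSect hK he hx (hpos x).posHolSect a ha) hR hx₁' hiso'
    (fun y hy e he hye W hW => complexity hK hpos hR hgrad hconn hmin hx₁' hspan' hy he hye W hW)
  obtain ⟨ξ, b, m, hw⟩ := exists_pos_weights hK hpos hR hgrad hconn hmin hx₁' hspan' hp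
  obtain ⟨F, hF, -⟩ := Vale.Agent.P253.U165.main_weights hK (fun x => (hpos x).nonneg)
    (hR.line ξ) (hpos p) hw
  refine ⟨ξ, p, b, m, F, fun η => ?_, (hcrit p).2 ((hfixP p).1 hpC), hw, hF⟩
  have h1 : η ∈ kerAt E R p := by rw [hp]; exact Submodule.mem_top
  have h2 := fixed_of_mem_kerAt hR h1 1
  rwa [ln_one] at h2

end Vale.Agent.P253.H348
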