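import Vale.Agent.P253.H348.BBPMain

/-!
P253: the holomorphic retraction onto the critical set is a locally trivial holomorphic fibre
bundle with fibre a vector space.
-/

open scoped Manifold ContDiff Topology Bundle
open Set Metric Complex Filter Bundle IsManifold Manifold Module Vale.Agent.P253.Mfd
  Vale.Agent.P253.H577 Vale.Agent.P253.H22 Vale.Agent.P253.H202

set_option maxSynthPendingDepth 3
set_option linter.unusedSectionVars false

noncomputable section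

namespace Vale.Agent.P253.H348

variable {E : Type*} [NormedAddCommGroup E] [NormedSpace ℂ E] [FiniteDimensional ℂ E]
  {M : Type*} [MetricSpace M] [ChartedSpace E M]
  [IsManifold 𝓘(ℂ, E) 1 M] [IsManifold 𝓘(ℝ, E) ∞ M]
  [RiemannianBundle (fun x : M => TangentSpace 𝓘(ℝ, E) x)]
  [IsContMDiffRiemannianBundle 𝓘(ℝ, E) ∞ E (fun x : M => TangentSpace 𝓘(ℝ, E) x)]
  [IsRiemannianManifold 𝓘(ℝ, E) M]
  {ρ Φ : ℝ → M → M} {e e' : OpenPartialHomeomorph M E} {γ : ℝ → M} {h : M → ℝ} {x₀ : M}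
  {ι : Type*} [Fintype ι] {φ : E ≃L[ℂ] (ι → ℂ)} {m : ι → ℝ}

/-- the projection to the zero weights, as a linear map -/
def zeroProjL (φ : E ≃L[ℂ] (ι → ℂ)) (m : ι → ℝ) : E →L[ℂ] E :=
  (φ.symm : (ι → ℂ) →L[ℂ] E).comp ((ContinuousLinearMap.pi fun j =>
    if m j = 0 then ContinuousLinearMap.proj (R := ℂ) (φ := fun _ : ι => ℂ) j else 0).comp
      (φ : E →L[ℂ] (ι → ℂ)))

theorem zeroProjL_apply (z : E) : zeroProjL φ m z = zeroProj φ m z := by
  have h1 : (fun j => (if m j = 0 then ContinuousLinearMap.proj (R := ℂ) (φ := fun _ : ι => ℂ) j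
      else 0 : (ι → ℂ) →L[ℂ] ℂ) (φ z)) = fun j => if m j = 0 then φ z j else 0 := by
    funext j
    split_ifs <;> rfl
  change φ.symm (fun j => (if m j = 0 then ContinuousLinearMap.proj (R := ℂ)
    (φ := fun _ : ι => ℂ) j else 0 : (ι → ℂ) →L[ℂ] ℂ) (φ z)) = φ.symm _
  rw [h1]

theorem zeroProjL_coord (z : E) (j : ι) :
    φ (zeroProjL φ m z) j = if m j = 0 then φ z j else 0 := by
  rw [zeroProjL_apply, zeroProj, φ.apply_symm_apply]

theorem zeroProjL_idem (z : E) : zeroProjL φ m (zeroProjL φ m z) = zeroProjL φ m z := by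
  apply ext_coord (φ := φ)
  intro j
  rw [zeroProjL_coord, zeroProjL_coord]
  split_ifs <;> rfl

theorem zeroProjL_LE (ζ : ℂ) (z : E) : zeroProjL φ m (LE φ m ζ z) = zeroProjL φ m z := by
  apply ext_coord (φ := φ)
  intro j
  rw [zeroProjL_coord, zeroProjL_coord, LE_coord]
  split_ifs with hj
  · rw [hj, ofReal_zero, mul_zero, exp_zero, one_mul]
  · rfl

theorem norm_zeroProjL_le (z : E) : ‖φ (zeroProjL φ m z)‖ ≤ ‖φ z‖ := by
  rw [pi_norm_le_iff_of_nonneg (norm_nonneg _)]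
  intro j
  rw [zeroProjL_coord]
  split_ifs
  · exact norm_le_pi_norm (φ z) j
  · rw [norm_zero]; exact norm_nonneg _

theorem tendsto_LE_zeroProjL (hm : ∀ j, 0 ≤ m j) (z : E) :
    Tendsto (fun t : ℝ => LE φ m (t : ℂ) z) atBot (𝓝 (zeroProjL φ m z)) := by
  obtain ⟨w, hw, ht⟩ := tendsto_LE_back (φ := φ) hm z
  have h1 : w = zeroProjL φ m z := by
    apply ext_coord (φ := φ)
    intro j
    rw [hw, zeroProjL_coord]
  rwa [← h1]

/-- the linear vectors fixed by the linear action are those of the zero weights -/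
theorem zeroProjL_eq_iff (z : E) :
    zeroProjL φ m z = z ↔ ∀ θ : ℝ, LE φ m (θ * I) z = z := by
  constructor
  · intro hz θ
    apply ext_coord (φ := φ)
    intro j
    rw [LE_coord]
    by_cases hj : m j = 0
    · rw [hj, ofReal_zero, mul_zero, exp_zero, one_mul]
    · have h1 : φ z j = 0 := by
        rw [← hz, zeroProjL_coord, if_neg hj]
      rw [h1, mul_zero]
  · intro hz
    apply ext_coord (φ := φ)
    intro j
    rw [zeroProjL_coord]
    split_ifs with hj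
    · rfl
    · have h1 := congrArg (fun w => φ w j) (hz (Real.pi / m j))
      simp only [LE_coord] at h1
      have h2 : ((Real.pi / m j : ℝ) : ℂ) * I * (m j : ℂ) = Real.pi * I := by
        have h3 : (m j : ℂ) ≠ 0 := ofReal_ne_zero.2 hj
        push_cast
        field_simp
      rw [h2, exp_pi_mul_I] at h1
      have h4 : (2 : ℂ) * φ z j = 0 := by linear_combination -h1
      rcases mul_eq_zero.1 h4 with h5 | h5
      · norm_num at h5
      · exact h5.symm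

/-- **the tube chart**: the flow develops the linearizing chart to a chart of a saturated open
set -/
theorem exists_tube_chart (hm : ∀ j, 0 ≤ m j)
    {e₀ : OpenPartialHomeomorph M E} (he₀ : e₀ ∈ maximalAtlas 𝓘(ℂ, E) 1 M) {δ : ℝ}
    (htgt : e₀.target = {z | ‖φ z‖ < δ})
    {Φ : ℝ → M → M} (hΦ0 : ∀ x, Φ 0 x = x) (hΦadd : ∀ s t x, Φ (s + t) x = Φ s (Φ t x))
    (hΦhol : ∀ t, MDifferentiable 𝓘(ℂ, E) 𝓘(ℂ, E) (Φ t))
    (hloc : ∀ t : ℝ, t ≤ 0 → ∀ x ∈ e₀.source,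
      Φ t x ∈ e₀.source ∧ e₀ (Φ t x) = LE φ m ((t : ℝ) : ℂ) (e₀ x))
    {ρ : ℝ → M → M}
    (hequiv : ∀ θ : ℝ, ∀ x ∈ e₀.source, ρ θ x ∈ e₀.source ∧ e₀ (ρ θ x) = LE φ m (θ * I) (e₀ x))
    (hcomm : ∀ θ t x, ρ θ (Φ t x) = Φ t (ρ θ x)) :
    ∃ e ∈ maximalAtlas 𝓘(ℂ, E) 1 M, e.target = {z | ‖φ (zeroProjL φ m z)‖ < δ} ∧
      (∀ x, x ∈ e.source ↔ ∃ n : ℕ, Φ (-(n:ℝ)) x ∈ e₀.source) ∧
      (∀ x ∈ e₀.source, e x = e₀ x) ∧
      (∀ (n : ℕ) x, Φ (-(n:ℝ)) x ∈ e₀.source → e x = LE φ m ((n : ℝ) : ℂ) (e₀ (Φ (-(n:ℝ)) x))) ∧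
      ∀ (θ : ℝ), ∀ x ∈ e.source, ρ θ x ∈ e.source ∧ e (ρ θ x) = LE φ m (θ * I) (e x) := by
  classical
  have hcancel : ∀ s x, Φ s (Φ (-s) x) = x := fun s x => by rw [← hΦadd, add_neg_cancel, hΦ0]
  have hcancel' : ∀ s x, Φ (-s) (Φ s x) = x := fun s x => by rw [← hΦadd, neg_add_cancel, hΦ0]
  have hLcancel : ∀ (s : ℝ) (z : E), LE φ m (s : ℂ) (LE φ m ((-s : ℝ) : ℂ) z) = z := by
    intro s z
    rw [← LE_add]; push_cast; rw [add_neg_cancel, LE_zero]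
  have hLcancel' : ∀ (s : ℝ) (z : E), LE φ m ((-s : ℝ) : ℂ) (LE φ m (s : ℂ) z) = z := by
    intro s z
    rw [← LE_add]; push_cast; rw [neg_add_cancel, LE_zero]
  -- the local formula for the inverse chart
  have hlocs : ∀ s : ℝ, 0 ≤ s → ∀ w ∈ e₀.target, LE φ m ((-s : ℝ) : ℂ) w ∈ e₀.target ∧
      Φ s (e₀.symm (LE φ m ((-s : ℝ) : ℂ) w)) = e₀.symm w := by
    intro s hs w hw
    have h1 := hloc (-s) (by linarith only [hs]) (e₀.symm w) (e₀.map_target hw)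
    rw [e₀.right_inv hw] at h1
    have h2 : LE φ m ((-s : ℝ) : ℂ) w ∈ e₀.target := h1.2 ▸ e₀.map_source h1.1
    refine ⟨h2, ?_⟩
    rw [← h1.2, e₀.left_inv h1.1, hcancel]
  -- the developing maps
  set S : ℕ → Set M := fun n => Φ (-(n:ℝ)) ⁻¹' e₀.source with hS
  set D : ℕ → Set E := fun n => LE φ m ((-(n:ℝ) : ℝ) : ℂ) ⁻¹' e₀.target with hD
  set F : ℕ → M → E := fun n x => LE φ m (((n:ℝ) : ℝ) : ℂ) (e₀ (Φ (-(n:ℝ)) x)) with hF
  set H : ℕ → E → M := fun n z => Φ (n:ℝ) (e₀.symm (LE φ m ((-(n:ℝ) : ℝ) : ℂ) z)) with hH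
  set T : Set E := {z | ‖φ (zeroProjL φ m z)‖ < δ} with hT
  have hSo : ∀ n, IsOpen (S n) := fun n => e₀.open_source.preimage (hΦhol _).continuous
  have hDo : ∀ n, IsOpen (D n) := fun n =>
    e₀.open_target.preimage (differentiable_LE_right _).continuous
  have hTo : IsOpen T := by
    have h1 : Continuous (fun z : E => ‖φ (zeroProjL φ m z)‖) :=
      (φ.continuous.comp (zeroProjL φ m).continuous).norm
    exact isOpen_lt h1 continuous_const
  have hFmono : ∀ n k, n ≤ k → ∀ x ∈ S n, x ∈ S k ∧ F k x = F n x := by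
    intro n k hnk x hx
    have hnk' : (n:ℝ) ≤ k := by exact_mod_cast hnk
    have h1 := hloc (-((k:ℝ) - n)) (by linarith only [hnk']) _ hx
    rw [← hΦadd] at h1
    have e1 : -((k:ℝ) - n) + -(n:ℝ) = -(k:ℝ) := by ring
    rw [e1] at h1
    refine ⟨h1.1, ?_⟩
    simp only [hF]
    rw [h1.2, ← LE_add]
    congr 1
    push_cast; ring
  have hHmono : ∀ n k, n ≤ k → ∀ z ∈ D n, z ∈ D k ∧ H k z = H n z := by
    intro n k hnk z hz
    have hnk' : (n:ℝ) ≤ k := by exact_mod_cast hnk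
    have h1 := hlocs ((k:ℝ) - n) (by linarith only [hnk']) _ hz
    rw [← LE_add] at h1
    have e1 : ((-((k:ℝ) - n) : ℝ) : ℂ) + ((-(n:ℝ) : ℝ) : ℂ) = ((-(k:ℝ) : ℝ) : ℂ) := by
      push_cast; ring
    rw [e1] at h1
    refine ⟨h1.1, ?_⟩
    simp only [hH]
    rw [← h1.2, ← hΦadd]
    congr 1
    ring
  have hFeq : ∀ n k, ∀ x, x ∈ S n → x ∈ S k → F n x = F k x := by
    intro n k x hn hk
    rw [← (hFmono n (max n k) (le_max_left _ _) x hn).2,
      (hFmono k (max n k) (le_max_right _ _) x hk).2]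
  have hHeq : ∀ n k, ∀ z, z ∈ D n → z ∈ D k → H n z = H k z := by
    intro n k z hn hk
    rw [← (hHmono n (max n k) (le_max_left _ _) z hn).2,
      (hHmono k (max n k) (le_max_right _ _) z hk).2]
  have hDex : ∀ z ∈ T, ∃ n, z ∈ D n := by
    intro z hz
    have h1 : Tendsto (fun n : ℕ => ‖φ (LE φ m ((-(n:ℝ) : ℝ) : ℂ) z)‖) atTop
        (𝓝 ‖φ (zeroProjL φ m z)‖) := by
      have h2 : Tendsto (fun n : ℕ => -(n:ℝ)) atTop atBot :=
        tendsto_neg_atTop_atBot.comp tendsto_natCast_atTop_atTop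
      exact ((φ.continuous.norm.tendsto _).comp (tendsto_LE_zeroProjL hm z)).comp h2
    obtain ⟨n, hn⟩ := (h1.eventually (gt_mem_nhds hz)).exists
    refine ⟨n, ?_⟩
    change _ ∈ e₀.target
    rw [htgt]
    exact hn
  have hDT : ∀ n, ∀ z ∈ D n, z ∈ T := by
    intro n z hz
    have h1 : LE φ m ((-(n:ℝ) : ℝ) : ℂ) z ∈ e₀.target := hz
    rw [htgt] at h1
    have h2 := norm_zeroProjL_le (φ := φ) (m := m) (LE φ m ((-(n:ℝ) : ℝ) : ℂ) z)
    rw [zeroProjL_LE] at h2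
    exact h2.trans_lt h1
  have hFD : ∀ n, ∀ x ∈ S n, F n x ∈ D n ∧ H n (F n x) = x := by
    intro n x hx
    have h1 : LE φ m ((-(n:ℝ) : ℝ) : ℂ) (F n x) = e₀ (Φ (-(n:ℝ)) x) := hLcancel' _ _
    refine ⟨?_, ?_⟩
    · change LE φ m ((-(n:ℝ) : ℝ) : ℂ) (F n x) ∈ e₀.target
      rw [h1]
      exact e₀.map_source hx
    · change Φ (n:ℝ) (e₀.symm (LE φ m ((-(n:ℝ) : ℝ) : ℂ) (F n x))) = x
      rw [h1, e₀.left_inv hx, hcancel]
  have hHS : ∀ n, ∀ z ∈ D n, H n z ∈ S n ∧ F n (H n z) = z := by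
    intro n z hz
    have h1 : Φ (-(n:ℝ)) (H n z) = e₀.symm (LE φ m ((-(n:ℝ) : ℝ) : ℂ) z) := hcancel' _ _
    refine ⟨?_, ?_⟩
    · change Φ (-(n:ℝ)) (H n z) ∈ e₀.source
      rw [h1]
      exact e₀.map_target hz
    · change LE φ m (((n:ℝ) : ℝ) : ℂ) (e₀ (Φ (-(n:ℝ)) (H n z))) = z
      rw [h1, e₀.right_inv hz, hLcancel]
  have hFdiff : ∀ n, ∀ x ∈ S n, ContMDiffAt 𝓘(ℂ, E) 𝓘(ℂ, E) 1 (F n) x := by
    intro n x hx
    refine contMDiffAt_of_mdiff (hSo n) hx fun y hy => ?_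
    have h1 : MDifferentiableAt 𝓘(ℂ, E) 𝓘(ℂ, E) (Φ (-(n:ℝ))) y := hΦhol _ y
    have h2 : MDifferentiableAt 𝓘(ℂ, E) 𝓘(ℂ, E) e₀ (Φ (-(n:ℝ)) y) :=
      ((contMDiffOn_of_mem_maximalAtlas he₀).contMDiffAt
        (e₀.open_source.mem_nhds hy)).mdifferentiableAt (by simp)
    have h3 : MDifferentiableAt 𝓘(ℂ, E) 𝓘(ℂ, E) (LE φ m (((n:ℝ) : ℝ) : ℂ)) (e₀ (Φ (-(n:ℝ)) y)) :=
      (differentiable_LE_right _ _).mdifferentiableAt
    have h4 := h3.comp y (h2.comp y h1)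
    exact h4
  have hHdiff : ∀ n, ∀ z ∈ D n, ContMDiffAt 𝓘(ℂ, E) 𝓘(ℂ, E) 1 (H n) z := by
    intro n z hz
    refine contMDiffAt_of_mdiff (hDo n) hz fun y hy => ?_
    have h1 : MDifferentiableAt 𝓘(ℂ, E) 𝓘(ℂ, E) (LE φ m ((-(n:ℝ) : ℝ) : ℂ)) y :=
      (differentiable_LE_right _ _).mdifferentiableAt
    have h2 : MDifferentiableAt 𝓘(ℂ, E) 𝓘(ℂ, E) e₀.symm (LE φ m ((-(n:ℝ) : ℝ) : ℂ) y) :=
      ((contMDiffOn_symm_of_mem_maximalAtlas he₀).contMDiffAt
        (e₀.open_target.mem_nhds hy)).mdifferentiableAt (by simp)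
    have h3 : MDifferentiableAt 𝓘(ℂ, E) 𝓘(ℂ, E) (Φ (n:ℝ))
      (e₀.symm (LE φ m ((-(n:ℝ) : ℝ) : ℂ) y)) := hΦhol _ _
    have h4 := h3.comp y (h2.comp y h1)
    exact h4
  -- the global maps
  set f : M → E := fun x => if h : ∃ n, x ∈ S n then F h.choose x else 0 with hf
  set g : E → M := fun z => if h : ∃ n, z ∈ D n then H h.choose z else e₀.symm 0 with hg
  have hfF : ∀ n, ∀ x ∈ S n, f x = F n x := by
    intro n x hx
    have h : ∃ n, x ∈ S n := ⟨n, hx⟩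
    simp only [hf, dif_pos h]
    exact hFeq _ _ x h.choose_spec hx
  have hgH : ∀ n, ∀ z ∈ D n, g z = H n z := by
    intro n z hz
    have h : ∃ n, z ∈ D n := ⟨n, hz⟩
    simp only [hg, dif_pos h]
    exact hHeq _ _ z h.choose_spec hz
  have hfd : ∀ x, (∃ n, x ∈ S n) → ContMDiffAt 𝓘(ℂ, E) 𝓘(ℂ, E) 1 f x := by
    rintro x ⟨n, hx⟩
    refine (hFdiff n x hx).congr_of_eventuallyEq ?_
    filter_upwards [(hSo n).mem_nhds hx] with y hy
    exact hfF n y hy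
  have hgd : ∀ z ∈ T, ContMDiffAt 𝓘(ℂ, E) 𝓘(ℂ, E) 1 g z := by
    intro z hz
    obtain ⟨n, hz⟩ := hDex z hz
    refine (hHdiff n z hz).congr_of_eventuallyEq ?_
    filter_upwards [(hDo n).mem_nhds hz] with y hy
    exact hgH n y hy
  have hsrc : {x : M | ∃ n, x ∈ S n} = ⋃ n, S n := by ext x; simp
  let e : OpenPartialHomeomorph M E :=
    { toFun := f
      invFun := g
      source := {x | ∃ n, x ∈ S n}
      target := T
      map_source' := by
        rintro x ⟨n, hx⟩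
        rw [hfF n x hx]
        exact hDT n _ (hFD n x hx).1
      map_target' := fun z hz => by
        obtain ⟨n, hz⟩ := hDex z hz
        rw [hgH n z hz]
        exact ⟨n, (hHS n z hz).1⟩
      left_inv' := by
        rintro x ⟨n, hx⟩
        rw [hfF n x hx, hgH n _ (hFD n x hx).1]
        exact (hFD n x hx).2
      right_inv' := fun z hz => by
        obtain ⟨n, hz⟩ := hDex z hz
        rw [hgH n z hz, hfF n _ (hHS n z hz).1]
        exact (hHS n z hz).2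
      open_source := by rw [hsrc]; exact isOpen_iUnion hSo
      open_target := hTo
      continuousOn_toFun := fun x hx => (hfd x hx).continuousAt.continuousWithinAt
      continuousOn_invFun := fun z hz => (hgd z hz).continuousAt.continuousWithinAt }
  have hS0 : ∀ x ∈ e₀.source, x ∈ S 0 := by
    intro x hx
    change Φ (-((0:ℕ):ℝ)) x ∈ e₀.source
    simpa [hΦ0] using hx
  refine ⟨e, ?_, rfl, fun x => Iff.rfl, fun x hx => ?_, fun n x hx => hfF n x hx, ?_⟩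
  · exact OpenPartialHomeomorph.mem_maximalAtlas_of_contMDiffOn e
      (fun x hx => (hfd x hx).contMDiffWithinAt) (fun z hz => (hgd z hz).contMDiffWithinAt)
  · change f x = e₀ x
    rw [hfF 0 x (hS0 x hx)]
    simp only [hF]
    simp [hΦ0, LE_zero]
  · rintro θ x ⟨n, hx⟩
    have h1 := hequiv θ _ hx
    rw [hcomm] at h1
    have h2 : ρ θ x ∈ S n := h1.1
    refine ⟨⟨n, h2⟩, ?_⟩
    change f (ρ θ x) = LE φ m (θ * I) (f x)
    rw [hfF n x hx, hfF n _ h2]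
    simp only [hF]
    rw [h1.2, ← LE_add, ← LE_add, add_comm]

/-- **local triviality** of the retraction `P` over the fixed point set -/
theorem exists_trivialization (hK : IsKahler E M) [CompleteSpace M] [NoncompactSpace M]
    (hnn : ∀ x : M, NonnegBisectionalAt E x) (hpos : ∀ x : M, PosBisectionalAt E x)
    (hρ : IsHolIsomFlow E ρ) (hF : IsFlow E ρ Φ) (hcomm : ∀ θ t x, ρ θ (Φ t x) = Φ t (ρ θ x))
    {P : M → M} (hPfix : ∀ x t, ρ t (P x) = P x) (hPlim : ∀ x, Tendsto (fun t => Φ t x) atBot (𝓝 (P x)))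
    {q : M} (hq : ∀ t, ρ t q = q) :
    ∃ e ∈ maximalAtlas 𝓘(ℂ, E) 1 M, q ∈ e.source ∧ e q = 0 ∧
      (∀ (θ : ℝ), ∀ x ∈ e.source, ρ θ x ∈ e.source ∧
        e (ρ θ x) = (mfderiv 𝓘(ℂ, E) 𝓘(ℂ, E) (ρ θ) q : E → E) (e x)) ∧
      ∃ Q : E →L[ℂ] E, (∀ z, Q (Q z) = Q z) ∧
        (∀ z, Q z = z ↔ ∀ θ : ℝ, (mfderiv 𝓘(ℂ, E) 𝓘(ℂ, E) (ρ θ) q : E → E) z = z) ∧
        (∀ x, x ∈ e.source ↔ P x ∈ e.source) ∧ (∀ z, z ∈ e.target ↔ Q z ∈ e.target) ∧
        ∀ x ∈ e.source, e (P x) = Q (e x) := by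
  have hB : BackConv ρ Φ := fun x => ⟨P x, hPfix x, hPlim x⟩
  have hshift : ∀ T y, P (Φ T y) = P y := by
    intro T y
    refine tendsto_nhds_unique (hPlim (Φ T y)) ?_
    have h1 : Tendsto (fun t : ℝ => Φ (t + T) y) atBot (𝓝 (P y)) :=
      (hPlim y).comp (tendsto_atBot_add_const_right atBot T tendsto_id)
    refine h1.congr fun t => ?_
    rw [hF.add]
  obtain ⟨b, m, hw⟩ := exists_real_weights hK hρ hq
  have hm : ∀ j, 0 ≤ m j := weights_nonneg hK hnn hpos hρ hF hB hq hw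
  set φ : E ≃L[ℂ] (Fin (finrank ℂ E) → ℂ) := b.equivFun.toContinuousLinearEquiv with hφ
  have hw' := Vale.Agent.P253.U165.weights_LE hw
  obtain ⟨e₀, he₀, δ, hδ, hpe, hep, htgt, hequiv⟩ := exists_linearizing_chart hρ hq φ m hw'
  have hloc : ∀ t : ℝ, t ≤ 0 → ∀ x ∈ e₀.source,
      Φ t x ∈ e₀.source ∧ e₀ (Φ t x) = LE φ m ((t : ℝ) : ℂ) (e₀ x) := by
    intro t ht y hy
    set z := e₀ y with hz
    have hzt : z ∈ e₀.target := e₀.map_source hy
    have hzn : ‖φ z‖ < δ := by rw [htgt] at hzt; exact hzt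
    have hback : ∀ s : ℝ, s ≤ 0 → LE φ m (s : ℂ) z ∈ e₀.target := by
      intro s hs
      rw [htgt]
      exact (norm_LE_back hm hs z).trans_lt hzn
    have hc : Continuous (fun s : ℝ => LE φ m (s : ℂ) z) :=
      continuous_LE.comp (continuous_ofReal.prodMk continuous_const)
    obtain ⟨ε, hε, hεb⟩ : ∃ ε > 0, ∀ s : ℝ, |s| < ε → LE φ m (s : ℂ) z ∈ e₀.target := by
      have h1 : ∀ᶠ s : ℝ in 𝓝 0, LE φ m (s : ℂ) z ∈ e₀.target := by
        apply hc.continuousAt.eventually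
        apply e₀.open_target.mem_nhds
        simpa [LE_zero] using hzt
      obtain ⟨ε, hε, h2⟩ := Metric.eventually_nhds_iff.1 h1
      exact ⟨ε, hε, fun s hs => h2 (by simpa [Real.dist_eq] using hs)⟩
    have hall : ∀ s : ℝ, s < ε → LE φ m (s : ℂ) z ∈ e₀.target := by
      intro s hs
      by_cases hs0 : s ≤ 0
      · exact hback s hs0
      · push Not at hs0
        exact hεb s (by rwa [abs_of_pos hs0])
    have h1 := flow_chart hρ hF he₀ hequiv (z := z) (a := t - 1) (b := ε)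
      ⟨by linarith, hε⟩ (fun s hs => hall s hs.2) t ⟨by linarith, by linarith⟩
    rw [hz, e₀.left_inv hy] at h1
    rw [h1]
    exact ⟨e₀.map_target (hback t ht), e₀.right_inv (hback t ht)⟩
  obtain ⟨e, he, htgt', hsrc, hee₀, hen, heq⟩ := exists_tube_chart hm he₀ htgt hF.zero hF.add
    (flow_holo hρ hF.zero hF.add hF.curve) hloc hequiv hcomm
  have h0t : (0 : E) ∈ e₀.target := by rw [← hep]; exact e₀.map_source hpe
  -- the projection in the linearizing chart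
  have hPloc : ∀ y ∈ e₀.source, P y ∈ e₀.source ∧ e₀ (P y) = zeroProjL φ m (e₀ y) := by
    intro y hy
    have hyt : e₀ y ∈ e₀.target := e₀.map_source hy
    have hQt : zeroProjL φ m (e₀ y) ∈ e₀.target := by
      rw [htgt] at hyt ⊢
      exact (norm_zeroProjL_le _).trans_lt hyt
    have h1 : P y = e₀.symm (zeroProjL φ m (e₀ y)) := by
      refine tendsto_nhds_unique (hPlim y) ?_
      refine ((e₀.continuousAt_symm hQt).tendsto.comp
        (tendsto_LE_zeroProjL hm (e₀ y))).congr' ?_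
      filter_upwards [eventually_le_atBot 0] with t ht
      simp only [Function.comp_apply]
      rw [← (hloc t ht y hy).2, e₀.left_inv (hloc t ht y hy).1]
    rw [h1]
    exact ⟨e₀.map_target hQt, e₀.right_inv hQt⟩
  have hPn : ∀ x (n : ℕ), Φ (-(n:ℝ)) (P x) = P x := by
    intro x n
    have h1 : Tendsto (fun t : ℝ => Φ (-(n:ℝ)) (Φ t x)) atBot (𝓝 (Φ (-(n:ℝ)) (P x))) :=
      ((hF.smooth hρ (-(n:ℝ))).continuous.tendsto _).comp (hPlim x)
    have h2 : Tendsto (fun t : ℝ => Φ (-(n:ℝ) + t) x) atBot (𝓝 (P x)) :=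
      (hPlim x).comp (tendsto_atBot_add_const_left atBot (-(n:ℝ)) tendsto_id)
    refine tendsto_nhds_unique h1 (h2.congr fun t => ?_)
    rw [hF.add]
  have hsrcP : ∀ x, x ∈ e.source ↔ P x ∈ e.source := by
    intro x
    rw [hsrc, hsrc]
    constructor
    · rintro ⟨n, hn⟩
      refine ⟨n, ?_⟩
      rw [hPn, ← hshift (-(n:ℝ)) x]
      exact (hPloc _ hn).1
    · rintro ⟨n, hn⟩
      rw [hPn] at hn
      have h1 : Tendsto (fun k : ℕ => Φ (-(k:ℝ)) x) atTop (𝓝 (P x)) :=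
        (hPlim x).comp (tendsto_neg_atTop_atBot.comp tendsto_natCast_atTop_atTop)
      obtain ⟨k, hk⟩ := (h1.eventually (e₀.open_source.mem_nhds hn)).exists
      exact ⟨k, hk⟩
  have hqe : q ∈ e.source := (hsrc q).2 ⟨0, by
    simpa [hF.zero] using hpe⟩
  refine ⟨e, he, hqe, by rw [hee₀ q hpe, hep], fun θ x hx => ?_, zeroProjL φ m, zeroProjL_idem,
    fun z => ?_, hsrcP, fun z => ?_, fun x hx => ?_⟩
  · obtain ⟨h1, h2⟩ := heq θ x hx
    refine ⟨h1, ?_⟩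
    rw [h2, hw' θ (e x)]
  · rw [zeroProjL_eq_iff]
    exact forall_congr' fun θ => by
      rw [hw' θ z]
      exact Iff.rfl
  · rw [htgt', mem_ofPred_eq, mem_ofPred_eq, zeroProjL_idem]
  · obtain ⟨n, hn⟩ := (hsrc x).1 hx
    obtain ⟨h1, h2⟩ := hPloc _ hn
    rw [hshift] at h1 h2
    rw [hee₀ _ h1, h2, hen n x hn, zeroProjL_LE]

/-- the final statement -/
theorem main_tube [CompleteSpace M] [NoncompactSpace M] [ConnectedSpace M]
    (hK : IsKahler E M) (hpos : ∀ x : M, PosBisectionalAt E x)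
    (hh : ContMDiff 𝓘(ℝ, E) 𝓘(ℝ, ℝ) ∞ h) (hρ : IsJGradFlow E h ρ)
    (hsub : ∀ ε > 0, ∃ C, ∀ x, -(ε * dist x₀ x) - C ≤ h x) :
    ∃ P : M → M, MDifferentiable 𝓘(ℂ, E) 𝓘(ℂ, E) P ∧ (∀ x, P (P x) = P x) ∧
      (∀ x, mfderiv 𝓘(ℝ, E) 𝓘(ℝ, ℝ) h x = 0 ↔ P x = x) ∧ (∀ x, P x = x ↔ ∀ y, h x ≤ h y) ∧
      (∀ x, ∃ γ : ℝ → M, γ 0 = x ∧ IsDescent E h γ) ∧
      (∀ γ : ℝ → M, IsDescent E h γ → ∃ C s, 0 < s ∧
        ∀ t, 0 ≤ t → dist (γ t) (P (γ 0)) ≤ C * Real.exp (-(s * t))) ∧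
      ∀ q, P q = q → ∃ e ∈ maximalAtlas 𝓘(ℂ, E) 1 M, q ∈ e.source ∧ e q = 0 ∧
        (∀ (θ : ℝ), ∀ x ∈ e.source, ρ θ x ∈ e.source ∧
          e (ρ θ x) = (mfderiv 𝓘(ℂ, E) 𝓘(ℂ, E) (ρ θ) q : E → E) (e x)) ∧
        ∃ Q : E →L[ℂ] E, (∀ z, Q (Q z) = Q z) ∧
          (∀ z, Q z = z ↔ ∀ θ : ℝ, (mfderiv 𝓘(ℂ, E) 𝓘(ℂ, E) (ρ θ) q : E → E) z = z) ∧
          (∀ x, x ∈ e.source ↔ P x ∈ e.source) ∧ (∀ z, z ∈ e.target ↔ Q z ∈ e.target) ∧
          ∀ x ∈ e.source, e (P x) = Q (e x) := by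
  have hnn : ∀ x : M, NonnegBisectionalAt E x := fun x => (hpos x).nonneg
  have hgrad := isGradOf_flow hK hh hρ
  have hfix := hρ.fixed_iff hK hh
  obtain ⟨p₀, hp₀, hpi⟩ := crit_iff_min hK hpos hρ.1 hgrad hsub
  obtain ⟨Φ, hΦ0, hΦadd, hΦ, hcomm⟩ := exists_flow hK hnn hρ.1
  have hF : IsFlow E ρ Φ := ⟨hΦ0, hΦadd, hΦ⟩
  have hB := backConv hK hnn hρ.1 hgrad hsub hF
  obtain ⟨P, hPd, hPfix, hPlim⟩ := exists_retraction hK hnn hpos hρ.1 hF hB
  have hdesc : ∀ γ : ℝ → M, IsDescent E h γ → ∀ t, γ t = Φ (-t) (γ 0) := by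
    intro γ hγ
    have h1 := (isDescent_iff hρ.1 hgrad).1 hγ
    have h2 := isMIntegralCurve_Ioo_eq_of_contMDiff_boundaryless (t₀ := 0)
      (contMDiff_W hρ.1.rev) h1 ((IsFlow.rev hF).curve (γ 0)) (by simp [hΦ0])
    exact fun t => congrFun h2 t
  have hPiff : ∀ x, (∀ t, ρ t x = x) ↔ P x = x := by
    intro x
    constructor
    · intro hx
      have h1 := hdesc _ (isDescent_const hgrad hx)
      refine tendsto_nhds_unique (hPlim x) (tendsto_const_nhds.congr fun t => ?_)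
      have h2 := h1 (-t)
      rwa [neg_neg] at h2
    · intro hx
      rw [← hx]
      exact hPfix x
  refine ⟨P, hPd, fun x => (hPiff _).1 (hPfix x), fun x => (hfix x).symm.trans (hPiff x),
    fun x => (hPiff x).symm.trans ((hpi x).trans ⟨fun hx y => ?_, fun hx => ?_⟩), fun x => ?_,
    fun γ hγ => ?_, fun q hq => ?_⟩
  · rw [hx]
    exact hp₀ y
  · exact le_antisymm (hx p₀) (hp₀ x)
  · obtain ⟨γ, h0, hγ⟩ := exists_global_curve (E := E) hK hnn hρ.1.rev x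
    exact ⟨γ, h0, (isDescent_iff hρ.1 hgrad).2 hγ⟩
  · obtain ⟨p, hp, C, s, hs, hl⟩ := descent_lim hK hnn hρ.1 hgrad hsub hγ
    have h1 : Tendsto (fun t : ℝ => C * Real.exp (-(s * t))) atTop (𝓝 0) := by
      have h2 : Tendsto (fun t : ℝ => s * t) atTop atTop := tendsto_id.const_mul_atTop hs
      have h3 := (Real.tendsto_exp_neg_atTop_nhds_zero.comp h2).const_mul C
      rwa [mul_zero] at h3
    have h2 : Tendsto γ atTop (𝓝 p) := by
      rw [tendsto_iff_dist_tendsto_zero]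
      refine squeeze_zero' (Eventually.of_forall fun t => dist_nonneg) ?_ h1
      filter_upwards [eventually_ge_atTop 0] with t ht using hl t ht
    have h3 : Tendsto γ atTop (𝓝 (P (γ 0))) := by
      refine ((hPlim (γ 0)).comp tendsto_neg_atTop_atBot).congr fun t => ?_
      exact (hdesc γ hγ t).symm
    have h4 := tendsto_nhds_unique h3 h2
    rw [h4]
    exact ⟨C, s, hs, hl⟩
  · exact exists_trivialization hK hnn hpos hρ.1 hF hcomm hPfix hPlim ((hPiff q).2 hq)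

end Vale.Agent.P253.H348
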